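import Mathlib

/-!
P092 (helper899), group facts: `SL_n(k)` over an infinite field is generated by elementary matrices,
perfect, and its noncentral normal subgroups are everything.
-/

set_option linter.all false

namespace Vale.Agent.P092.H899

open Matrix Matrix.SpecialLinearGroup
open scoped Pointwise LinearAlgebra.Projectivization commutatorElement

variable {n : Type*} [Fintype n] [DecidableEq n] {k : Type*} [Field k]

theorem diag2n_coe' {i j : n} (hij : i ≠ j) (x : k) (hx : x ≠ 0) :
    (diag2n hij x hx : Matrix n n k) = 1 + single i i (x - 1) + single j j (x⁻¹ - 1) := by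
  rw [diag2n_coe]
  ext p q
  rcases eq_or_ne p q with rfl | hpq
  · rcases eq_or_ne p i with rfl | hi
    · simp [Matrix.single_apply, hij, hij.symm]
    · rcases eq_or_ne p j with rfl | hj
      · simp [Matrix.single_apply, hi, hi.symm]
      · simp [Matrix.single_apply, hi, hj, hi.symm, hj.symm]
  · have h1 : ¬ (i = p ∧ i = q) := fun h => hpq (h.1.symm.trans h.2)
    have h2 : ¬ (j = p ∧ j = q) := fun h => hpq (h.1.symm.trans h.2)
    simp [Matrix.single_apply, hpq, h1, h2]

/-- Whitehead's lemma with parameters. -/
theorem diag2n_eq {i j : n} (hij : i ≠ j) (a b x : k) (hx : x ≠ 0) (h : a * b = x - 1) :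
    diag2n hij x hx = transvection hij a * transvection hij.symm b *
      transvection hij (-(a / x)) * transvection hij.symm (-(b * x)) := by
  refine Subtype.ext ?_
  show (diag2n hij x hx).1 = (transvection hij a).1 * (transvection hij.symm b).1 *
    (transvection hij (-(a / x))).1 * (transvection hij.symm (-(b * x))).1
  simp only [transvection_coe, diag2n_coe', mul_add, add_mul, mul_one, one_mul, single_mul_single_same,
    single_mul_single_of_ne _ _ _ _ hij, single_mul_single_of_ne _ _ _ _ hij.symm, zero_mul,
    add_zero, zero_add, mul_zero]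
  have e2 : b * -(a / x) = x⁻¹ - 1 := by
    have : b * -(a / x) = -(a * b / x) := by ring
    rw [this, h]; field_simp; ring
  have e3 : (x - 1) * -(a / x) = -a + a / x := by field_simp; ring
  have e4 : a * -(b * x) = -((x - 1) * x) := by rw [← h]; ring
  have e5 : (-a + a / x) * -(b * x) = (x - 1) * x - (x - 1) := by
    have : (-a + a / x) * -(b * x) = (a * b) * x - (a * b) * (x / x) := by ring
    rw [this, h, div_self hx, mul_one]
  have e6 : -(a / x) * -(b * x) = x - 1 := by
    have : -(a / x) * -(b * x) = (a * b) * (x / x) := by ring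
    rw [this, h, div_self hx, mul_one]
  have e7 : (x⁻¹ - 1) * -(b * x) = -b + b * x := by
    have : (x⁻¹ - 1) * -(b * x) = -(b * (x⁻¹ * x)) + b * x := by ring
    rw [this, inv_mul_cancel₀ hx, mul_one]
  simp only [h, e2, e3, e4, e5, e6, e7]
  have s1 : single i j (-a + a / x) = -single i j a + single i j (a / x) := by
    rw [single_add, single_neg]
  ext p q
  simp only [Matrix.add_apply, Matrix.single_apply]
  by_cases hp : i = p
  · subst hp
    by_cases hq : i = q
    · subst hq
      simp [hij.symm]
    · by_cases hq' : j = q
      · subst hq'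
        simp [hij, hij.symm]
        
      · simp [hq, hq']
  · by_cases hp' : j = p
    · subst hp'
      by_cases hq : i = q
      · subst hq
        simp [hij, hij.symm]
        
      · by_cases hq' : j = q
        · subst hq'
          simp [hij, hij.symm]
          
        · simp [hq, hq']
    · simp [hp, hp']

theorem eq_top_of_e [Nontrivial n] (N : Subgroup (SpecialLinearGroup n k))
    (h : ∀ (i j : n) (hij : i ≠ j) (c : k), transvection hij c ∈ N) : N = ⊤ := by
  refine top_le_iff.1 fun g _ => ?_
  refine diagonal_transvection_induction' (fun g => g ∈ N) g ?_ h (fun _ _ => N.mul_mem)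
  intro i j hij c hc
  rw [diag2n_eq hij (c - 1) 1 c hc (mul_one _)]
  exact N.mul_mem (N.mul_mem (N.mul_mem (h _ _ _ _) (h _ _ _ _)) (h _ _ _ _)) (h _ _ _ _)

theorem exists_sq_ne [Infinite k] : ∃ a : k, a ≠ 0 ∧ a ^ 2 ≠ 1 := by
  classical
  obtain ⟨a, ha⟩ := Infinite.exists_notMem_finset ({0, 1, -1} : Finset k)
  simp only [Finset.mem_insert, Finset.mem_singleton, not_or] at ha
  refine ⟨a, ha.1, fun h => ?_⟩
  have h0 : (a - 1) * (a + 1) = 0 := by linear_combination h
  rcases mul_eq_zero.1 h0 with h | h
  · exact ha.2.1 (by linear_combination h)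
  · exact ha.2.2 (by linear_combination h)

theorem comm_diag2n {i j : n} (hij : i ≠ j) (x : k) (hx : x ≠ 0) (c : k) :
    ⁅diag2n hij x hx, transvection hij c⁆ = transvection hij ((x ^ 2 - 1) * c) := by
  rw [commutatorElement_def, mul_inv_eq_iff_eq_mul, mul_inv_eq_iff_eq_mul]
  refine Subtype.ext ?_
  show (diag2n hij x hx).1 * (transvection hij c).1 =
    (transvection hij ((x ^ 2 - 1) * c)).1 * (transvection hij c).1 * (diag2n hij x hx).1
  rw [transvection_coe, transvection_coe, diag2n_coe, Matrix.mul_add, Matrix.add_mul, Matrix.one_mul,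
    Matrix.mul_add, single_mul_single_of_ne _ _ _ _ hij.symm, add_zero, Matrix.mul_one, Matrix.mul_one,
    Matrix.add_mul, Matrix.add_mul, Matrix.one_mul, add_assoc]
  congr 1
  ext p q
  simp only [Matrix.add_apply, Matrix.diagonal_mul, Matrix.mul_diagonal, Matrix.single_apply]
  by_cases hp : i = p
  · subst hp
    by_cases hq : j = q
    · subst hq
      simp [hij.symm]
      field_simp
      ring
    · simp [hq]
  · simp [hp]


noncomputable def iwa [Nontrivial n] :
    MulAction.IwasawaStructure (SpecialLinearGroup n k) (ℙ k (n → k)) where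
  T p := lineStab p.submodule
  is_comm p := by
    rw [← Projectivization.mk_rep p, Projectivization.submodule_mk]
    exact lineStab_isMulCommutative_of_span p.rep p.rep_nonzero
  is_conj g p := by
    rw [PSL.smul_submodule, lineStab_smul]
  is_generator := by
    refine eq_top_of_e _ fun i j hij c => ?_
    have h1 := SL2Gen.transvection_mem_lineStab (F := k) hij c
    rw [← Projectivization.submodule_mk (K := k) _ (Pi.single_ne_zero_iff.2 one_ne_zero)] at h1
    exact (le_iSup (fun p : ℙ k (n → k) => lineStab p.submodule) _) h1

theorem commutator_eq_top [Nontrivial n] [Infinite k] :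
    commutator (SpecialLinearGroup n k) = ⊤ := by
  obtain ⟨a, ha, ha2⟩ := exists_sq_ne (k := k)
  refine eq_top_of_e _ fun i j hij c => ?_
  have h : a ^ 2 - 1 ≠ 0 := sub_ne_zero.2 ha2
  have e := comm_diag2n hij a ha (c / (a ^ 2 - 1))
  rw [mul_div_cancel₀ c h] at e
  rw [← e]
  exact Subgroup.commutator_mem_commutator (Subgroup.mem_top _) (Subgroup.mem_top _)

/-- `SL_n(k)`, `k` infinite, `n ≥ 2`, is perfect: every homomorphism to a commutative group is
trivial. -/
theorem hom_eq_one [Nontrivial n] [Infinite k] {A : Type*} [CommGroup A]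
    (f : SpecialLinearGroup n k →* A) : f = 1 := by
  have h : commutator (SpecialLinearGroup n k) ≤ f.ker := Abelianization.commutator_subset_ker f
  rw [commutator_eq_top] at h
  ext g
  exact MonoidHom.mem_ker.1 (h (Subgroup.mem_top g))

/-- A normal subgroup of `SL_n(k)`, `k` infinite, `n ≥ 2`, is central or everything. -/
theorem normal_le_center_or_top [Nontrivial n] [Infinite k]
    (N : Subgroup (SpecialLinearGroup n k)) [N.Normal] :
    N ≤ Subgroup.center (SpecialLinearGroup n k) ∨ N = ⊤ := by
  by_cases h : MulAction.fixedPoints N (ℙ k (n → k)) = .univ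
  · left
    rw [← Projectivization.SL_mulAction_ker]
    intro g hg
    rw [MonoidHom.mem_ker]
    ext p
    have := Set.eq_univ_iff_forall.1 h p ⟨g, hg⟩
    simpa using this
  · right
    have := (iwa (n := n) (k := k)).commutator_le N h
    rw [commutator_eq_top] at this
    exact top_le_iff.1 this

/-- The conjugates of a noncentral element generate `SL_n(k)`. -/
theorem normalClosure_eq_top [Nontrivial n] [Infinite k] {g : SpecialLinearGroup n k}
    (hg : g ∉ Subgroup.center (SpecialLinearGroup n k)) : Subgroup.normalClosure {g} = ⊤ :=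
  (normal_le_center_or_top (Subgroup.normalClosure {g})).resolve_left fun h =>
    hg (h (Subgroup.subset_normalClosure rfl))

end Vale.Agent.P092.H899
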