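import Vale.Agent.P092.H899.T1

/-!
P092 (helper899), block [TGT-G], part 1: attracting subspaces at level `δ` for matrices over any
index type: uniqueness, transport, stability, choice of the attracting place.
-/

set_option linter.all false

open Matrix Topology Module Set Filter

namespace Vale.Agent.P092.H899.G

open Vale.Agent.P092.H100.Gr (Gr)
open Vale.Agent.P092.H899.T (Nr uc_near)

section att

variable {k : Type*} [NontriviallyNormedField k] {ι : Type*} [Fintype ι]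

theorem norm_mulVec_le {A : Matrix ι ι k} {C : ℝ} (hC : 0 ≤ C) (h : ∀ i j, ‖A i j‖ ≤ C)
    (v : ι → k) : ‖A *ᵥ v‖ ≤ Fintype.card ι * C * ‖v‖ := by
  rw [pi_norm_le_iff_of_nonneg (by positivity)]
  intro i
  refine (norm_sum_le _ _).trans ?_
  calc ∑ j, ‖A i j * v j‖ ≤ ∑ _j : ι, C * ‖v‖ := by
        refine Finset.sum_le_sum fun j _ => ?_
        rw [norm_mul]
        exact mul_le_mul (h i j) (norm_le_pi_norm v j) (norm_nonneg _) hC
    _ = _ := by rw [Finset.sum_const, Finset.card_univ, nsmul_eq_mul]; ring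

/-- `L` is an attracting subspace of `z`, at level `δ`: `z` expands some `d`-dimensional subspace
by `c` at least and `z` is at distance at most `δ c` of a matrix with image in `L`. -/
def AtL (δ : ℝ) (d : ℕ) (z : Matrix ι ι k) (L : Submodule k (ι → k)) : Prop :=
  ∃ c : ℝ, 0 < c ∧ (∃ V : Submodule k (ι → k), finrank k V = d ∧ ∀ v ∈ V, c * ‖v‖ ≤ ‖z *ᵥ v‖) ∧
    ∃ A : Matrix ι ι k, (∀ v, A *ᵥ v ∈ L) ∧ ∀ v, ‖z *ᵥ v - A *ᵥ v‖ ≤ δ * c * ‖v‖

theorem AtL.mono {δ δ' : ℝ} (h : δ ≤ δ') {d : ℕ} {z : Matrix ι ι k}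
    {L : Submodule k (ι → k)} (hL : AtL δ d z L) : AtL δ' d z L := by
  obtain ⟨c, hc, hV, A, hA, hAv⟩ := hL
  exact ⟨c, hc, hV, A, hA, fun v => (hAv v).trans
    (mul_le_mul_of_nonneg_right (mul_le_mul_of_nonneg_right h hc.le) (norm_nonneg _))⟩

theorem nr_aux {z : Matrix ι ι k} {L L' : Submodule k (ι → k)} {c r : ℝ} {d : ℕ} (h0 : 0 ≤ r)
    (hr : r < c) (hd : finrank k L = d)
    (hX : ∃ V : Submodule k (ι → k), finrank k V = d ∧ ∀ v ∈ V, c * ‖v‖ ≤ ‖z *ᵥ v‖)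
    (hL : ∃ A : Matrix ι ι k, (∀ v, A *ᵥ v ∈ L) ∧ ∀ v, ‖z *ᵥ v - A *ᵥ v‖ ≤ r * ‖v‖)
    (hL' : ∃ A : Matrix ι ι k, (∀ v, A *ᵥ v ∈ L') ∧ ∀ v, ‖z *ᵥ v - A *ᵥ v‖ ≤ r * ‖v‖) :
    Nr (2 * r / (c - r)) L L' := by
  obtain ⟨V, hV, hc⟩ := hX
  obtain ⟨A, hA, h⟩ := hL
  obtain ⟨A', hA', h'⟩ := hL'
  have hcr : 0 < c - r := by linarith
  have low : ∀ v ∈ V, (c - r) * ‖v‖ ≤ ‖A *ᵥ v‖ := by
    intro v hv
    have h1 := hc v hv
    have h2 := h v
    have h3 : ‖z *ᵥ v‖ ≤ ‖z *ᵥ v - A *ᵥ v‖ + ‖A *ᵥ v‖ := by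
      calc ‖z *ᵥ v‖ = ‖(z *ᵥ v - A *ᵥ v) + A *ᵥ v‖ := by rw [sub_add_cancel]
        _ ≤ _ := norm_add_le _ _
    have e : (c - r) * ‖v‖ = c * ‖v‖ - r * ‖v‖ := by ring
    rw [e]
    linarith
  let F : V →ₗ[k] L :=
    { toFun := fun v => ⟨A *ᵥ v.1, hA v.1⟩
      map_add' := fun a b => Subtype.ext (mulVec_add A a.1 b.1)
      map_smul' := fun t a => Subtype.ext (mulVec_smul A t a.1) }
  have hF : Function.Injective F := by
    rw [injective_iff_map_eq_zero]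
    intro v hv
    have h1 : A *ᵥ v.1 = 0 := congrArg Subtype.val hv
    have h2 := low v.1 v.2
    rw [h1, norm_zero] at h2
    have h3 : ‖v.1‖ ≤ 0 := by
      by_contra hcon
      push Not at hcon
      have := mul_pos hcr hcon
      linarith
    exact Subtype.ext (norm_le_zero_iff.1 h3)
  have hFs : Function.Surjective F :=
    (LinearMap.injective_iff_surjective_of_finrank_eq_finrank (hV.trans hd.symm)).1 hF
  intro w hw
  obtain ⟨v, hv⟩ := hFs ⟨w, hw⟩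
  have hv' : A *ᵥ v.1 = w := congrArg Subtype.val hv
  refine ⟨A' *ᵥ v.1, hA' v.1, ?_⟩
  have h1 := low v.1 v.2
  rw [hv'] at h1
  have h2 := h v.1
  have h3 := h' v.1
  have h4 : ‖w - A' *ᵥ v.1‖ ≤ 2 * r * ‖v.1‖ := by
    calc ‖w - A' *ᵥ v.1‖ = ‖(z *ᵥ v.1 - A' *ᵥ v.1) - (z *ᵥ v.1 - A *ᵥ v.1)‖ := by
          rw [← hv']; congr 1; abel
      _ ≤ ‖z *ᵥ v.1 - A' *ᵥ v.1‖ + ‖z *ᵥ v.1 - A *ᵥ v.1‖ := norm_sub_le _ _
      _ ≤ _ := by linarith
  refine h4.trans ?_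
  rw [div_mul_eq_mul_div, le_div_iff₀ hcr]
  calc 2 * r * ‖v.1‖ * (c - r) = 2 * r * ((c - r) * ‖v.1‖) := by ring
    _ ≤ 2 * r * ‖w‖ := by gcongr

/-- **Uniqueness**: two attracting subspaces of the same matrix are near. -/
theorem AtL.nr {δ : ℝ} (h0 : 0 ≤ δ) (h1 : δ < 1) {d : ℕ} {z : Matrix ι ι k}
    {L L' : Submodule k (ι → k)} (hd : finrank k L = d) (hL : AtL δ d z L) (hL' : AtL δ d z L') :
    Nr (2 * δ / (1 - δ)) L L' := by
  obtain ⟨c, hc, hV, A, hA, hAv⟩ := hL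
  obtain ⟨c', hc', hV', A', hA', hAv'⟩ := hL'
  have hδ : 0 < 1 - δ := by linarith
  have key : ∀ C : ℝ, 0 < C → c ≤ C → c' ≤ C →
      (∃ V : Submodule k (ι → k), finrank k V = d ∧ ∀ v ∈ V, C * ‖v‖ ≤ ‖z *ᵥ v‖) →
      Nr (2 * δ / (1 - δ)) L L' := by
    intro C hC h2 h3 hX
    have h4 : δ * C < C := by nlinarith
    have := nr_aux (mul_nonneg h0 hC.le) h4 hd hX
      ⟨A, hA, fun v => (hAv v).trans (mul_le_mul_of_nonneg_right
        (mul_le_mul_of_nonneg_left h2 h0) (norm_nonneg _))⟩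
      ⟨A', hA', fun v => (hAv' v).trans (mul_le_mul_of_nonneg_right
        (mul_le_mul_of_nonneg_left h3 h0) (norm_nonneg _))⟩
    have e : 2 * (δ * C) / (C - δ * C) = 2 * δ / (1 - δ) := by
      have e1 : C - δ * C ≠ 0 := by
        have : 0 < C - δ * C := by linarith
        exact this.ne'
      field_simp
    rwa [e] at this
  rcases le_total c c' with h | h
  · exact key c' hc' h le_rfl hV'
  · exact key c hc le_rfl h hV

variable [DecidableEq ι]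

/-- **Transport.** -/
theorem AtL.transport {N C : ℝ} (hN : N = Fintype.card ι * C) (hC : 0 ≤ C) (hN1 : 1 ≤ N)
    {s si u ui : Matrix ι ι k} (hs : si * s = 1) (hu : u * ui = 1)
    (h1 : ∀ i j, ‖s i j‖ ≤ C) (h2 : ∀ i j, ‖si i j‖ ≤ C) (h3 : ∀ i j, ‖u i j‖ ≤ C)
    (h4 : ∀ i j, ‖ui i j‖ ≤ C) {δ : ℝ} (h0 : 0 ≤ δ) {d : ℕ} {x z : Matrix ι ι k}
    {L : Submodule k (ι → k)} (hL : AtL δ d x L) {t : k} (ht : ‖t‖ = 1)
    (hz : z = t • (s * x * u)) : AtL (N ^ 4 * δ) d z (L.map s.mulVecLin) := by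
  obtain ⟨c, hc, ⟨V, hV, hVc⟩, A, hA, hAv⟩ := hL
  have hN0 : 0 < N := by linarith
  have bs : ∀ v, ‖s *ᵥ v‖ ≤ N * ‖v‖ := fun v => by rw [hN]; exact norm_mulVec_le hC h1 v
  have bsi : ∀ v, ‖si *ᵥ v‖ ≤ N * ‖v‖ := fun v => by rw [hN]; exact norm_mulVec_le hC h2 v
  have bu : ∀ v, ‖u *ᵥ v‖ ≤ N * ‖v‖ := fun v => by rw [hN]; exact norm_mulVec_le hC h3 v
  have bui : ∀ v, ‖ui *ᵥ v‖ ≤ N * ‖v‖ := fun v => by rw [hN]; exact norm_mulVec_le hC h4 v
  have hz' : ∀ v, z *ᵥ v = t • (s *ᵥ (x *ᵥ (u *ᵥ v))) := fun v => by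
    rw [hz, smul_mulVec, ← mulVec_mulVec, ← mulVec_mulVec]
  have hui : Function.Injective ui.mulVecLin := by
    intro v w h
    have h' : ui *ᵥ v = ui *ᵥ w := h
    have := congrArg (fun y => u *ᵥ y) h'
    simpa only [mulVec_mulVec, hu, one_mulVec] using this
  refine ⟨c / N ^ 2, by positivity, ⟨V.map ui.mulVecLin, ?_, ?_⟩, t • (s * A * u), ?_, ?_⟩
  · rw [← hV]
    exact (LinearEquiv.finrank_eq (Submodule.equivMapOfInjective _ hui V)).symm
  · rintro _ ⟨v, hv, rfl⟩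
    rw [mulVecLin_apply, hz', norm_smul, ht, one_mul]
    have e : u *ᵥ (ui *ᵥ v) = v := by rw [mulVec_mulVec, hu, one_mulVec]
    rw [e]
    have a1 := hVc v hv
    have a2 := bui v
    have a3 : ‖x *ᵥ v‖ ≤ N * ‖s *ᵥ (x *ᵥ v)‖ := by
      have h5 := bsi (s *ᵥ (x *ᵥ v))
      have e5 : si *ᵥ (s *ᵥ (x *ᵥ v)) = x *ᵥ v := by
        rw [mulVec_mulVec (x *ᵥ v) si s, hs, one_mulVec]
      rwa [e5] at h5
    rw [div_mul_eq_mul_div, div_le_iff₀ (by positivity)]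
    calc c * ‖ui *ᵥ v‖ ≤ c * (N * ‖v‖) := by gcongr
      _ = N * (c * ‖v‖) := by ring
      _ ≤ N * (N * ‖s *ᵥ (x *ᵥ v)‖) := mul_le_mul_of_nonneg_left (a1.trans a3) hN0.le
      _ = _ := by ring
  · intro v
    refine ⟨t • (A *ᵥ (u *ᵥ v)), L.smul_mem _ (hA _), ?_⟩
    rw [mulVecLin_apply, mulVec_smul, smul_mulVec, ← mulVec_mulVec, ← mulVec_mulVec]
  · intro v
    rw [hz', smul_mulVec, ← mulVec_mulVec, ← mulVec_mulVec, ← smul_sub, ← mulVec_sub, norm_smul,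
      ht, one_mul]
    have a1 := hAv (u *ᵥ v)
    have a2 := bu v
    calc ‖s *ᵥ (x *ᵥ (u *ᵥ v) - A *ᵥ (u *ᵥ v))‖ ≤ N * ‖x *ᵥ (u *ᵥ v) - A *ᵥ (u *ᵥ v)‖ := bs _
      _ ≤ N * (δ * c * (N * ‖v‖)) := by
          gcongr
          exact a1.trans (by gcongr)
      _ = _ := by field_simp

/-- **Stability.** -/
theorem stab {d : ℕ} {Y F : Type*} [TopologicalSpace Y] [CompactSpace Y] [PseudoMetricSpace F]
    {i : Y → Gr k ι d} (hi : Continuous i) (hinj : Function.Injective i) {f : Y → F}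
    (hf : Continuous f) {s si u ui : Matrix ι ι k} (hs : si * s = 1) (hu : u * ui = 1) {ε : ℝ}
    (hε : 0 < ε) :
    ∃ δ : ℝ, 0 < δ ∧ ∀ (x z : Matrix ι ι k) (t : k) (y y' y'' : Y), ‖t‖ = 1 →
      z = t • (s * x * u) → AtL δ d x (i y).1 → AtL δ d z (i y').1 →
      (i y'').1 = (i y).1.map s.mulVecLin → dist (f y') (f y'') < ε := by
  obtain ⟨η, hη, h⟩ := uc_near hi hinj hf hε
  obtain ⟨C, hC1, hC⟩ : ∃ C : ℝ, 1 ≤ C ∧ ∀ i j, ‖s i j‖ ≤ C ∧ ‖si i j‖ ≤ C ∧ ‖u i j‖ ≤ C ∧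
      ‖ui i j‖ ≤ C := by
    refine ⟨1 + ∑ i, ∑ j, (‖s i j‖ + ‖si i j‖ + ‖u i j‖ + ‖ui i j‖), ?_, fun i j => ?_⟩
    · have : 0 ≤ ∑ i, ∑ j, (‖s i j‖ + ‖si i j‖ + ‖u i j‖ + ‖ui i j‖) := by positivity
      linarith
    · have e1 : ‖s i j‖ + ‖si i j‖ + ‖u i j‖ + ‖ui i j‖ ≤
          ∑ i, ∑ j, (‖s i j‖ + ‖si i j‖ + ‖u i j‖ + ‖ui i j‖) := by
        refine le_trans ?_ (Finset.single_le_sum (f := fun i => ∑ j, (‖s i j‖ + ‖si i j‖ +
          ‖u i j‖ + ‖ui i j‖)) (fun _ _ => by positivity) (Finset.mem_univ i))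
        exact Finset.single_le_sum (f := fun j => ‖s i j‖ + ‖si i j‖ + ‖u i j‖ + ‖ui i j‖)
          (fun _ _ => by positivity) (Finset.mem_univ j)
      have a1 := norm_nonneg (s i j)
      have a2 := norm_nonneg (si i j)
      have a3 := norm_nonneg (u i j)
      have a4 := norm_nonneg (ui i j)
      exact ⟨by linarith, by linarith, by linarith, by linarith⟩
  rcases isEmpty_or_nonempty ι with hι | hι
  · -- trivial index type
    refine ⟨1, one_pos, fun x z t y y' y'' _ _ _ _ _ => ?_⟩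
    have e : y' = y'' := hinj (Subtype.ext (by
      have : Subsingleton (Submodule k (ι → k)) := by
        refine ⟨fun A B => ?_⟩
        ext v
        have : v = 0 := Subsingleton.elim _ _
        rw [this]
        simp
      exact Subsingleton.elim _ _))
    rw [e, dist_self]
    exact hε
  · have hcard : (1 : ℝ) ≤ Fintype.card ι := by
      have := Fintype.card_pos (α := ι)
      exact_mod_cast this
    obtain ⟨N, hN⟩ : ∃ N : ℝ, N = Fintype.card ι * C := ⟨_, rfl⟩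
    have hN1 : 1 ≤ N := by rw [hN]; nlinarith
    obtain ⟨δ, hδ⟩ : ∃ δ : ℝ, δ = min (1 / 2) (η / 4) / N ^ 4 := ⟨_, rfl⟩
    have hδ0 : 0 < δ := by rw [hδ]; positivity
    have hδN : N ^ 4 * δ = min (1 / 2) (η / 4) := by rw [hδ]; field_simp
    refine ⟨δ, hδ0, fun x z t y y' y'' ht hz hx hz' hy => ?_⟩
    have A1 := hx.transport hN (by linarith) hN1 hs hu (fun i j => (hC i j).1)
      (fun i j => (hC i j).2.1) (fun i j => (hC i j).2.2.1) (fun i j => (hC i j).2.2.2) hδ0.le ht hz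
    have A2 : AtL (N ^ 4 * δ) d z (i y').1 := hz'.mono (by
      have : 1 ≤ N ^ 4 := one_le_pow₀ hN1
      nlinarith)
    have h5 : N ^ 4 * δ ≤ 1 / 2 := hδN ▸ min_le_left _ _
    have h6 : N ^ 4 * δ ≤ η / 4 := hδN ▸ min_le_right _ _
    have h7 : 0 ≤ N ^ 4 * δ := by positivity
    have N1 := AtL.nr h7 (by linarith) (i y').2 A2 A1
    refine h y' y'' ?_
    rw [hy]
    refine N1.mono ?_
    rw [div_le_iff₀ (by linarith)]
    nlinarith

omit [DecidableEq ι] in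
/-- the approximating matrix -/
theorem AtL.approx {δ : ℝ} (h0 : 0 ≤ δ) {d : ℕ} (hd : 1 ≤ d) {z : Matrix ι ι k}
    {L : Submodule k (ι → k)} (hL : AtL δ d z L) {B : ℝ} (hB : 0 ≤ B) (hz : ∀ i j, ‖z i j‖ ≤ B) :
    ∃ M : Matrix ι ι k, (∀ v, M *ᵥ v ∈ L) ∧
      ∀ i j, ‖z i j - M i j‖ ≤ δ * (Fintype.card ι * B) := by
  classical
  obtain ⟨c, hc, ⟨V, hV, hVc⟩, A, hA, hAv⟩ := hL
  have hcB : c ≤ Fintype.card ι * B := by
    have : Nontrivial V := Module.nontrivial_of_finrank_pos (R := k) (by omega)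
    obtain ⟨v, hv⟩ := exists_ne (0 : V)
    have h1 := hVc v.1 v.2
    have h2 := norm_mulVec_le hB hz v.1
    have h3 : 0 < ‖v.1‖ := norm_pos_iff.2 fun h => hv (Subtype.ext h)
    exact le_of_mul_le_mul_right (h1.trans h2) h3
  refine ⟨A, hA, fun i j => ?_⟩
  have h1 := hAv (Pi.single j 1)
  have e : z i j - A i j = (z *ᵥ Pi.single j 1 - A *ᵥ Pi.single j 1) i := by
    rw [Pi.sub_apply, mulVec_single_one, mulVec_single_one]
    rfl
  have h3 : ‖(Pi.single j (1 : k) : ι → k)‖ ≤ 1 := by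
    rw [pi_norm_le_iff_of_nonneg zero_le_one]
    intro i
    by_cases hi : i = j
    · rw [hi, Pi.single_eq_same, norm_one]
    · rw [Pi.single_eq_of_ne hi, norm_zero]
      exact zero_le_one
  rw [e]
  refine (norm_le_pi_norm _ i).trans (h1.trans ?_)
  calc δ * c * ‖(Pi.single j (1 : k) : ι → k)‖ ≤ δ * c * 1 := by gcongr
    _ = δ * c := mul_one _
    _ ≤ _ := by gcongr

end att

section choice

/-- **The choice of the attracting place.** -/
theorem exists_bp {G Y : Type*} [Nonempty Y] (P : ℝ → G → Y → Prop)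
    (hmono : ∀ δ δ' g y, δ ≤ δ' → P δ g y → P δ' g y) (nm : G → ℝ) :
    ∃ bp : G → Y, ∀ δ > 0, ∀ g, 1 / δ ≤ nm g → (∃ y, P (δ / 2) g y) → P δ g (bp g) := by
  classical
  have key : ∀ g, ∃ y : Y, ∀ δ > 0, 1 / δ ≤ nm g → (∃ y, P (δ / 2) g y) → P δ g y := by
    intro g
    by_cases h1 : ∃ y, P (1 / (1 + |nm g|)) g y
    · obtain ⟨y, hy⟩ := h1
      refine ⟨y, fun δ hδ hn _ => hmono _ _ g y ?_ hy⟩
      rw [div_le_iff₀ (by positivity)]
      rw [div_le_iff₀ hδ] at hn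
      have := le_abs_self (nm g)
      nlinarith
    · push Not at h1
      by_cases h2 : ∃ δ > 0, ∃ y, P δ g y
      · obtain ⟨S, hS⟩ : ∃ S : Set ℝ, S = {δ | 0 < δ ∧ ∃ y, P δ g y} := ⟨_, rfl⟩
        have hne : S.Nonempty := by
          rw [hS]
          obtain ⟨δ, hδ, y, hy⟩ := h2
          exact ⟨δ, hδ, y, hy⟩
        have hlow : ∀ δ ∈ S, 1 / (1 + |nm g|) ≤ δ := by
          intro δ hδ
          rw [hS] at hδ
          obtain ⟨hδ, y, hy⟩ := hδ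
          by_contra hcon
          push Not at hcon
          exact h1 y (hmono _ _ g y hcon.le hy)
        have hbdd : BddBelow S := ⟨_, hlow⟩
        have hpos : 0 < sInf S := lt_of_lt_of_le (by positivity) (le_csInf hne hlow)
        obtain ⟨δ₀, hδ₀, hlt⟩ := exists_lt_of_csInf_lt hne
          (show sInf S < 2 * sInf S by linarith)
        rw [hS] at hδ₀
        obtain ⟨hδ₀, y, hy⟩ := hδ₀
        refine ⟨y, fun δ hδ _ h3 => hmono _ _ g y ?_ hy⟩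
        have h4 : δ / 2 ∈ S := by
          rw [hS]
          exact ⟨by positivity, h3⟩
        have h5 := csInf_le hbdd h4
        linarith
      · push Not at h2
        refine ⟨Classical.arbitrary Y, fun δ hδ _ h3 => ?_⟩
        obtain ⟨y, hy⟩ := h3
        exact absurd hy (h2 (δ / 2) (by positivity) y)
  choose bp hbp using key
  exact ⟨bp, fun δ hδ g hn h => hbp g δ hδ hn h⟩

end choice

end Vale.Agent.P092.H899.G
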