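import Vale.Agent.P092.H899.O6
import Vale.Agent.P092.H15.HMAbs

/-!
P092 (helper899), [CLASS-O]: the group form of Howe–Moore (helper15) for `Om K`.
-/

set_option linter.all false

open Filter Topology Matrix

namespace Vale.Agent.P092.H899.Ort

open Vale.Agent.P092.H933 (Len)

variable {n : Type} [Fintype n] [DecidableEq n] {k : Type} [NontriviallyNormedField k]
  [ProperSpace k]

theorem hmg_om {K : Matrix n n k} (h : Good K) : H15.HMG (Om K) := by
  intro U hU f hf hc
  obtain ⟨z, v, hz0, hz, hzv, hvz, hu⟩ := exists_contract h (isClosed_om h) U (b := id)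
    (Filter.tendsto_id.mono_left hU)
  have hker := (tsysOf h).ker_top hf hz0 hz hzv hvz (fun s => by
    rw [Len.mem_ker]
    obtain ⟨u, h1, h2⟩ := hu s
    exact hc _ ⟨u, h1, h2⟩)
  intro g
  have : g ∈ hf.ker := by rw [hker]; trivial
  rwa [Len.mem_ker] at this

end Vale.Agent.P092.H899.Ort
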