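import Vale.Agent.P092.H899.O6
import Vale.Agent.P092.PA.FacInst
import Vale.Agent.P092.H259.Grp

/-!
P092 (helper899), [CLASS-O]: the group `Om K` modulo its centre is a factor.
-/

set_option linter.all false

open Filter Topology Matrix

namespace Vale.Agent.P092.H899.Ort

section rec

variable {k V G : Type*} [NontriviallyNormedField k] [AddCommGroup V] [Module k V] [Group G]
  [TopologicalSpace G] (S : TSys k V G)

include S in
/-- Recurrence, before the quotient. -/
theorem TSys.rec_aux [IsTopologicalGroup G] {g : G} (hg : g ∉ Subgroup.center G) :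
    ∃ (h : G) (f : G → ℝ) (q : ℝ), Continuous f ∧ 1 < q ∧ (∀ x, f (h * x * h⁻¹) = q * f x) ∧
      (∀ z ∈ Subgroup.center G, ∀ x, f (x * z) = f x) ∧ 0 < f g := by
  have h1 : ∃ e, S.B e e = 0 ∧ ∀ c : k, S.ρ g e ≠ c • e := by
    by_contra hcon
    push Not at hcon
    exact hg (S.mem_center_of fun x hx => hcon x hx)
  obtain ⟨e, hee, hne⟩ := h1
  have he0 : e ≠ 0 := by
    rintro rfl
    exact hne 0 (by rw [map_zero, smul_zero])
  obtain ⟨f, hf⟩ := S.exists_hyp he0 hee
  obtain ⟨s, hs, hs0, -, -⟩ := TSys.exists_big (k := k)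
  obtain ⟨_, d, -, -, -, -, hd⟩ := S.exists_tor hf hs0
  have ht0 : s ^ 2 ≠ 0 := pow_ne_zero _ hs0
  have ht1 : 1 < ‖s ^ 2‖ := by rw [norm_pow]; nlinarith
  have hde := hd.e hf
  have hz : ∀ y : V, ∀ z ∈ Subgroup.center G, ∀ x, ‖S.B (S.ρ (x * z) e) y‖ = ‖S.B (S.ρ x e) y‖ := by
    intro y z hz x
    obtain ⟨c, hc, hx⟩ := S.of_mem_center hz
    have hc1 : ‖c‖ = 1 := by
      have h4 : ‖c‖ ^ 2 = 1 := by rw [← norm_pow, hc, norm_one]
      exact (pow_eq_one_iff_of_nonneg (norm_nonneg c) two_ne_zero).1 h4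
    rw [S.mul_apply, hx, map_smul, map_smul, LinearMap.smul_apply, smul_eq_mul, norm_mul, hc1,
      one_mul]
  have hconj : ∀ x y, S.B (S.ρ (d⁻¹ * x * d⁻¹⁻¹) e) y = s ^ 2 * S.B (S.ρ x e) (S.ρ d y) := by
    intro x y
    rw [inv_inv, S.mul_apply, S.mul_apply, hde, map_smul, map_smul, map_smul,
      LinearMap.smul_apply, smul_eq_mul, S.iso_left, inv_inv]
  by_cases h2 : S.B (S.ρ g e) e = 0
  · -- a vector `y ⊥ e, f` seeing `g e`
    have h3 : S.pr e f (S.ρ g e) ≠ 0 := by
      intro h0
      have := S.pr_eq e f (S.ρ g e)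
      rw [h0, h2, zero_smul, zero_add, add_zero] at this
      exact hne _ this
    obtain ⟨y₀, hy₀⟩ := S.nd _ h3
    have he1 : S.B e (S.pr e f y₀) = 0 := by rw [S.sym]; exact S.pr_e hf _
    have hf1 : S.B f (S.pr e f y₀) = 0 := by rw [S.sym]; exact S.pr_f hf _
    have hy : S.B (S.ρ g e) (S.pr e f y₀) = 1 := by
      have q1 : S.B (S.pr e f (S.ρ g e)) (S.pr e f y₀) = 1 := by
        have q2 : S.B (S.pr e f (S.ρ g e)) e = 0 := S.pr_e hf _
        have q3 : S.B (S.pr e f (S.ρ g e)) f = 0 := S.pr_f hf _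
        generalize S.pr e f (S.ρ g e) = v at q2 q3 hy₀
        rw [Sys.pr, map_sub, map_sub, map_smul, map_smul, q2, q3, smul_zero, smul_zero, sub_zero,
          sub_zero, hy₀]
      have q4 := S.pr_eq e f (S.ρ g e)
      rw [q4, map_add, map_add, LinearMap.add_apply, LinearMap.add_apply, map_smul, map_smul,
        LinearMap.smul_apply, LinearMap.smul_apply, he1, hf1, smul_zero, smul_zero, add_zero,
        add_zero]
      exact q1
    refine ⟨d⁻¹, fun x => ‖S.B (S.ρ x e) (S.pr e f y₀)‖, ‖s ^ 2‖, (S.contB _ _).norm, ht1, ?_, ?_, ?_⟩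
    · intro x
      dsimp only
      rw [hconj, hd.x he1 hf1, norm_mul]
    · exact hz _
    · dsimp only
      rw [hy, norm_one]
      exact one_pos
  · refine ⟨d⁻¹, fun x => ‖S.B (S.ρ x e) e‖, ‖s ^ 2‖ * ‖s ^ 2‖, (S.contB _ _).norm, ?_, ?_, hz _, ?_⟩
    · nlinarith
    · intro x
      dsimp only
      rw [hconj, hde, map_smul, smul_eq_mul, norm_mul, norm_mul, mul_assoc]
    · exact norm_pos_iff.2 h2

end rec

theorem rec_quot {G : Type} [Group G] [TopologicalSpace G] [IsTopologicalGroup G]
    (h : ∀ g : G, g ∉ Subgroup.center G → ∃ (h : G) (f : G → ℝ) (q : ℝ), Continuous f ∧ 1 < q ∧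
      (∀ x, f (h * x * h⁻¹) = q * f x) ∧ (∀ z ∈ Subgroup.center G, ∀ x, f (x * z) = f x) ∧
      0 < f g) : PA.Rec (G ⧸ Subgroup.center G) := by
  refine H839.rec_of_fun fun g => ?_
  refine QuotientGroup.induction_on g fun g => ?_
  intro hg
  have hg' : g ∉ Subgroup.center G := fun h => hg ((QuotientGroup.eq_one_iff g).2 h)
  obtain ⟨h, f, q, hf, hq, hx, hz, h0⟩ := h g hg'
  refine ⟨(h : G ⧸ Subgroup.center G), fun x => Quotient.liftOn' x f ?_, q, ?_, hq, ?_, h0⟩
  · intro a b hab
    have h1 := QuotientGroup.leftRel_apply.1 hab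
    have h2 : b = a * (a⁻¹ * b) := by group
    rw [h2, hz _ h1]
  · exact hf.quotient_liftOn' _
  · intro x
    refine QuotientGroup.induction_on x fun x => ?_
    exact hx x

section

variable {n : Type} [Fintype n] [DecidableEq n] {k : Type} [NontriviallyNormedField k]

theorem emb_om (K : Matrix n n k) : IsEmbedding fun g : Om K => g.1.1 :=
  (Matrix.SpecialLinearGroup.isClosedEmbedding_val (n := n) (R := k)).isEmbedding.comp
    IsEmbedding.subtypeVal

theorem cemb_om {K : Matrix n n k} (hcl : IsClosed (Om K : Set (SpecialLinearGroup n k))) :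
    IsClosedEmbedding fun g : Om K => g.1.1 :=
  (Matrix.SpecialLinearGroup.isClosedEmbedding_val (n := n) (R := k)).comp
    hcl.isClosedEmbedding_subtypeVal

theorem t2_om (K : Matrix n n k) : T2Space (Om K) := (emb_om K).t2Space

theorem sc_om [ProperSpace k] (K : Matrix n n k) : SecondCountableTopology (Om K) := by
  haveI : SecondCountableTopology (Matrix n n k) :=
    inferInstanceAs (SecondCountableTopology (n → n → k))
  exact (emb_om K).secondCountableTopology

theorem lc_om [ProperSpace k] {K : Matrix n n k}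
    (hcl : IsClosed (Om K : Set (SpecialLinearGroup n k))) : LocallyCompactSpace (Om K) := by
  haveI : LocallyCompactSpace (Matrix n n k) :=
    inferInstanceAs (LocallyCompactSpace (n → n → k))
  exact (cemb_om hcl).locallyCompactSpace

theorem nc_om {K : Matrix n n k} (h : Good K) : ¬ CompactSpace (Om K) := by
  intro hc
  obtain ⟨e, he0, hee⟩ := (tsysOf h).ex
  obtain ⟨f, hf⟩ := (tsysOf h).exists_hyp he0 hee
  have h1 := ((tsysOf h).contB e f).norm
  obtain ⟨C, hC⟩ := (isCompact_range h1).bddAbove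
  obtain ⟨s, hs⟩ := NormedField.exists_lt_norm k (max C 1)
  have hs1 : 1 < ‖s‖ := lt_of_le_of_lt (le_max_right _ _) hs
  have hs0 : s ≠ 0 := by
    rintro rfl
    rw [norm_zero] at hs1
    linarith
  obtain ⟨_, d, -, -, -, -, hd⟩ := (tsysOf h).exists_tor hf hs0
  have h2 := hC ⟨d, rfl⟩
  dsimp only at h2
  rw [hd.e hf, map_smul, LinearMap.smul_apply, hf.ef, smul_eq_mul, mul_one, norm_pow] at h2
  have h3 : C < ‖s‖ := lt_of_le_of_lt (le_max_left _ _) hs
  nlinarith

theorem finite_center_om {K : Matrix n n k} (h : Good K) :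
    ((Subgroup.center (Om K) : Subgroup (Om K)) : Set (Om K)).Finite := (tsysOf h).finite_center

/-- **`Om K` modulo its centre is a factor**, strong form. -/
theorem facS_om [ProperSpace k] {K : Matrix n n k} (h : Good K) : PA.FacS (H259.PQ (Om K)) := by
  haveI : CompleteSpace k := inferInstance
  have hcl := isClosed_om h
  haveI := t2_om K
  haveI := lc_om hcl
  haveI := sc_om K
  have hf := finite_center_om h
  haveI hcl : IsClosed ((Subgroup.center (Om K) : Subgroup (Om K)) : Set (Om K)) := hf.isClosed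
  haveI : Infinite k := inferInstance
  exact
  { top := inferInstance
    lc := inferInstance
    sc := inferInstance
    t2 := inferInstance
    nc := PA.nc_quot _ hf.isCompact (nc_om h)
    simple := PA.simple_quot fun N hN => (sysOf h).simple N
    cent := PA.cent_quot hf (tsysOf h).cent
    hom := PA.hom_quot (fun A _ f => (sysOf h).hom_eq_one f) _
    recu := rec_quot fun g hg => (tsysOf h).rec_aux hg
    hm := PA.HM.quot (PA.hm_of_howeMoore (howeMoore h (isClosed_om h))) _ }

/-- The facts of helper259. -/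
theorem cf_om {K : Matrix n n k} (h : Good K) : H259.Cf (Om K) where
  fin := (finite_center_om h).to_subtype
  cen g hg := (tsysOf h).cent g (hg.mem_nhds (Subgroup.one_mem _))

end

end Vale.Agent.P092.H899.Ort
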