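import Vale.Agent.P092.H899.O13

/-!
P092 (helper899), [CLASS-O]: the group generated by the Siegel transformations is the commutator
subgroup of the special isometry group.
-/

set_option linter.all false

open Matrix
open scoped commutatorElement

namespace Vale.Agent.P092.H899.Ort

section alg

variable {n : Type} [Fintype n] [DecidableEq n] {k : Type} [Field k] {K : Matrix n n k}

theorem om_mulVec' {K : Matrix n n k} (c : Om K) (b : SpecialLinearGroup n k) (x : n → k) :
    (c.1 * b).1 *ᵥ x = rho K c (b.1 *ᵥ x) := by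
  show (c.1.1 * b.1) *ᵥ x = c.1.1 *ᵥ (b.1 *ᵥ x)
  rw [mulVec_mulVec]

/-- The determinant of a reflection. -/
theorem det_refl {a : n → k} (ha : bf K a a ≠ 0) : (refl K a).det = -1 := by
  set A : Matrix n (Fin 1) k := Matrix.of fun i _ => -(2 * (bf K a a)⁻¹) * a i with hA
  set C : Matrix (Fin 1) n k := Matrix.of fun _ i => (K *ᵥ a) i with hC
  have h1 : refl K a = 1 + A * C := by
    ext i j
    simp only [refl, Matrix.add_apply, Matrix.sub_apply, Matrix.smul_apply, vecMulVec_apply,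
      Matrix.mul_apply, Fin.sum_univ_one, hA, hC, Matrix.of_apply, smul_eq_mul]
    ring
  have h2 : (C * A) 0 0 = -2 := by
    have h3 : (C * A) 0 0 = -(2 * (bf K a a)⁻¹) * ((K *ᵥ a) ⬝ᵥ a) := by
      simp only [Matrix.mul_apply, hA, hC, Matrix.of_apply, dotProduct, Finset.mul_sum]
      refine Finset.sum_congr rfl fun i _ => ?_
      ring
    rw [h3, dotProduct_comm, ← bf_apply]
    field_simp
  rw [h1, det_one_add_mul_comm, det_fin_one, Matrix.add_apply, h2, Matrix.one_apply_eq]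
  norm_num

/-- Torus elements of the special isometry group. -/
def Torl (K : Matrix n n k) (e f : n → k) (b : SpecialLinearGroup n k) : Prop :=
  ∃ t : k, t ≠ 0 ∧ ∀ x, b.1 *ᵥ x = x + ((t - 1) * bf K x f) • e + ((t⁻¹ - 1) * bf K x e) • f

theorem Torl.comm {e f : n → k} (hee : bf K e e = 0) (hff : bf K f f = 0) (hef : bf K e f = 1)
    (hfe : bf K f e = 1) {b b' : SpecialLinearGroup n k} (h : Torl K e f b)
    (h' : Torl K e f b') : b * b' = b' * b := by
  obtain ⟨t, ht0, ht⟩ := h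
  obtain ⟨t', ht0', ht'⟩ := h'
  have key : ∀ (a a' : SpecialLinearGroup n k) (s s' : k), s ≠ 0 → s' ≠ 0 →
      (∀ x, a.1 *ᵥ x = x + ((s - 1) * bf K x f) • e + ((s⁻¹ - 1) * bf K x e) • f) →
      (∀ x, a'.1 *ᵥ x = x + ((s' - 1) * bf K x f) • e + ((s'⁻¹ - 1) * bf K x e) • f) →
      ∀ x, (a * a').1 *ᵥ x = x + ((s * s' - 1) * bf K x f) • e +
        ((s⁻¹ * s'⁻¹ - 1) * bf K x e) • f := by
    intro a a' s s' hs hs' ha ha' x
    have h1 : (a * a').1 *ᵥ x = a.1 *ᵥ (a'.1 *ᵥ x) := by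
      show (a.1 * a'.1) *ᵥ x = _
      rw [mulVec_mulVec]
    rw [h1, ha' x, ha]
    simp only [map_add, map_smul, LinearMap.add_apply, LinearMap.smul_apply, smul_eq_mul, hee, hff,
      hef, hfe]
    match_scalars
    · ring
    · ring
    · ring
  have e1 : ∀ x, (b * b').1 *ᵥ x = (b' * b).1 *ᵥ x := by
    intro x
    rw [key b b' t t' ht0 ht0' ht ht' x, key b' b t' t ht0' ht0 ht' ht x, mul_comm t t',
      mul_comm t⁻¹ t'⁻¹]
  refine Subtype.ext ?_
  ext i j
  have h5 := congrFun (e1 (Pi.single j 1)) i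
  simpa using h5

/-- The lines of `e` and `f` are preserved or exchanged. -/
def LnSw (e f : n → k) (b : SpecialLinearGroup n k) : Prop :=
  ∃ c : k, c ≠ 0 ∧ ((b.1 *ᵥ e = c • e ∧ b.1 *ᵥ f = c⁻¹ • f) ∨
    (b.1 *ᵥ e = c • f ∧ b.1 *ᵥ f = c⁻¹ • e))

theorem LnSw.nw (h : Good K) {e f a : n → k} (he : (sysOf h).Hyp e f) (hea : bf K e a = 0)
    (hfa : bf K f a = 0) (haa : bf K a a ≠ 0) {b : SpecialLinearGroup n k} (hb : LnSw e f b) :
    LnSw e f (((sysOf h).nw e f a).1 * b) := by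
  obtain ⟨c, hc0, hc⟩ := hb
  have two := h.two
  have q0 : 2⁻¹ * bf K a a ≠ 0 := mul_ne_zero (inv_ne_zero two) haa
  have n1 : rho K ((sysOf h).nw e f a) e = -((2⁻¹ * bf K a a)⁻¹) • f :=
    (sysOf h).nw_e he hea hfa haa
  have n2 : rho K ((sysOf h).nw e f a) f = -(2⁻¹ * bf K a a) • e :=
    (sysOf h).nw_f he hea hfa haa
  rcases hc with ⟨h1, h2⟩ | ⟨h1, h2⟩
  · refine ⟨c * -((2⁻¹ * bf K a a)⁻¹), mul_ne_zero hc0 (neg_ne_zero.2 (inv_ne_zero q0)),
      Or.inr ⟨?_, ?_⟩⟩
    · rw [om_mulVec', h1, map_smul, n1, smul_smul]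
    · rw [om_mulVec', h2, map_smul, n2, smul_smul]
      congr 1
      rw [mul_inv, inv_neg, inv_inv]
  · refine ⟨c * -(2⁻¹ * bf K a a), mul_ne_zero hc0 (neg_ne_zero.2 q0), Or.inl ⟨?_, ?_⟩⟩
    · rw [om_mulVec', h1, map_smul, n2, smul_smul]
    · rw [om_mulVec', h2, map_smul, n1, smul_smul]
      congr 1
      rw [mul_inv c, inv_neg]

/-- The last step: an element which fixes the orthogonal space. -/
theorem torl_of (h : Good K) {e f : n → k} (he : (sysOf h).Hyp e f) {m : ℕ} {w : ℕ → n → k}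
    (hef : ∀ j, j < m → bf K e (w j) = 0 ∧ bf K f (w j) = 0)
    (hext : ∀ (A B : (n → k) →ₗ[k] (n → k)), A e = B e → A f = B f →
      (∀ j, j < m → A (w j) = B (w j)) → A = B) {b : SpecialLinearGroup n k} (hb : LnSw e f b)
    (hw : ∀ j, j < m → b.1 *ᵥ w j = w j) : Torl K e f b := by
  have hee : bf K e e = 0 := he.ee
  have hff : bf K f f = 0 := he.ff
  have hef' : bf K e f = 1 := he.ef
  have hfe' : bf K f e = 1 := he.fe
  obtain ⟨c, hc0, hc⟩ := hb
  rcases hc with ⟨h1, h2⟩ | ⟨h1, h2⟩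
  · refine ⟨c, hc0, fun x => ?_⟩
    let B : (n → k) →ₗ[k] (n → k) := LinearMap.id + (c - 1) • ((bf K).flip f).smulRight e +
      (c⁻¹ - 1) • ((bf K).flip e).smulRight f
    have hB : ∀ x, B x = x + (c - 1) • (bf K x f • e) + (c⁻¹ - 1) • (bf K x e • f) := fun x => rfl
    have h3 : mulVecLin b.1 = B := by
      refine hext _ _ ?_ ?_ ?_
      · rw [mulVecLin_apply, h1, hB, hef', hee]
        module
      · rw [mulVecLin_apply, h2, hB, hff, hfe']
        module
      · intro j hj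
        rw [mulVecLin_apply, hw j hj, hB, bf_sym h.sym _ f, bf_sym h.sym _ e, (hef j hj).1,
          (hef j hj).2]
        module
    have h4 := LinearMap.congr_fun h3 x
    rw [mulVecLin_apply, hB, smul_smul, smul_smul] at h4
    exact h4
  · exfalso
    set u : n → k := e - c • f with hu
    have huu : bf K u u = -(2 * c) := by
      simp only [hu, map_sub, map_smul, LinearMap.sub_apply, LinearMap.smul_apply, smul_eq_mul, hee,
        hff, hef', hfe']
      ring
    have huu0 : bf K u u ≠ 0 := by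
      rw [huu]
      exact neg_ne_zero.2 (mul_ne_zero h.two hc0)
    have h3 : mulVecLin b.1 = mulVecLin (refl K u) := by
      refine hext _ _ ?_ ?_ ?_
      · rw [mulVecLin_apply, mulVecLin_apply, h1, refl_mulVec h.sym, huu]
        have : bf K e u = -c := by
          simp only [hu, map_sub, map_smul, smul_eq_mul, hee, hef']
          ring
        rw [this, hu]
        have h2' := h.two
        have e5 : 2 * (-(2 * c))⁻¹ * -c = 1 := by field_simp
        rw [e5]
        module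
      · rw [mulVecLin_apply, mulVecLin_apply, h2, refl_mulVec h.sym, huu]
        have : bf K f u = 1 := by
          simp only [hu, map_sub, map_smul, smul_eq_mul, hff, hfe']
          ring
        rw [this, hu]
        have h2' := h.two
        have e5 : 2 * (-(2 * c))⁻¹ * 1 = -c⁻¹ := by field_simp
        rw [e5]
        match_scalars
        · ring
        · field_simp
          ring
      · intro j hj
        rw [mulVecLin_apply, mulVecLin_apply, hw j hj, refl_mulVec h.sym]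
        have : bf K (w j) u = 0 := by
          rw [bf_sym h.sym, hu]
          simp only [map_sub, map_smul, LinearMap.sub_apply, LinearMap.smul_apply, smul_eq_mul,
            (hef j hj).1, (hef j hj).2]
          ring
        rw [this, mul_zero, zero_smul, sub_zero]
    have h4 : b.1 = refl K u := by
      ext i j
      have h5 := congrFun (LinearMap.congr_fun h3 (Pi.single j 1)) i
      simpa using h5
    have h5 := det_refl huu0
    rw [← h4, b.2] at h5
    exact h.two (by linear_combination h5)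

theorem pass_torl {e f : n → k} (c : Om K) (g : SpecialLinearGroup n k)
    (h : ∃ c' : Om K, Torl K e f (c'.1 * (c.1 * g))) : ∃ c' : Om K, Torl K e f (c'.1 * g) := by
  obtain ⟨c', hc'⟩ := h
  refine ⟨c' * c, ?_⟩
  have : ((c' * c : Om K).1 * g) = c'.1 * (c.1 * g) := by
    show (c'.1 * c.1) * g = _
    rw [mul_assoc]
  rw [this]
  exact hc'

/-- Every special isometry which preserves or exchanges the two lines is a torus element modulo
`Om`. -/
theorem key_torl (h : Good K) {e f : n → k} (he : (sysOf h).Hyp e f) {m : ℕ} {w : ℕ → n → k}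
    (w1 : ∀ j, j < m → bf K (w j) (w j) ≠ 0)
    (w2 : ∀ j, j < m → bf K e (w j) = 0 ∧ bf K f (w j) = 0)
    (w3 : ∀ i j, i < m → j < m → i ≠ j → bf K (w i) (w j) = 0)
    (w4 : ∀ (A B : (n → k) →ₗ[k] (n → k)), A e = B e → A f = B f →
      (∀ j, j < m → A (w j) = B (w j)) → A = B) :
    ∀ r j, j + r = m → ∀ g ∈ IsoG K, LnSw e f g → (∀ s, s < j → g.1 *ᵥ w s = w s) →
      ∃ c : Om K, Torl K e f (c.1 * g) := by
  have two := h.two
  have isoc : ∀ (c : Om K) (g : SpecialLinearGroup n k), g ∈ IsoG K → c.1 * g ∈ IsoG K :=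
    fun c g hg => (IsoG K).mul_mem (om_le_isoG h.sym h.two c.2) hg
  intro r
  induction r with
  | zero =>
    intro j hj g hg hl hw
    refine ⟨1, ?_⟩
    have : (1 : Om K).1 * g = g := one_mul g
    rw [this]
    exact torl_of h he w2 w4 hl fun s hs => hw s (by omega)
  | succ r ih =>
    intro j hj g hg hl hw
    have hjm : j < m := by omega
    have hiso : ∀ x y, bf K (g.1 *ᵥ x) (g.1 *ᵥ y) = bf K x y := bf_iso hg
    have hperp : ∀ s, s < j → bf K (w s) (g.1 *ᵥ w j) = 0 := by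
      intro s hs
      have := hiso (w s) (w j)
      rw [hw s hs, w3 s j (by omega) hjm (by omega)] at this
      exact this
    have hE : bf K e (g.1 *ᵥ w j) = 0 ∧ bf K f (g.1 *ᵥ w j) = 0 := by
      obtain ⟨c, hc0, hc⟩ := hl
      rcases hc with ⟨h1, h2⟩ | ⟨h1, h2⟩
      · have a1 := hiso e (w j)
        have a2 := hiso f (w j)
        rw [h1, (w2 j hjm).1, map_smul, LinearMap.smul_apply, smul_eq_mul] at a1
        rw [h2, (w2 j hjm).2, map_smul, LinearMap.smul_apply, smul_eq_mul] at a2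
        exact ⟨(mul_eq_zero.1 a1).resolve_left hc0,
          (mul_eq_zero.1 a2).resolve_left (inv_ne_zero hc0)⟩
      · have a1 := hiso e (w j)
        have a2 := hiso f (w j)
        rw [h1, (w2 j hjm).1, map_smul, LinearMap.smul_apply, smul_eq_mul] at a1
        rw [h2, (w2 j hjm).2, map_smul, LinearMap.smul_apply, smul_eq_mul] at a2
        exact ⟨(mul_eq_zero.1 a2).resolve_left (inv_ne_zero hc0),
          (mul_eq_zero.1 a1).resolve_left hc0⟩
    have hgj : bf K (g.1 *ᵥ w j) (g.1 *ᵥ w j) = bf K (w j) (w j) := hiso _ _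
    -- the action of the Weyl elements
    have nwx : ∀ a, bf K e a = 0 → bf K f a = 0 → bf K a a ≠ 0 → ∀ x, bf K e x = 0 →
        bf K f x = 0 → rho K ((sysOf h).nw e f a) x =
          x - ((2⁻¹ * bf K a a)⁻¹ * bf K x a) • a := by
      intro a h1 h2 h3 x h4 h5
      exact (sysOf h).nw_x he h1 h2 h3 (by rw [(sysOf h).sym]; exact h4)
        (by rw [(sysOf h).sym]; exact h5)
    have fixs : ∀ a, bf K e a = 0 → bf K f a = 0 → bf K a a ≠ 0 →
        (∀ s, s < j → bf K (w s) a = 0) → ∀ s, s < j →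
          rho K ((sysOf h).nw e f a) (w s) = w s := by
      intro a h1 h2 h3 h4 s hs
      rw [nwx a h1 h2 h3 _ (w2 s (by omega)).1 (w2 s (by omega)).2, h4 s hs, mul_zero, zero_smul,
        sub_zero]
    by_cases hc : bf K (g.1 *ᵥ w j - w j) (g.1 *ᵥ w j - w j) = 0
    · have hc' : bf K (g.1 *ᵥ w j + w j) (g.1 *ᵥ w j + w j) ≠ 0 := by
        have e1 : bf K (g.1 *ᵥ w j + w j) (g.1 *ᵥ w j + w j) = 2 * (2 * bf K (w j) (w j)) := by
          simp only [map_add, map_sub, LinearMap.add_apply, LinearMap.sub_apply, hgj,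
            bf_sym h.sym (g.1 *ᵥ w j) (w j)] at hc ⊢
          linear_combination -hc
        rw [e1]
        exact mul_ne_zero two (mul_ne_zero two (w1 j hjm))
      have a1 : bf K e (g.1 *ᵥ w j + w j) = 0 := by
        rw [map_add, hE.1, (w2 j hjm).1, add_zero]
      have a2 : bf K f (g.1 *ᵥ w j + w j) = 0 := by
        rw [map_add, hE.2, (w2 j hjm).2, add_zero]
      refine pass_torl ((sysOf h).nw e f (g.1 *ᵥ w j + w j)) _ (pass_torl ((sysOf h).nw e f (w j)) _ ?_)
      refine ih (j + 1) (by omega) _ (isoc _ _ (isoc _ _ hg))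
        ((hl.nw h he a1 a2 hc').nw h he (w2 j hjm).1 (w2 j hjm).2 (w1 j hjm)) ?_
      intro s hs
      rcases Nat.lt_succ_iff_lt_or_eq.1 hs with hs | hs
      · rw [om_mulVec', om_mulVec', hw s hs, fixs _ a1 a2 hc' (fun s hs => by
          rw [map_add, hperp s hs, w3 s j (by omega) hjm (by omega), add_zero]) s hs,
          fixs _ (w2 j hjm).1 (w2 j hjm).2 (w1 j hjm)
            (fun s hs => w3 s j (by omega) hjm (by omega)) s hs]
      · subst hs
        have e2 : rho K ((sysOf h).nw e f (g.1 *ᵥ w s + w s)) (g.1 *ᵥ w s) = -w s := by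
          rw [nwx _ a1 a2 hc' _ hE.1 hE.2]
          have e3 : bf K (g.1 *ᵥ w s + w s) (g.1 *ᵥ w s + w s) =
              2 * bf K (g.1 *ᵥ w s) (g.1 *ᵥ w s + w s) := by
            simp only [map_add, LinearMap.add_apply, hgj, bf_sym h.sym (g.1 *ᵥ w s) (w s)]
            ring
          have e4 : (2⁻¹ * bf K (g.1 *ᵥ w s + w s) (g.1 *ᵥ w s + w s))⁻¹ *
              bf K (g.1 *ᵥ w s) (g.1 *ᵥ w s + w s) = 1 := by
            rw [e3, inv_mul_cancel_left₀ two]
            refine inv_mul_cancel₀ fun h0 => hc' ?_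
            rw [e3, h0, mul_zero]
          rw [e4, one_smul]
          abel
        have e5 : rho K ((sysOf h).nw e f (w s)) (-w s) = w s := by
          rw [map_neg, nwx _ (w2 s hjm).1 (w2 s hjm).2 (w1 s hjm) _ (w2 s hjm).1 (w2 s hjm).2]
          have e6 : (2⁻¹ * bf K (w s) (w s))⁻¹ * bf K (w s) (w s) = 2 := by
            have := w1 s hjm
            field_simp
          rw [e6]
          module
        rw [om_mulVec', om_mulVec', e2, e5]
    · have a1 : bf K e (g.1 *ᵥ w j - w j) = 0 := by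
        rw [map_sub, hE.1, (w2 j hjm).1, sub_zero]
      have a2 : bf K f (g.1 *ᵥ w j - w j) = 0 := by
        rw [map_sub, hE.2, (w2 j hjm).2, sub_zero]
      refine pass_torl ((sysOf h).nw e f (g.1 *ᵥ w j - w j)) _ ?_
      refine ih (j + 1) (by omega) _ (isoc _ _ hg) (hl.nw h he a1 a2 hc) ?_
      intro s hs
      rcases Nat.lt_succ_iff_lt_or_eq.1 hs with hs | hs
      · rw [om_mulVec', hw s hs, fixs _ a1 a2 hc (fun s hs => by
          rw [map_sub, hperp s hs, w3 s j (by omega) hjm (by omega), sub_zero]) s hs]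
      · subst hs
        rw [om_mulVec', nwx _ a1 a2 hc _ hE.1 hE.2]
        have e3 : bf K (g.1 *ᵥ w s - w s) (g.1 *ᵥ w s - w s) =
            2 * bf K (g.1 *ᵥ w s) (g.1 *ᵥ w s - w s) := by
          simp only [map_sub, LinearMap.sub_apply, hgj, bf_sym h.sym (g.1 *ᵥ w s) (w s)]
          ring
        have e4 : (2⁻¹ * bf K (g.1 *ᵥ w s - w s) (g.1 *ᵥ w s - w s))⁻¹ *
            bf K (g.1 *ᵥ w s) (g.1 *ᵥ w s - w s) = 1 := by
          rw [e3, inv_mul_cancel_left₀ two]
          refine inv_mul_cancel₀ fun h0 => hc ?_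
          rw [e3, h0, mul_zero]
        rw [e4, one_smul]
        abel

theorem torl_first (h : Good K) {e f : n → k} (he : (sysOf h).Hyp e f)
    {g : SpecialLinearGroup n k} (hg : g ∈ IsoG K) :
    ∃ (c : Om K) (lam : k), lam ≠ 0 ∧ rho K c (g.1 *ᵥ e) = lam • e := by
  have hee : bf K e e = 0 := he.ee
  have hef' : bf K e f = 1 := he.ef
  have hge0 : g.1 *ᵥ e ≠ 0 := by
    intro h0
    have h1 : bf K (g.1 *ᵥ e) (g.1 *ᵥ f) = 1 := by rw [bf_iso hg, hef']
    rw [h0, map_zero, LinearMap.zero_apply] at h1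
    exact zero_ne_one h1
  have hgee : bf K (g.1 *ᵥ e) (g.1 *ᵥ e) = 0 := by rw [bf_iso hg, hee]
  generalize g.1 *ᵥ e = y at hge0 hgee
  obtain ⟨z, z1, z2, z3⟩ := (sysOf h).exists_common hge0 he.ne hgee hee
  have z2' : bf K y z ≠ 0 := z2
  have z3' : bf K e z ≠ 0 := z3
  have a1 : bf K ((bf K y z)⁻¹ • y) ((bf K y z)⁻¹ • y) = 0 := by
    rw [map_smul, map_smul, LinearMap.smul_apply, hgee, smul_zero, smul_zero]
  have a2 : bf K ((bf K e z)⁻¹ • e) ((bf K e z)⁻¹ • e) = 0 := by
    rw [map_smul, map_smul, LinearMap.smul_apply, hee, smul_zero, smul_zero]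
  have a3 : bf K ((bf K y z)⁻¹ • y) z = 1 := by
    rw [map_smul, LinearMap.smul_apply, smul_eq_mul, inv_mul_cancel₀ z2']
  have a4 : bf K ((bf K e z)⁻¹ • e) z = 1 := by
    rw [map_smul, LinearMap.smul_apply, smul_eq_mul, inv_mul_cancel₀ z3']
  obtain ⟨t1, t2⟩ := (sysOf h).psi_trans z1 a1 a2 a3 a4
  have t2' : rho K ((sysOf h).psi z ((bf K e z)⁻¹ • e - (bf K y z)⁻¹ • y))
      ((bf K y z)⁻¹ • y) = (bf K e z)⁻¹ • e := t2
  generalize (sysOf h).psi z ((bf K e z)⁻¹ • e - (bf K y z)⁻¹ • y) = c at t2'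
  refine ⟨c, bf K y z * (bf K e z)⁻¹, mul_ne_zero z2' (inv_ne_zero z3'), ?_⟩
  have e1 : y = bf K y z • ((bf K y z)⁻¹ • y) := by
    rw [smul_smul, mul_inv_cancel₀ z2', one_smul]
  rw [mul_smul, ← t2', ← map_smul, ← e1]

theorem torl_second (h : Good K) {e f : n → k} (he : (sysOf h).Hyp e f)
    {g : SpecialLinearGroup n k} (hg : g ∈ IsoG K) {lam : k} (hlam0 : lam ≠ 0)
    (he₁ : g.1 *ᵥ e = lam • e) :
    ∃ c : Om K, rho K c (g.1 *ᵥ e) = lam • e ∧ rho K c (g.1 *ᵥ f) = lam⁻¹ • f := by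
  have hee : bf K e e = 0 := he.ee
  have hff : bf K f f = 0 := he.ff
  have hfe' : bf K f e = 1 := he.fe
  have q1 : bf K (g.1 *ᵥ f) (g.1 *ᵥ e) = 1 := by rw [bf_iso hg, hfe']
  have q2 : bf K (g.1 *ᵥ f) (g.1 *ᵥ f) = 0 := by rw [bf_iso hg, hff]
  rw [he₁] at q1 ⊢
  generalize g.1 *ᵥ f = y at q1 q2
  have a1 : bf K (lam • y) (lam • y) = 0 := by
    rw [map_smul, map_smul, LinearMap.smul_apply, q2, smul_zero, smul_zero]
  have a2 : bf K (lam • y) e = 1 := by
    rw [map_smul, smul_eq_mul] at q1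
    rw [map_smul, LinearMap.smul_apply, smul_eq_mul]
    exact q1
  obtain ⟨s1, s2⟩ := (sysOf h).psi_trans hee hff a1 hfe' a2
  have s2' : rho K ((sysOf h).psi e (lam • y - f)) f = lam • y := s2
  have s3 : rho K ((sysOf h).psi e (lam • y - f)) e = e := (sysOf h).psi_fix hee s1
  generalize (sysOf h).psi e (lam • y - f) = c at s2' s3
  refine ⟨c⁻¹, ?_, ?_⟩
  · have q3 : rho K c⁻¹ (rho K c e) = e := (sysOf h).inv_apply c e
    rw [s3] at q3
    rw [map_smul, q3]
  · have q3 : rho K c⁻¹ (rho K c f) = f := (sysOf h).inv_apply c f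
    rw [s2', map_smul] at q3
    rw [← q3, smul_smul, inv_mul_cancel₀ hlam0, one_smul]

end alg

section top

variable {n : Type} [Fintype n] [DecidableEq n] {k : Type} [NontriviallyNormedField k]
  {K : Matrix n n k}

/-- Every special isometry is a torus element modulo `Om`. -/
theorem exists_torl (h : Good K) {e f : n → k} (he : (sysOf h).Hyp e f)
    {g : SpecialLinearGroup n k} (hg : g ∈ IsoG K) : ∃ c : Om K, Torl K e f (c.1 * g) := by
  have isoc : ∀ (c : Om K) (g : SpecialLinearGroup n k), g ∈ IsoG K → c.1 * g ∈ IsoG K :=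
    fun c g hg => (IsoG K).mul_mem (om_le_isoG h.sym h.two c.2) hg
  obtain ⟨m, w, w1, w2, w3, w4⟩ := exists_basis h he
  obtain ⟨c₁, lam, hlam0, f1⟩ := torl_first h he hg
  refine pass_torl c₁ g ?_
  have hI₁ := isoc c₁ g hg
  have he₁ : (c₁.1 * g).1 *ᵥ e = lam • e := by rw [om_mulVec', f1]
  obtain ⟨c₂, g1, g2⟩ := torl_second h he hI₁ hlam0 he₁
  refine pass_torl c₂ _ ?_
  refine key_torl h he w1 w2 w3 w4 m 0 (by omega) _ (isoc _ _ hI₁) ⟨lam, hlam0, Or.inl ⟨?_, ?_⟩⟩
    (fun s hs => absurd hs (Nat.not_lt_zero s))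
  · rw [om_mulVec', g1]
  · rw [om_mulVec', g2]

/-- `Om` is normalised by the special isometry group. -/
theorem conj_mem_om (h : Good K) {g c : SpecialLinearGroup n k} (hg : g ∈ IsoG K)
    (hc : c ∈ Om K) : g * c * g⁻¹ ∈ Om K := by
  have h1 : Om K ≤ (Om K).comap (MulAut.conj g).toMonoidHom := by
    refine (Subgroup.closure_le _).2 ?_
    rintro x ⟨u, w, hu, hw, hx⟩
    refine Subgroup.subset_closure ⟨g.1 *ᵥ u, g.1 *ᵥ w, ?_, ?_, ?_⟩
    · rw [bf_iso hg, hu]
    · rw [bf_iso hg, hw]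
    · have e1 : g.1 * (g⁻¹).1 = 1 := by
        have := congrArg Subtype.val (mul_inv_cancel g)
        exact this
      have e2 := conj_psiM h.sym hg e1 (u := u) (w := w)
      show g.1 * x.1 * (g⁻¹).1 = _
      rw [hx, e2]
  exact h1 hc

/-- **`Om K` is the commutator subgroup of the special isometry group.** -/
theorem om_eq (h : Good K) : Om K = ⁅IsoG K, IsoG K⁆ := by
  obtain ⟨e, he0, hee⟩ := h.ex
  obtain ⟨f, he⟩ := (sysOf h).exists_hyp he0 hee
  refine le_antisymm ?_ (Subgroup.commutator_le.2 fun g hg g' hg' => ?_)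
  · have h1 : commutator (Om K) = ⊤ := (sysOf h).perfect
    have h2 : (commutator (Om K)).map (Om K).subtype = ⁅Om K, Om K⁆ :=
      Subgroup.map_subtype_commutator (Om K)
    rw [h1, ← MonoidHom.range_eq_map, Subgroup.range_subtype] at h2
    have h3 : ⁅Om K, Om K⁆ ≤ ⁅IsoG K, IsoG K⁆ :=
      Subgroup.commutator_mono (om_le_isoG h.sym h.two) (om_le_isoG h.sym h.two)
    exact h2.le.trans h3
  · obtain ⟨c, hc⟩ := exists_torl h he hg
    obtain ⟨c', hc'⟩ := exists_torl h he hg'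
    have hcomm := hc.comm he.ee he.ff he.ef he.fe hc'
    set a := c.1 * g with ha
    set a' := c'.1 * g' with ha'
    have hga : g = c.1⁻¹ * a := by rw [ha]; group
    have hga' : g' = c'.1⁻¹ * a' := by rw [ha']; group
    have haI : a ∈ IsoG K := (IsoG K).mul_mem (om_le_isoG h.sym h.two c.2) hg
    have haI' : a' ∈ IsoG K := (IsoG K).mul_mem (om_le_isoG h.sym h.two c'.2) hg'
    have m1 : a * c'.1⁻¹ * a⁻¹ ∈ Om K := conj_mem_om h haI ((Om K).inv_mem c'.2)
    have m2 : a' * c.1 * a'⁻¹ ∈ Om K := conj_mem_om h haI' c.2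
    have e1 : ⁅g, g'⁆ = c.1⁻¹ * (a * c'.1⁻¹ * a⁻¹) * (a' * c.1 * a'⁻¹) * c'.1 := by
      rw [commutatorElement_def, hga, hga']
      have e2 : a * a' * a⁻¹ * a'⁻¹ = 1 := by rw [hcomm]; group
      have e3 : a * a' = a' * a := hcomm
      have e4 : a⁻¹ * a' = a' * a⁻¹ := by
        rw [inv_mul_eq_iff_eq_mul, ← mul_assoc, e3, mul_assoc, mul_inv_cancel, mul_one]
      calc c.1⁻¹ * a * (c'.1⁻¹ * a') * (c.1⁻¹ * a)⁻¹ * (c'.1⁻¹ * a')⁻¹
          = c.1⁻¹ * a * c'.1⁻¹ * (a' * a⁻¹) * c.1 * a'⁻¹ * c'.1 := by group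
        _ = c.1⁻¹ * a * c'.1⁻¹ * (a⁻¹ * a') * c.1 * a'⁻¹ * c'.1 := by rw [e4]
        _ = _ := by group
    rw [e1]
    exact (Om K).mul_mem ((Om K).mul_mem ((Om K).mul_mem ((Om K).inv_mem c.2) m1) m2) c'.2

end top

end Vale.Agent.P092.H899.Ort
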