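import Vale.Agent.P092.H899.O15
import Vale.Agent.P092.H899.O16

/-!
P092 (helper899), [CLASS-O]: the commutator subgroup of the special orthogonal group of an isotropic
form is a factor.
-/

set_option linter.all false

open Filter Topology Matrix
open scoped commutatorElement

namespace Vale.Agent.P092.H899.Ort

open Vale.Agent.P092.H303 (Idx hyp)
open Vale.Agent.P092.H933 (LocK)

section alg

variable {k : Type} [Field k] {ι : Type} [Fintype ι] [DecidableEq ι] {J₀ : Matrix ι ι k}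

theorem Aniso.isUnit_det (hJ : Aniso J₀) : IsUnit J₀.det := by
  rw [isUnit_iff_ne_zero]
  intro h0
  obtain ⟨v, hv0, hv⟩ := Matrix.exists_mulVec_eq_zero_iff.2 h0
  refine hJ v hv0 ?_
  rw [hv, dotProduct_zero]

theorem Aniso.inv (hJ : Aniso J₀) : Aniso J₀⁻¹ := by
  intro v hv0 hv
  have hd := hJ.isUnit_det
  have e1 : J₀ *ᵥ (J₀⁻¹ *ᵥ v) = v := by
    rw [mulVec_mulVec, mul_nonsing_inv _ hd, one_mulVec]
  refine hJ (J₀⁻¹ *ᵥ v) ?_ ?_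
  · intro h0
    rw [h0, mulVec_zero] at e1
    exact hv0 e1.symm
  · rw [e1, dotProduct_comm]
    exact hv

theorem inv_sym (hJs : J₀ᵀ = J₀) : (J₀⁻¹)ᵀ = J₀⁻¹ := by
  rw [transpose_nonsing_inv, hJs]

theorem hyp_mul_inv (q : ℕ) (hJ : Aniso J₀) : hyp q 1 J₀ * hyp q 1 J₀⁻¹ = 1 := by
  rw [hyp, hyp, fromBlocks_multiply, fromBlocks_multiply, mul_nonsing_inv _ hJ.isUnit_det]
  simp only [Matrix.zero_mul, Matrix.mul_zero, add_zero, zero_add, one_smul, Matrix.mul_one,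
    fromBlocks_one]

theorem mem_isoG_inv (q : ℕ) (hJ : Aniso J₀) (g : SpecialLinearGroup (Idx q ι) k) :
    g ∈ IsoG (hyp q 1 J₀⁻¹) ↔ g.1 * hyp q 1 J₀ * g.1ᵀ = hyp q 1 J₀ := by
  have h1 := hyp_mul_inv q hJ
  have h2 : hyp q 1 J₀⁻¹ * hyp q 1 J₀ = 1 := mul_eq_one_comm.1 h1
  show g.1ᵀ * hyp q 1 J₀⁻¹ * g.1 = hyp q 1 J₀⁻¹ ↔ _
  constructor
  · intro h
    have h3 : (g.1ᵀ * hyp q 1 J₀⁻¹ * g.1) * hyp q 1 J₀ = 1 := by rw [h, h2]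
    have h4 : g.1ᵀ * (hyp q 1 J₀⁻¹ * g.1 * hyp q 1 J₀) = 1 := by
      rw [← h3]; simp only [Matrix.mul_assoc]
    have h5 : (hyp q 1 J₀⁻¹ * g.1 * hyp q 1 J₀) * g.1ᵀ = 1 := mul_eq_one_comm.1 h4
    calc g.1 * hyp q 1 J₀ * g.1ᵀ = (hyp q 1 J₀ * hyp q 1 J₀⁻¹) * (g.1 * hyp q 1 J₀ * g.1ᵀ) := by
          rw [h1, Matrix.one_mul]
      _ = hyp q 1 J₀ * ((hyp q 1 J₀⁻¹ * g.1 * hyp q 1 J₀) * g.1ᵀ) := by
          simp only [Matrix.mul_assoc]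
      _ = hyp q 1 J₀ := by rw [h5, Matrix.mul_one]
  · intro h
    have h3 : (g.1 * hyp q 1 J₀ * g.1ᵀ) * hyp q 1 J₀⁻¹ = 1 := by rw [h, h1]
    have h4 : g.1 * (hyp q 1 J₀ * g.1ᵀ * hyp q 1 J₀⁻¹) = 1 := by
      rw [← h3]; simp only [Matrix.mul_assoc]
    have h5 : (hyp q 1 J₀ * g.1ᵀ * hyp q 1 J₀⁻¹) * g.1 = 1 := mul_eq_one_comm.1 h4
    calc g.1ᵀ * hyp q 1 J₀⁻¹ * g.1 = (hyp q 1 J₀⁻¹ * hyp q 1 J₀) *
          (g.1ᵀ * hyp q 1 J₀⁻¹ * g.1) := by rw [h2, Matrix.one_mul]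
      _ = hyp q 1 J₀⁻¹ * ((hyp q 1 J₀ * g.1ᵀ * hyp q 1 J₀⁻¹) * g.1) := by
          simp only [Matrix.mul_assoc]
      _ = hyp q 1 J₀⁻¹ := by rw [h5, Matrix.mul_one]

end alg

section top

variable {k : Type} [NontriviallyNormedField k] {ι : Type} [Fintype ι] [DecidableEq ι] {q : ℕ}
  {J₀ : Matrix ι ι k}

/-- The commutator subgroup of the special orthogonal group. -/
theorem commutator_eq_om (hq : Dim q ι) (h2 : (2 : k) ≠ 0) (hJs : J₀ᵀ = J₀) (hJ : Aniso J₀)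
    (G : Subgroup (SpecialLinearGroup (Idx q ι) k))
    (hG : ∀ g, g ∈ G ↔ g.1 * hyp q 1 J₀ * g.1ᵀ = hyp q 1 J₀) :
    ⁅G, G⁆ = Om (hyp q 1 J₀⁻¹) := by
  have e1 : G = IsoG (hyp q 1 J₀⁻¹) := by
    ext g
    rw [hG, mem_isoG_inv q hJ]
  rw [e1, om_eq (good_hyp hq h2 (inv_sym hJs) hJ.inv)]

variable [ProperSpace k]

/-- **`Ω(J) = [SO(J), SO(J)]` is a factor** (project A). -/
theorem fct_orth (hk : LocK k) (hq : Dim q ι) (h2 : (2 : k) ≠ 0) (hJs : J₀ᵀ = J₀) (hJ : Aniso J₀)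
    (G : Subgroup (SpecialLinearGroup (Idx q ι) k))
    (hG : ∀ g, g ∈ G ↔ g.1 * hyp q 1 J₀ * g.1ᵀ = hyp q 1 J₀) :
    H714.TF.Fct (⁅G, G⁆ : Subgroup (SpecialLinearGroup (Idx q ι) k)) q := by
  rw [commutator_eq_om hq h2 hJs hJ G hG]
  exact fct_om hk hq h2 (inv_sym hJs) hJ.inv

/-- **`Ω(J) = [SO(J), SO(J)]` is a factor** (project Q). -/
theorem qf_orth (hk : LocK k) (hq : Dim q ι) (h2 : (2 : k) ≠ 0) (hJs : J₀ᵀ = J₀) (hJ : Aniso J₀)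
    (G : Subgroup (SpecialLinearGroup (Idx q ι) k))
    (hG : ∀ g, g ∈ G ↔ g.1 * hyp q 1 J₀ * g.1ᵀ = hyp q 1 J₀) :
    QC.QF (⁅G, G⁆ : Subgroup (SpecialLinearGroup (Idx q ι) k)) q := by
  rw [commutator_eq_om hq h2 hJs hJ G hG]
  exact qf_om hk hq h2 (inv_sym hJs) hJ.inv

/-- **`Ω(J) = [SO(J), SO(J)]` is a factor** (project B). -/
theorem bfac_orth [IsUltrametricDist k] (hq : Dim q ι) (h2 : (2 : k) ≠ 0) (hJs : J₀ᵀ = J₀)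
    (hJ : Aniso J₀) (G : Subgroup (SpecialLinearGroup (Idx q ι) k))
    (hG : ∀ g, g ∈ G ↔ g.1 * hyp q 1 J₀ * g.1ᵀ = hyp q 1 J₀) :
    H183.BFac (⁅G, G⁆ : Subgroup (SpecialLinearGroup (Idx q ι) k)) q := by
  rw [commutator_eq_om hq h2 hJs hJ G hG]
  exact bfac_om hq h2 (inv_sym hJs) hJ.inv

end top

end Vale.Agent.P092.H899.Ort
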