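import Vale.Agent.P092.H899.O3
import Mathlib.Topology.Algebra.Group.Matrix

/-!
P092 (helper899), [CLASS-O]: the matrix group `Om K` generated by the Siegel transformations of the
symmetric matrix `K`.
-/

set_option linter.all false

open Filter Topology Matrix

namespace Vale.Agent.P092.H899.Ort

section alg

variable {n : Type} [Fintype n] [DecidableEq n] {k : Type} [Field k]

/-- The bilinear form of a matrix, on columns. -/
def bf (K : Matrix n n k) : (n → k) →ₗ[k] (n → k) →ₗ[k] k := Matrix.toLinearMap₂' k K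

theorem bf_apply (K : Matrix n n k) (x y : n → k) : bf K x y = x ⬝ᵥ (K *ᵥ y) :=
  Matrix.toLinearMap₂'_apply' K x y

theorem bf_sym {K : Matrix n n k} (hK : Kᵀ = K) (x y : n → k) : bf K x y = bf K y x := by
  rw [bf_apply, bf_apply, dotProduct_mulVec, dotProduct_comm, ← mulVec_transpose, hK]

theorem bf_ext {A B : Matrix n n k} (h : ∀ x y, bf A x y = bf B x y) : A = B := by
  ext i j
  have := h (Pi.single i 1) (Pi.single j 1)
  simpa [bf_apply] using this

theorem bf_nd {K : Matrix n n k} (hK : IsUnit K.det) (x : n → k) (hx : x ≠ 0) :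
    ∃ y, bf K x y = 1 := by
  obtain ⟨i, hi⟩ := Function.ne_iff.1 hx
  refine ⟨K⁻¹ *ᵥ Pi.single i (x i)⁻¹, ?_⟩
  rw [bf_apply, mulVec_mulVec, mul_nonsing_inv _ hK, one_mulVec, dotProduct_single]
  exact mul_inv_cancel₀ hi

/-- The matrix of a Siegel transformation. -/
def psiM (K : Matrix n n k) (u w : n → k) : Matrix n n k :=
  1 + vecMulVec w (K *ᵥ u) - vecMulVec u (K *ᵥ w + (2⁻¹ * bf K w w) • (K *ᵥ u))

theorem psiM_mulVec {K : Matrix n n k} (hK : Kᵀ = K) (u w x : n → k) :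
    psiM K u w *ᵥ x = x + bf K x u • w - (bf K x w + 2⁻¹ * bf K w w * bf K x u) • u := by
  rw [psiM, sub_mulVec, add_mulVec, one_mulVec, vecMulVec_mulVec, vecMulVec_mulVec]
  simp only [op_smul_eq_smul, add_dotProduct, smul_dotProduct, smul_eq_mul]
  have h1 : (K *ᵥ u) ⬝ᵥ x = bf K x u := by rw [bf_apply, dotProduct_comm]
  have h2 : (K *ᵥ w) ⬝ᵥ x = bf K x w := by rw [bf_apply, dotProduct_comm]
  rw [h1, h2]

theorem det_psiM {K : Matrix n n k} (hK : Kᵀ = K) {u w : n → k} (hu : bf K u u = 0)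
    (hw : bf K u w = 0) : (psiM K u w).det = 1 := by
  set b : n → k := -(K *ᵥ w + (2⁻¹ * bf K w w) • (K *ᵥ u)) with hb
  set A : Matrix n (Fin 2) k := Matrix.of fun i j => ![w i, u i] j with hA
  set C : Matrix (Fin 2) n k := Matrix.of fun j i => ![(K *ᵥ u) i, b i] j with hC
  have h1 : psiM K u w = 1 + A * C := by
    ext i j
    simp only [psiM, Matrix.add_apply, Matrix.sub_apply, vecMulVec_apply, Matrix.mul_apply,
      Fin.sum_univ_two, hA, hC, Matrix.of_apply, Matrix.cons_val_zero, Matrix.cons_val_one, hb,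
      Pi.neg_apply, Pi.add_apply, Pi.smul_apply, smul_eq_mul]
    ring
  have hwu : bf K w u = 0 := by rw [bf_sym hK, hw]
  have g1 : (K *ᵥ u) ⬝ᵥ w = 0 := by rw [dotProduct_comm, ← bf_apply, hwu]
  have g2 : (K *ᵥ u) ⬝ᵥ u = 0 := by rw [dotProduct_comm, ← bf_apply, hu]
  have g3 : (K *ᵥ w) ⬝ᵥ u = 0 := by rw [dotProduct_comm, ← bf_apply, hw]
  have g4 : b ⬝ᵥ u = 0 := by
    rw [hb, neg_dotProduct, add_dotProduct, smul_dotProduct, g2, g3]
    simp
  have e00 : (C * A) 0 0 = 0 := by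
    simpa [Matrix.mul_apply, hA, hC, dotProduct] using g1
  have e01 : (C * A) 0 1 = 0 := by
    simpa [Matrix.mul_apply, hA, hC, dotProduct] using g2
  have e11 : (C * A) 1 1 = 0 := by
    simpa [Matrix.mul_apply, hA, hC, dotProduct] using g4
  rw [h1, det_one_add_mul_comm, det_fin_two]
  simp only [Matrix.add_apply, e00, e01, e11, Matrix.one_apply_eq]
  simp

/-- The special isometry group. -/
def IsoG (K : Matrix n n k) : Subgroup (SpecialLinearGroup n k) where
  carrier := {g | g.1ᵀ * K * g.1 = K}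
  one_mem' := by
    show (1 : Matrix n n k)ᵀ * K * 1 = K
    rw [transpose_one, Matrix.one_mul, Matrix.mul_one]
  mul_mem' := by
    intro g h hg hh
    have hg' : g.1ᵀ * K * g.1 = K := hg
    have hh' : h.1ᵀ * K * h.1 = K := hh
    show (g.1 * h.1)ᵀ * K * (g.1 * h.1) = K
    rw [transpose_mul]
    calc h.1ᵀ * g.1ᵀ * K * (g.1 * h.1) = h.1ᵀ * (g.1ᵀ * K * g.1) * h.1 := by
          simp only [Matrix.mul_assoc]
      _ = K := by rw [hg', hh']
  inv_mem' := by
    intro g hg
    have hg' : g.1ᵀ * K * g.1 = K := hg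
    have h1 : g.1 * (g⁻¹).1 = 1 := by
      have := congrArg Subtype.val (mul_inv_cancel g)
      exact this
    show (g⁻¹).1ᵀ * K * (g⁻¹).1 = K
    calc (g⁻¹).1ᵀ * K * (g⁻¹).1 = (g⁻¹).1ᵀ * (g.1ᵀ * K * g.1) * (g⁻¹).1 := by rw [hg']
      _ = ((g⁻¹).1ᵀ * g.1ᵀ) * K * (g.1 * (g⁻¹).1) := by simp only [Matrix.mul_assoc]
      _ = K := by
        rw [h1, ← transpose_mul, h1, transpose_one, Matrix.one_mul, Matrix.mul_one]

theorem bf_mul (K A : Matrix n n k) (x y : n → k) :
    bf K (A *ᵥ x) (A *ᵥ y) = bf (Aᵀ * K * A) x y := by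
  rw [bf_apply, bf_apply, ← mulVec_mulVec, ← mulVec_mulVec, dotProduct_mulVec x, vecMul_transpose]

theorem bf_iso {K : Matrix n n k} {A : Matrix n n k} (h : Aᵀ * K * A = K) (x y : n → k) :
    bf K (A *ᵥ x) (A *ᵥ y) = bf K x y := by
  rw [bf_mul, h]

theorem mem_isoG_of {K : Matrix n n k} {g : SpecialLinearGroup n k}
    (h : ∀ x y, bf K (g.1 *ᵥ x) (g.1 *ᵥ y) = bf K x y) : g ∈ IsoG K := by
  refine bf_ext fun x y => ?_
  rw [← bf_mul, h]

/-- The group generated by the Siegel transformations. -/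
def Om (K : Matrix n n k) : Subgroup (SpecialLinearGroup n k) :=
  Subgroup.closure {g | ∃ u w, bf K u u = 0 ∧ bf K u w = 0 ∧ g.1 = psiM K u w}

theorem psiM_iso {K : Matrix n n k} (hK : Kᵀ = K) (h2 : (2 : k) ≠ 0) {u w : n → k}
    (hu : bf K u u = 0) (hw : bf K u w = 0) (x y : n → k) :
    bf K (psiM K u w *ᵥ x) (psiM K u w *ᵥ y) = bf K x y := by
  rw [psiM_mulVec hK, psiM_mulVec hK]
  simp only [map_add, map_sub, map_smul, LinearMap.add_apply, LinearMap.sub_apply,
    LinearMap.smul_apply, smul_eq_mul, hu, hw, bf_sym hK w u, bf_sym hK w y, bf_sym hK u y]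
  field_simp
  ring

theorem om_le_isoG {K : Matrix n n k} (hK : Kᵀ = K) (h2 : (2 : k) ≠ 0) : Om K ≤ IsoG K := by
  refine (Subgroup.closure_le _).2 ?_
  rintro g ⟨u, w, hu, hw, hg⟩
  refine mem_isoG_of fun x y => ?_
  rw [hg]
  exact psiM_iso hK h2 hu hw x y

open Classical in
/-- The Siegel transformation as an element of the group. -/
noncomputable def psiG (K : Matrix n n k) (hK : Kᵀ = K) (u w : n → k) : Om K :=
  if h : bf K u u = 0 ∧ bf K u w = 0 then
    ⟨⟨psiM K u w, det_psiM hK h.1 h.2⟩, Subgroup.subset_closure ⟨u, w, h.1, h.2, rfl⟩⟩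
  else 1

theorem psiG_coe {K : Matrix n n k} (hK : Kᵀ = K) {u w : n → k} (hu : bf K u u = 0)
    (hw : bf K u w = 0) : (psiG K hK u w).1.1 = psiM K u w := by
  unfold psiG
  rw [dif_pos ⟨hu, hw⟩]

/-- The action. -/
def rho (K : Matrix n n k) : Om K →* Module.End k (n → k) where
  toFun g := Matrix.mulVecLin g.1.1
  map_one' := Matrix.mulVecLin_one
  map_mul' g h := Matrix.mulVecLin_mul _ _

theorem rho_apply (K : Matrix n n k) (g : Om K) (x : n → k) : rho K g x = g.1.1 *ᵥ x := rfl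

/-- Kernels of few linear forms. -/
theorem exists_ker {K : Matrix n n k} {m : ℕ} (a : Fin m → n → k) (hm : m < Fintype.card n) :
    ∃ w, w ≠ 0 ∧ ∀ i, bf K (a i) w = 0 := by
  let L : (n → k) →ₗ[k] (Fin m → k) := LinearMap.pi fun i => bf K (a i)
  have h1 : LinearMap.ker L ≠ ⊥ := by
    refine LinearMap.ker_ne_bot_of_finrank_lt ?_
    rw [Module.finrank_fintype_fun_eq_card, Module.finrank_fintype_fun_eq_card, Fintype.card_fin]
    exact hm
  obtain ⟨w, hw, hw0⟩ := (Submodule.ne_bot_iff _).1 h1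
  exact ⟨w, hw0, fun i => congrFun (LinearMap.mem_ker.1 hw) i⟩

theorem exists_aniso {K : Matrix n n k} (hK : Kᵀ = K) (hd : IsUnit K.det) (h2 : (2 : k) ≠ 0)
    (W : Submodule k (n → k)) {w₀ : n → k} (hw₀ : w₀ ∈ W) (h0 : w₀ ≠ 0)
    (hp : ∀ y, bf K w₀ y = 1 → ∃ y' ∈ W, bf K w₀ y' = 1) : ∃ w ∈ W, bf K w w ≠ 0 := by
  by_cases a : bf K w₀ w₀ = 0
  · obtain ⟨y, hy⟩ := bf_nd hd w₀ h0
    obtain ⟨y', hy', h1⟩ := hp y hy
    by_cases b : bf K y' y' = 0
    · refine ⟨w₀ + y', W.add_mem hw₀ hy', ?_⟩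
      have : bf K (w₀ + y') (w₀ + y') = 2 := by
        simp only [map_add, LinearMap.add_apply, a, b, h1, bf_sym hK y' w₀]
        ring
      rw [this]
      exact h2
    · exact ⟨y', hy', b⟩
  · exact ⟨w₀, hw₀, a⟩

theorem exists_h3 {K : Matrix n n k} (hK : Kᵀ = K) (hd : IsUnit K.det) (h2 : (2 : k) ≠ 0)
    (hn : 3 ≤ Fintype.card n) (e f : n → k) (he : bf K e e = 0) (hf : bf K f f = 0)
    (hef : bf K e f = 1) : ∃ w, bf K e w = 0 ∧ bf K f w = 0 ∧ bf K w w ≠ 0 := by
  obtain ⟨w₀, h0, h1⟩ := exists_ker (K := K) ![e, f] (by omega)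
  have h1e : bf K e w₀ = 0 := h1 0
  have h1f : bf K f w₀ = 0 := h1 1
  have hfe : bf K f e = 1 := by rw [bf_sym hK, hef]
  let W : Submodule k (n → k) := LinearMap.ker (bf K e) ⊓ LinearMap.ker (bf K f)
  obtain ⟨w, hw, hww⟩ := exists_aniso hK hd h2 W (w₀ := w₀) ⟨h1e, h1f⟩ h0 (by
    intro y hy
    refine ⟨y - bf K y f • e - bf K y e • f, ⟨?_, ?_⟩, ?_⟩
    · show bf K e _ = 0
      simp only [map_sub, map_smul, smul_eq_mul, he, hef, bf_sym hK y e]
      ring
    · show bf K f _ = 0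
      simp only [map_sub, map_smul, smul_eq_mul, hf, hfe, bf_sym hK y f]
      ring
    · simp only [map_sub, map_smul, smul_eq_mul, bf_sym hK w₀ e, bf_sym hK w₀ f, h1e, h1f, hy]
      ring)
  exact ⟨w, hw.1, hw.2, hww⟩

theorem exists_part {K : Matrix n n k} (hK : Kᵀ = K) (hd : IsUnit K.det) (h2 : (2 : k) ≠ 0)
    {e : n → k} (h0 : e ≠ 0) (he : bf K e e = 0) : ∃ f, bf K f f = 0 ∧ bf K e f = 1 := by
  obtain ⟨y, hy⟩ := bf_nd hd e h0
  refine ⟨y - (2⁻¹ * bf K y y) • e, ?_, ?_⟩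
  · simp only [map_sub, map_smul, LinearMap.sub_apply, LinearMap.smul_apply, smul_eq_mul, he, hy,
      bf_sym hK y e]
    field_simp
    ring
  · simp only [map_sub, map_smul, smul_eq_mul, he, hy]
    ring

theorem exists_h5 {K : Matrix n n k} (hK : Kᵀ = K) (hd : IsUnit K.det) (h2 : (2 : k) ≠ 0)
    (hn : 5 ≤ Fintype.card n) (x v : n → k) (hx0 : x ≠ 0) (hx : bf K x x = 0) (hv : bf K v v = 0)
    (hxv : bf K x v = 0) (hc : ∀ c : k, v ≠ c • x) :
    ∃ w, bf K x w = 0 ∧ bf K v w = 0 ∧ bf K w w ≠ 0 := by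
  obtain ⟨z, hz, hxz⟩ := exists_part hK hd h2 hx0 hx
  have hzx : bf K z x = 1 := by rw [bf_sym hK, hxz]
  have hvx : bf K v x = 0 := by rw [bf_sym hK, hxv]
  set v' := v - bf K v z • x with hv'
  have a0 : v' ≠ 0 := fun h => hc _ (sub_eq_zero.1 h)
  have a1 : bf K x v' = 0 := by rw [hv', map_sub, map_smul, hxv, hx, smul_zero, sub_zero]
  have a2 : bf K z v' = 0 := by
    rw [hv', map_sub, map_smul, hzx, smul_eq_mul, bf_sym hK v z]; ring
  have a3 : bf K v' v' = 0 := by
    simp only [hv', map_sub, map_smul, LinearMap.sub_apply, LinearMap.smul_apply, smul_eq_mul, hx,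
      hv, hxv, hvx]
    ring
  have a1' : bf K v' x = 0 := by rw [bf_sym hK, a1]
  have a2' : bf K v' z = 0 := by rw [bf_sym hK, a2]
  obtain ⟨g, hg, hvg⟩ := exists_part hK hd h2 a0 a3
  set g' := g - bf K g z • x - bf K g x • z with hg'
  have b1 : bf K x g' = 0 := by
    simp only [hg', map_sub, map_smul, smul_eq_mul, hx, hxz, bf_sym hK g x]
    ring
  have b2 : bf K z g' = 0 := by
    simp only [hg', map_sub, map_smul, smul_eq_mul, hz, hzx, bf_sym hK g z]
    ring
  have b3 : bf K v' g' = 1 := by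
    simp only [hg', map_sub, map_smul, smul_eq_mul, a1', a2', hvg]
    ring
  have b3' : bf K g' v' = 1 := by rw [bf_sym hK, b3]
  have b1' : bf K g' x = 0 := by rw [bf_sym hK, b1]
  have b2' : bf K g' z = 0 := by rw [bf_sym hK, b2]
  set f' := g' - (2⁻¹ * bf K g' g') • v' with hf'
  have c1 : bf K x f' = 0 := by rw [hf', map_sub, map_smul, a1, b1, smul_zero, sub_zero]
  have c2 : bf K z f' = 0 := by rw [hf', map_sub, map_smul, a2, b2, smul_zero, sub_zero]
  have c3 : bf K v' f' = 1 := by rw [hf', map_sub, map_smul, a3, b3, smul_zero, sub_zero]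
  have c4 : bf K f' f' = 0 := by
    simp only [hf', map_sub, map_smul, LinearMap.sub_apply, LinearMap.smul_apply, smul_eq_mul, a3,
      b3, b3']
    field_simp
    ring
  have c3' : bf K f' v' = 1 := by rw [bf_sym hK, c3]
  have c1' : bf K f' x = 0 := by rw [bf_sym hK, c1]
  have c2' : bf K f' z = 0 := by rw [bf_sym hK, c2]
  obtain ⟨w₀, h0, h1⟩ := exists_ker (K := K) ![x, z, v', f'] (by omega)
  have h1x : bf K x w₀ = 0 := h1 0
  have h1z : bf K z w₀ = 0 := h1 1
  have h1v : bf K v' w₀ = 0 := h1 2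
  have h1f : bf K f' w₀ = 0 := h1 3
  let W : Submodule k (n → k) := (LinearMap.ker (bf K x) ⊓ LinearMap.ker (bf K z)) ⊓
    (LinearMap.ker (bf K v') ⊓ LinearMap.ker (bf K f'))
  obtain ⟨w, hw, hww⟩ := exists_aniso hK hd h2 W (w₀ := w₀) ⟨⟨h1x, h1z⟩, h1v, h1f⟩ h0 (by
    intro y hy
    refine ⟨y - bf K y z • x - bf K y x • z - bf K y f' • v' - bf K y v' • f',
      ⟨⟨?_, ?_⟩, ?_, ?_⟩, ?_⟩
    · show bf K x _ = 0
      simp only [map_sub, map_smul, smul_eq_mul, hx, hxz, a1, c1, bf_sym hK y x]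
      ring
    · show bf K z _ = 0
      simp only [map_sub, map_smul, smul_eq_mul, hz, hzx, a2, c2, bf_sym hK y z]
      ring
    · show bf K v' _ = 0
      simp only [map_sub, map_smul, smul_eq_mul, a1', a2', a3, c3, bf_sym hK y v']
      ring
    · show bf K f' _ = 0
      simp only [map_sub, map_smul, smul_eq_mul, c1', c2', c3', c4, bf_sym hK y f']
      ring
    · simp only [map_sub, map_smul, smul_eq_mul, bf_sym hK w₀ x, bf_sym hK w₀ z, bf_sym hK w₀ v',
        bf_sym hK w₀ f', h1x, h1z, h1v, h1f, hy]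
      ring)
  refine ⟨w, hw.1.1, ?_, hww⟩
  have e1 : bf K v' w = 0 := hw.2.1
  have e2 : v = v' + bf K v z • x := by rw [hv']; abel
  rw [e2, map_add, LinearMap.add_apply, e1, map_smul, LinearMap.smul_apply]
  have e3 : bf K x w = 0 := hw.1.1
  rw [e3, smul_zero, add_zero]

/-- The hypotheses on the form: symmetric, nondegenerate, isotropic, of dimension `≥ 5`, or of
dimension `≥ 3` and of Witt index one. -/
structure Good (K : Matrix n n k) : Prop where
  sym : Kᵀ = K
  det : IsUnit K.det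
  two : (2 : k) ≠ 0
  ex : ∃ e, e ≠ 0 ∧ bf K e e = 0
  card : 3 ≤ Fintype.card n
  card' : 5 ≤ Fintype.card n ∨ ∀ x v : n → k, x ≠ 0 → bf K x x = 0 → bf K v v = 0 →
    bf K x v = 0 → ∃ c : k, v = c • x

theorem rho_inj (K : Matrix n n k) (g g' : Om K) (hg : ∀ x, rho K g x = rho K g' x) : g = g' := by
  refine Subtype.ext (Subtype.ext ?_)
  ext i j
  have := congrFun (hg (Pi.single j 1)) i
  rw [rho_apply, rho_apply] at this
  simpa using this

theorem om_form {K : Matrix n n k} (h : Good K) (g : Om K) : g.1.1ᵀ * K * g.1.1 = K :=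
  om_le_isoG h.sym h.two g.2

theorem rho_iso {K : Matrix n n k} (h : Good K) (g : Om K) (x y : n → k) :
    bf K (rho K g x) (rho K g y) = bf K x y := by
  rw [rho_apply, rho_apply]
  exact bf_iso (om_form h g) x y

theorem rho_psi {K : Matrix n n k} (h : Good K) (u w : n → k) (hu : bf K u u = 0)
    (hw : bf K u w = 0) (x : n → k) : rho K (psiG K h.sym u w) x =
      x + bf K x u • w - (bf K x w + 2⁻¹ * bf K w w * bf K x u) • u := by
  rw [rho_apply, psiG_coe h.sym hu hw, psiM_mulVec h.sym]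

theorem om_gen {K : Matrix n n k} (h : Good K) (S : Subgroup (Om K))
    (hS : ∀ u w, bf K u u = 0 → bf K u w = 0 → psiG K h.sym u w ∈ S) : S = ⊤ := by
  have h1 : Om K ≤ S.map (Om K).subtype := by
    refine (Subgroup.closure_le _).2 ?_
    rintro g ⟨u, w, hu, hw, hg⟩
    exact ⟨psiG K h.sym u w, hS u w hu hw, Subtype.ext ((psiG_coe h.sym hu hw).trans hg.symm)⟩
  rw [eq_top_iff]
  intro g _
  obtain ⟨s, hs, hsg⟩ := h1 g.2
  have : s = g := Subtype.ext hsg
  rw [← this]
  exact hs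

theorem om_h5 {K : Matrix n n k} (h : Good K) (x v : n → k) (hx0 : x ≠ 0) (hx : bf K x x = 0)
    (hv : bf K v v = 0) (hxv : bf K x v = 0) (hc : ∀ c : k, v ≠ c • x) :
    ∃ w, bf K x w = 0 ∧ bf K v w = 0 ∧ bf K w w ≠ 0 := by
  rcases h.card' with h5 | h5
  · exact exists_h5 h.sym h.det h.two h5 x v hx0 hx hv hxv hc
  · obtain ⟨c, hc'⟩ := h5 x v hx0 hx hv hxv
    exact absurd hc' (hc c)

/-- The system of the matrix group. -/
noncomputable def sysOf {K : Matrix n n k} (h : Good K) : Sys k (n → k) (Om K) where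
  B := bf K
  ρ := rho K
  psi := psiG K h.sym
  sym := bf_sym h.sym
  nd := bf_nd h.det
  two := h.two
  inj := rho_inj K
  iso := rho_iso h
  hpsi := rho_psi h
  gen := om_gen h
  h3 := exists_h3 h.sym h.det h.two h.card
  h5 := om_h5 h
  ex := h.ex

end alg

section top

variable {n : Type} [Fintype n] [DecidableEq n] {k : Type} [NontriviallyNormedField k]

theorem continuous_psiM (K : Matrix n n k) :
    Continuous fun p : (n → k) × (n → k) => psiM K p.1 p.2 := by
  have c1 : Continuous fun p : (n → k) × (n → k) => K *ᵥ p.1 := continuous_const.matrix_mulVec continuous_fst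
  have c2 : Continuous fun p : (n → k) × (n → k) => K *ᵥ p.2 := continuous_const.matrix_mulVec continuous_snd
  have c3 : Continuous fun p : (n → k) × (n → k) => bf K p.2 p.2 := by
    simp only [bf_apply]
    exact continuous_snd.dotProduct c2
  unfold psiM
  refine (continuous_const.add (Continuous.matrix_vecMulVec continuous_snd c1)).sub
    (Continuous.matrix_vecMulVec continuous_fst (c2.add ((continuous_const.mul c3).smul c1)))

theorem tendsto_om {K : Matrix n n k} {α : Type*} {l : Filter α} {f : α → Om K} {g : Om K}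
    (h : Tendsto (fun i => (f i).1.1) l (𝓝 g.1.1)) : Tendsto f l (𝓝 g) := by
  have hI : IsInducing fun g : Om K => g.1.1 :=
    (Matrix.SpecialLinearGroup.isClosedEmbedding_val (n := n) (R := k)).isInducing.comp
      IsInducing.subtypeVal
  exact hI.tendsto_nhds_iff.2 h

theorem tendsto_psiM {K : Matrix n n k} {α : Type*} {l : Filter α} {u w : α → n → k}
    {u₀ w₀ : n → k} (h1 : Tendsto u l (𝓝 u₀)) (h2 : Tendsto w l (𝓝 w₀)) :
    Tendsto (fun i => psiM K (u i) (w i)) l (𝓝 (psiM K u₀ w₀)) := by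
  have h := (continuous_psiM K).tendsto (u₀, w₀)
  dsimp only at h
  have h' := h.comp (h1.prodMk_nhds h2)
  simpa only [Function.comp_def] using h'

/-- Convergence of Siegel transformations. -/
theorem tendsto_psiG {K : Matrix n n k} (hK : Kᵀ = K) {α : Type*} {l : Filter α}
    {u w : α → n → k} {u₀ w₀ : n → k} (hu : ∀ i, bf K (u i) (u i) = 0)
    (hw : ∀ i, bf K (u i) (w i) = 0) (hu₀ : bf K u₀ u₀ = 0) (hw₀ : bf K u₀ w₀ = 0)
    (h1 : Tendsto u l (𝓝 u₀)) (h2 : Tendsto w l (𝓝 w₀)) :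
    Tendsto (fun i => psiG K hK (u i) (w i)) l (𝓝 (psiG K hK u₀ w₀)) := by
  have h3 := tendsto_psiM (K := K) h1 h2
  refine tendsto_om ?_
  have e1 : (fun i => (psiG K hK (u i) (w i)).1.1) = fun i => psiM K (u i) (w i) :=
    funext fun i => psiG_coe hK (hu i) (hw i)
  rw [e1, psiG_coe hK hu₀ hw₀]
  exact h3

/-- The topological system. -/
noncomputable def tsysOf {K : Matrix n n k} (h : Good K) : TSys k (n → k) (Om K) where
  toSys := sysOf h
  cont u w hu hw := by
    refine continuous_iff_continuousAt.2 fun c => ?_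
    have hu' : bf K u u = 0 := hu
    have hw' : bf K u w = 0 := hw
    have hc : ∀ c : k, bf K u (c • w) = 0 := fun c => by rw [map_smul, hw', smul_zero]
    exact tendsto_psiG h.sym (fun _ => hu') hc hu' (hc c) tendsto_const_nhds
      ((continuous_id.smul continuous_const).tendsto c)
  contB x y := by
    show Continuous fun g : Om K => bf K (g.1.1 *ᵥ x) y
    simp only [bf_apply]
    have c1 : Continuous fun g : Om K => g.1.1 := continuous_subtype_val.comp continuous_subtype_val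
    exact (c1.matrix_mulVec continuous_const).dotProduct continuous_const

end top

end Vale.Agent.P092.H899.Ort
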