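import Vale.Agent.P092.H103.QH1
import Mathlib.LinearAlgebra.Matrix.NonsingularInverse

/-!
P092 (helper899), [CLASS-H]: the sum of `q` hyperbolic planes and an anisotropic hermitian form over a
division ring.
-/

set_option linter.all false

open Matrix

namespace Vale.Agent.P092.H899.Qu

open Vale.Agent.P092.H103.QH

variable {ι : Type*} {D : Type*} [DivisionRing D]

/-- The form: `q` hyperbolic planes and `J₀`. -/
def hypD [DecidableEq ι] (q : ℕ) (ε : D) (J₀ : Matrix ι ι D) :
    Matrix ((Fin q ⊕ Fin q) ⊕ ι) ((Fin q ⊕ Fin q) ⊕ ι) D :=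
  fromBlocks (fromBlocks 0 1 (ε • 1) 0) 0 0 J₀

variable [Fintype ι] [DecidableEq ι] [StarRing D] {ε : D} {J₀ : Matrix ι ι D} {q : ℕ}

/-- The form of `hypD q ε J₀`. -/
theorem hf_hypD (he : ε = 1 ∨ ε = -1) (x y : (Fin q ⊕ Fin q) ⊕ ι → D) : hf (hypD q ε J₀) x y =
    (∑ i : Fin q, x (.inl (.inl i)) * star (y (.inl (.inr i)))) +
      ε * (∑ i : Fin q, x (.inl (.inr i)) * star (y (.inl (.inl i)))) +
      hf J₀ (fun i => x (.inr i)) (fun i => y (.inr i)) := by
  unfold hf hypD
  rw [dotProduct, Fintype.sum_sum_type, Fintype.sum_sum_type]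
  congr 1
  congr 1
  · refine Finset.sum_congr rfl fun i _ => ?_
    congr 1
    simp [mulVec, dotProduct, Fintype.sum_sum_type, Matrix.one_apply]
  · rw [Finset.mul_sum]
    refine Finset.sum_congr rfl fun i _ => ?_
    rw [← mul_assoc, eps_comm he, mul_assoc]
    congr 1
    simp [mulVec, dotProduct, Fintype.sum_sum_type, Matrix.one_apply]
  · unfold dotProduct
    refine Finset.sum_congr rfl fun i _ => ?_
    congr 1
    simp [mulVec, dotProduct, Fintype.sum_sum_type]

theorem hf_single (J : Matrix ι ι D) (i j : ι) (a b : D) :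
    hf J (Pi.single i a) (Pi.single j b) = a * J i j * star b := by
  unfold hf
  have e : star (Pi.single j b : ι → D) = Pi.single j (star b) := by
    funext l
    by_cases hl : l = j
    · subst hl; simp
    · simp [Pi.single_eq_of_ne hl]
  rw [e, single_dotProduct, mulVec_single]
  simp [mul_assoc]

/-- The entries determine the symmetry of the form. -/
theorem herm_of (he : ε = 1 ∨ ε = -1) {J : Matrix ι ι D} (hH : ∀ i j, J j i = ε * star (J i j))
    (x y : ι → D) : hf J y x = ε * star (hf J x y) := by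
  unfold hf dotProduct mulVec dotProduct
  simp only [Finset.mul_sum, star_sum, star_mul, Pi.star_apply, star_star]
  rw [Finset.sum_comm]
  refine Finset.sum_congr rfl fun i _ => Finset.sum_congr rfl fun j _ => ?_
  rw [hH]
  simp only [← mul_assoc]
  rw [← eps_comm he (y j)]

theorem nondeg_of_aniso (hJ : ∀ v : ι → D, v ≠ 0 → hf J₀ v v ≠ 0) (x : ι → D) (hx : x ≠ 0) :
    ∃ y, hf J₀ x y ≠ 0 := ⟨x, hJ x hx⟩

/-- Trace values on the diagonal are enough. -/
theorem tv_of (he : ε = 1 ∨ ε = -1) {J : Matrix ι ι D} (hH : ∀ i j, J j i = ε * star (J i j))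
    (ht : ∀ i, ∃ β, J i i = β + ε * star β) (y : ι → D) : ∃ β, hf J y y = β + ε * star β := by
  classical
  have key : ∀ s : Finset ι, ∃ β, hf J (∑ i ∈ s, Pi.single i (y i)) (∑ i ∈ s, Pi.single i (y i)) =
      β + ε * star β := by
    intro s
    induction s using Finset.induction_on with
    | empty => exact ⟨0, by rw [Finset.sum_empty, hf_zero_left, star_zero, mul_zero, add_zero]⟩
    | insert i s hi ih =>
      obtain ⟨β, hβ⟩ := ih
      obtain ⟨γ, hγ⟩ := ht i
      rw [Finset.sum_insert hi]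
      obtain ⟨z, hz⟩ : ∃ z, z = ∑ i ∈ s, (Pi.single i (y i) : ι → D) := ⟨_, rfl⟩
      rw [← hz] at hβ ⊢
      refine ⟨y i * γ * star (y i) + hf J (Pi.single i (y i)) z + β, ?_⟩
      rw [hf_add_left, hf_add_right, hf_add_right, hβ, hf_single, hγ,
        herm_of he hH (Pi.single i (y i)) z]
      simp only [star_add, star_mul, star_star, mul_add, add_mul]
      have e1 : y i * (ε * star γ) * star (y i) = ε * (y i * (star γ * star (y i))) := by
        rw [← mul_assoc, ← eps_comm he (y i)]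
        simp only [mul_assoc]
      rw [e1]
      abel
  have h := key Finset.univ
  rwa [Finset.univ_sum_single] at h

/-- **The form `hypD q ε J₀` has all the properties**, if `J₀` is anisotropic. -/
theorem frm_hypD (he : ε = 1 ∨ ε = -1) (hH : ∀ i j, J₀ j i = ε * star (J₀ i j))
    (ht : ∀ i, ∃ β, J₀ i i = β + ε * star β) (hJ : ∀ v : ι → D, v ≠ 0 → hf J₀ v v ≠ 0)
    (hcc : ∃ c : D, c ≠ 0 ∧ CC ε c) (hq : 1 ≤ q) : Frm ε (hypD q ε J₀) where
  eps := he
  herm x y := by
    rw [hf_hypD he, hf_hypD he, herm_of he hH (fun i => x (.inr i)) fun i => y (.inr i)]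
    simp only [star_add, star_mul, star_sum, star_star, mul_add, eps_star he]
    have e : ∀ a : D, ε * (a * ε) = a := fun a => by
      rw [← mul_assoc, eps_comm he a, mul_assoc, eps_sq he, mul_one]
    rw [e]
    abel
  nondeg x hx := by
    obtain ⟨p, hp⟩ := Function.ne_iff.1 hx
    rcases p with (i | i) | i
    · refine ⟨Pi.single (.inl (.inr i)) 1, ?_⟩
      rw [hf_hypD he]
      have e1 : ∀ j : Fin q, (Pi.single (.inl (.inr i)) (1 : D) : (Fin q ⊕ Fin q) ⊕ ι → D)
          (.inl (.inl j)) = 0 := fun j => Pi.single_eq_of_ne (by simp) _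
      have e2 : (fun j => (Pi.single (.inl (.inr i)) (1 : D) : (Fin q ⊕ Fin q) ⊕ ι → D)
          (.inr j)) = 0 := funext fun j => Pi.single_eq_of_ne (by simp) _
      have e3 : ∀ j : Fin q, (Pi.single (.inl (.inr i)) (1 : D) : (Fin q ⊕ Fin q) ⊕ ι → D)
          (.inl (.inr j)) = if j = i then 1 else 0 := by
        intro j
        by_cases h : j = i
        · subst h; simp
        · rw [if_neg h]; exact Pi.single_eq_of_ne (by simpa using h) _
      rw [e2, hf_zero_right]
      simp only [e1, e3, star_zero, mul_zero, Finset.sum_const_zero, add_zero]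
      rw [Finset.sum_eq_single i (fun j _ hj => by simp [hj]) (by simp)]
      simpa using hp
    · refine ⟨Pi.single (.inl (.inl i)) 1, ?_⟩
      rw [hf_hypD he]
      have e1 : ∀ j : Fin q, (Pi.single (.inl (.inl i)) (1 : D) : (Fin q ⊕ Fin q) ⊕ ι → D)
          (.inl (.inr j)) = 0 := fun j => Pi.single_eq_of_ne (by simp) _
      have e2 : (fun j => (Pi.single (.inl (.inl i)) (1 : D) : (Fin q ⊕ Fin q) ⊕ ι → D)
          (.inr j)) = 0 := funext fun j => Pi.single_eq_of_ne (by simp) _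
      have e3 : ∀ j : Fin q, (Pi.single (.inl (.inl i)) (1 : D) : (Fin q ⊕ Fin q) ⊕ ι → D)
          (.inl (.inl j)) = if j = i then 1 else 0 := by
        intro j
        by_cases h : j = i
        · subst h; simp
        · rw [if_neg h]; exact Pi.single_eq_of_ne (by simpa using h) _
      rw [e2, hf_zero_right]
      simp only [e1, e3, star_zero, mul_zero, Finset.sum_const_zero, add_zero, zero_add]
      rw [Finset.sum_eq_single i (fun j _ hj => by simp [hj]) (by simp)]
      simpa using ⟨eps_ne he, hp⟩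
    · have h0 : (fun j => x (.inr j)) ≠ 0 := fun h => hp (congrFun h i)
      refine ⟨Sum.elim 0 (fun j => x (.inr j)), ?_⟩
      rw [hf_hypD he]
      simpa using hJ _ h0
  tv y := by
    obtain ⟨β, hβ⟩ := tv_of he hH ht fun i => y (.inr i)
    refine ⟨(∑ i : Fin q, y (.inl (.inl i)) * star (y (.inl (.inr i)))) + β, ?_⟩
    rw [hf_hypD he, hβ]
    simp only [star_add, star_mul, star_sum, star_star, mul_add]
    abel
  iso := by
    refine ⟨Pi.single (.inl (.inl ⟨0, hq⟩)) 1, ?_, ?_⟩
    · intro h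
      have := congrFun h (.inl (.inl ⟨0, hq⟩))
      simp at this
    · rw [hf_hypD he]
      have e1 : ∀ j : Fin q, (Pi.single (.inl (.inl ⟨0, hq⟩)) (1 : D) : (Fin q ⊕ Fin q) ⊕ ι → D)
          (.inl (.inr j)) = 0 := fun j => Pi.single_eq_of_ne (by simp) _
      have e2 : (fun j => (Pi.single (.inl (.inl ⟨0, hq⟩)) (1 : D) : (Fin q ⊕ Fin q) ⊕ ι → D)
          (.inr j)) = 0 := funext fun j => Pi.single_eq_of_ne (by simp) _
      rw [e2, hf_zero_right]
      simp only [e1, star_zero, mul_zero, zero_mul, Finset.sum_const_zero, add_zero]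
  cc := hcc

/-- The coefficients of the transvections. -/
theorem exists_cc (he : ε = 1 ∧ (∃ x : D, star x ≠ x) ∨ ε = -1) : ∃ c : D, c ≠ 0 ∧ CC ε c := by
  rcases he with ⟨rfl, x, hx⟩ | rfl
  · refine ⟨x - star x, sub_ne_zero.2 (Ne.symm hx), ?_⟩
    unfold CC
    rw [star_sub, star_star, one_mul]
    abel
  · refine ⟨1, one_ne_zero, ?_⟩
    unfold CC
    rw [star_one, mul_one, add_neg_cancel]

/-- If `2 ≠ 0`, the form is trace valued. -/
theorem tv_of_two (h2 : (2 : D) ≠ 0) (he : ε = 1 ∨ ε = -1)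
    (hH : ∀ i j, J₀ j i = ε * star (J₀ i j)) (i : ι) : ∃ β, J₀ i i = β + ε * star β := by
  refine ⟨2⁻¹ * J₀ i i, ?_⟩
  have h3 : star (2⁻¹ : D) = 2⁻¹ := by rw [star_inv₀, star_ofNat]
  have h4 : star (J₀ i i) * (2⁻¹ : D) = 2⁻¹ * star (J₀ i i) := by
    have h5 : (2 : D) * star (J₀ i i) = star (J₀ i i) * 2 := by rw [two_mul, mul_two]
    calc star (J₀ i i) * (2⁻¹ : D) = 2⁻¹ * (2 * star (J₀ i i)) * 2⁻¹ := by
          rw [inv_mul_cancel_left₀ h2]
      _ = 2⁻¹ * star (J₀ i i) := by rw [h5, ← mul_assoc, mul_assoc, mul_inv_cancel₀ h2, mul_one]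
  rw [star_mul, h3, h4, ← mul_assoc, eps_comm he, mul_assoc, ← hH i i, ← add_mul, ← two_mul,
    mul_inv_cancel₀ h2, one_mul]

/-- **The form `hypD q ε J₀`, characteristic not two.** -/
theorem frm_hypD_two (h2 : (2 : D) ≠ 0) (he : ε = 1 ∧ (∃ x : D, star x ≠ x) ∨ ε = -1)
    (hH : ∀ i j, J₀ j i = ε * star (J₀ i j)) (hJ : ∀ v : ι → D, v ≠ 0 → hf J₀ v v ≠ 0)
    (hq : 1 ≤ q) : Frm ε (hypD q ε J₀) :=
  frm_hypD (he.imp_left And.left) hH (tv_of_two h2 (he.imp_left And.left) hH) hJ (exists_cc he) hq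

end Vale.Agent.P092.H899.Qu
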