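import Vale.Agent.P092.H103.QH1
import Vale.Agent.P092.H387.Qt5
import Mathlib.Analysis.Normed.Field.Basic
import Mathlib.Topology.Algebra.Group.Matrix

/-!
P092 (helper899), [CLASS-H] U2: the chains of length `q` of the unitary groups of forms of Witt index
`q` over a division algebra, and of their central quotients.
-/

set_option linter.all false

open Matrix Filter Topology

namespace Vale.Agent.P092.H899.Qu

open Vale.Agent.P092.H103.QH
open Vale.Agent.P092.H701 (RowPair)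
open Vale.Agent.P092.H264 (Chn)

section alg

variable {n : Type} [Fintype n] [DecidableEq n] {D : Type} [DivisionRing D] [StarRing D] {ε : D}
  {J : Matrix n n D}

/-- Transvections with respect to orthogonal vectors commute. -/
theorem commute_tv {u v : n → D} (hu : hf J u u = 0) (hv : hf J v v = 0) (huv : hf J u v = 0)
    (hvu : hf J v u = 0) (c c' : D) : Commute (tv J u c) (tv J v c') := by
  refine ext_vecMul fun x => ?_
  rw [vecMul_mul', vecMul_mul', vecMul_tv hu, vecMul_tv hv, vecMul_tv hv, vecMul_tv hu,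
    hf_add_left, hf_add_left, hf_smul_left, hf_smul_left, huv, hvu, mul_zero, mul_zero, add_zero,
    add_zero, add_right_comm]

theorem commute_dv {u w v : n → D} (hu : hf J u u = 0) (hw : hf J w w = 0) (hv : hf J v v = 0)
    (huv : hf J u v = 0) (hvu : hf J v u = 0) (hwv : hf J w v = 0) (hvw : hf J v w = 0)
    (s r c : D) : Commute (dv ε J u w s r) (tv J v c) := by
  unfold dv
  exact (((commute_tv hu hv huv hvu _ _).mul_left (commute_tv hw hv hwv hvw _ _)).mul_left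
    (commute_tv hu hv huv hvu _ _)).mul_left (commute_tv hw hv hwv hvw _ _)

/-- Orthogonal hyperbolic pairs. -/
structure HPs (J : Matrix n n D) {q : ℕ} (u w : Fin q → n → D) : Prop where
  uu : ∀ i j, hf J (u i) (u j) = 0
  ww : ∀ i j, hf J (w i) (w j) = 0
  one : ∀ i, hf J (u i) (w i) = 1
  uw : ∀ i j, i ≠ j → hf J (u i) (w j) = 0
  wu : ∀ i j, i ≠ j → hf J (w i) (u j) = 0

theorem HPs.comm {q : ℕ} {u w : Fin q → n → D} (h : HPs J u w) {i j : Fin q} (hij : i ≠ j)
    (s r s' r' : D) : Commute (dv ε J (u i) (w i) s r) (dv ε J (u j) (w j) s' r') := by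
  have a1 : ∀ c, Commute (dv ε J (u i) (w i) s r) (tv J (u j) c) := fun c =>
    commute_dv (h.uu i i) (h.ww i i) (h.uu j j) (h.uu i j) (h.uu j i) (h.wu i j hij)
      (h.uw j i hij.symm) s r c
  have a2 : ∀ c, Commute (dv ε J (u i) (w i) s r) (tv J (w j) c) := fun c =>
    commute_dv (h.uu i i) (h.ww i i) (h.ww j j) (h.uw i j hij) (h.wu j i hij.symm) (h.ww i j)
      (h.ww j i) s r c
  have e : dv ε J (u j) (w j) s' r' = tv J (u j) (ε * ((r' - 1) * s'⁻¹)) * tv J (w j) s' *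
      tv J (u j) (ε * (-(r'⁻¹ * (r' - 1)) * s'⁻¹)) * tv J (w j) (-(r' * s')) := rfl
  rw [e]
  exact (((a1 _).mul_right (a2 _)).mul_right (a1 _)).mul_right (a2 _)

end alg

section top

variable {n : Type} [Fintype n] [DecidableEq n] {k : Type} [NontriviallyNormedField k]
  {D : Type} [NormedDivisionRing D] [NormedAlgebra k D] [StarRing D] {ε : D}
  {J : Matrix n n D} {G : Subgroup (Matrix n n D)ˣ}

theorem cs_alg (hst : ∀ t : k, star (algebraMap k D t) = algebraMap k D t) (t : k) :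
    Cs (algebraMap k D t) := ⟨hst t, fun x => Algebra.commutes t x⟩

theorem cc_smul (hst : ∀ t : k, star (algebraMap k D t) = algebraMap k D t)
    (he : ε = 1 ∨ ε = -1) {c : D} (hc : CC ε c) (t : k) : CC ε (t • c) := by
  rw [Algebra.smul_def]
  exact hc.smul he (cs_alg hst t)

theorem smul_vecMul' (t : k) (x : n → D) (M : Matrix n n D) : (t • x) ᵥ* M = t • (x ᵥ* M) := by
  have e : ∀ y : n → D, t • y = (algebraMap k D t) • y := fun y => by
    funext i
    rw [Pi.smul_apply, Pi.smul_apply, Algebra.smul_def, smul_eq_mul]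
  rw [e, e, smul_vecMul]

theorem continuous_val : Continuous fun g : G => g.1.1 :=
  Units.continuous_val.comp continuous_subtype_val

theorem continuous_row (x : n → D) : Continuous fun g : G => x ᵥ* g.1.1 :=
  Continuous.matrix_vecMul continuous_const continuous_val

theorem continuous_tg (hG : ∀ t : k, ∀ g ∈ GT ε J, g ∈ G) {u : n → D} (hu : hf J u u = 0) (c : D)
    (hm : ∀ t : k, tv J u (t • c) ∈ G) : Continuous fun t : k => (⟨tv J u (t • c), hm t⟩ : G) := by
  refine Continuous.subtype_mk (Units.continuous_iff.2 ⟨?_, ?_⟩) _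
  · show Continuous fun t : k => (tv J u (t • c)).1
    simp only [tv_val hu]
    unfold tvm
    exact continuous_const.add (Continuous.matrix_vecMulVec continuous_const (by fun_prop))
  · show Continuous fun t : k => ((tv J u (t • c))⁻¹).1
    simp only [← tv_neg hu, tv_val hu]
    unfold tvm
    exact continuous_const.add (Continuous.matrix_vecMulVec continuous_const (by fun_prop))

/-- The row pair of a hyperbolic pair. -/
noncomputable def rp (hst : ∀ t : k, star (algebraMap k D t) = algebraMap k D t)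
    (hF : Frm ε J) (hG : GT ε J ≤ G) {u w : n → D} (hu : hf J u u = 0) (hw : hf J w w = 0)
    (huw : hf J u w = 1) {c : D} (hc0 : c ≠ 0) (hc : CC ε c) : RowPair G k (n → D) where
  ρ₁ x := u ᵥ* x.1.1
  ρ₂ x := (c • w) ᵥ* x.1.1
  cont₁ := continuous_row u
  cont₂ := continuous_row (c • w)
  ne x := by
    refine lt_max_of_lt_left (norm_pos_iff.2 fun h => ?_)
    have h1 := vecMul_cancel_inv u x.1
    rw [h, zero_vecMul] at h1
    rw [← h1, hf_zero_left] at huw
    exact zero_ne_one huw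
  up t := ⟨tv J w (t • c), hG (tv_mem_GT hw (cc_smul hst hF.eps hc t))⟩
  lo t := ⟨tv J u (t • (ε * c⁻¹)), hG (tv_mem_GT hu (cc_smul hst hF.eps
    ((hc.inv hF.eps).smul hF.eps (eps_cs hF.eps)) t))⟩
  cont_up := continuous_tg (fun _ g hg => hG hg) hw c _
  cont_lo := continuous_tg (fun _ g hg => hG hg) hu _ _
  up₁ t x := by
    show u ᵥ* (tv J w (t • c) * x.1).1 = _
    rw [vecMul_mul', vecMul_tv hw, huw, one_mul, add_vecMul, ← smul_vecMul', smul_assoc]
  up₂ t x := by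
    show (c • w) ᵥ* (tv J w (t • c) * x.1).1 = _
    rw [vecMul_mul', vecMul_tv hw, hf_smul_left, hw, mul_zero, zero_mul, zero_smul, add_zero]
  lo₁ t x := by
    show u ᵥ* (tv J u (t • (ε * c⁻¹)) * x.1).1 = _
    rw [vecMul_mul', vecMul_tv hu, hu, zero_mul, zero_smul, add_zero]
  lo₂ t x := by
    show (c • w) ᵥ* (tv J u (t • (ε * c⁻¹)) * x.1).1 = _
    have e1 : c * ε * t • (ε * c⁻¹) = t • (1 : D) := by
      rw [mul_smul_comm, mul_assoc c ε, ← mul_assoc ε ε, eps_sq hF.eps, one_mul,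
        mul_inv_cancel₀ hc0]
    rw [vecMul_mul', vecMul_tv hu, hf_smul_left, hF.swap huw, e1, add_vecMul, smul_assoc, one_smul,
      smul_vecMul']

/-- The torus element of a hyperbolic pair. -/
noncomputable def td (hst : ∀ t : k, star (algebraMap k D t) = algebraMap k D t)
    (hF : Frm ε J) (hG : GT ε J ≤ G) {u w : n → D} (hu : hf J u u = 0) (hw : hf J w w = 0)
    {c : D} (hc : CC ε c) (t : k) : G :=
  ⟨dv ε J u w c (algebraMap k D t⁻¹), hG (dv_mem hF hu hw hc (cs_alg hst t⁻¹))⟩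

section td

variable (hst : ∀ t : k, star (algebraMap k D t) = algebraMap k D t)
    (hF : Frm ε J) (hG : GT ε J ≤ G) {u w : n → D} (hu : hf J u u = 0) (hw : hf J w w = 0)
    (huw : hf J u w = 1) {c : D} (hc0 : c ≠ 0) (hc : CC ε c) {t : k} (ht : t ≠ 0)

include huw hc0 ht

theorem u_td : u ᵥ* (td hst hF hG hu hw hc t).1.1 = t • u := by
  have h0 : algebraMap k D t⁻¹ ≠ 0 := (map_ne_zero _).2 (inv_ne_zero ht)
  have h1 := u_dv hF hu hw huw hc0 h0 (cs_alg hst t⁻¹)
  show u ᵥ* (dv ε J u w c (algebraMap k D t⁻¹)).1 = _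
  rw [h1, map_inv₀, inv_inv]
  funext i
  rw [Pi.smul_apply, Pi.smul_apply, Algebra.smul_def, smul_eq_mul]

theorem w_td : w ᵥ* (td hst hF hG hu hw hc t).1.1 = t⁻¹ • w := by
  have h0 : algebraMap k D t⁻¹ ≠ 0 := (map_ne_zero _).2 (inv_ne_zero ht)
  have h1 := w_dv hF hu hw huw hc0 h0 (cs_alg hst t⁻¹)
  show w ᵥ* (dv ε J u w c (algebraMap k D t⁻¹)).1 = _
  rw [h1]
  funext i
  rw [Pi.smul_apply, Pi.smul_apply, Algebra.smul_def, smul_eq_mul]

theorem u_pow (N : ℕ) (x : G) : u ᵥ* ((td hst hF hG hu hw hc t) ^ N * x).1.1 =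
    t ^ N • (u ᵥ* x.1.1) := by
  have h : ∀ N : ℕ, u ᵥ* ((td hst hF hG hu hw hc t) ^ N).1.1 = t ^ N • u := by
    intro N
    induction N with
    | zero => rw [pow_zero, pow_zero, one_smul]; exact vecMul_one' u
    | succ N ih =>
      show u ᵥ* ((td hst hF hG hu hw hc t) ^ (N + 1)).1.1 = _
      rw [pow_succ]
      show u ᵥ* (((td hst hF hG hu hw hc t) ^ N).1 * (td hst hF hG hu hw hc t).1).1 = _
      rw [vecMul_mul', ih, smul_vecMul', u_td hst hF hG hu hw huw hc0 hc ht, smul_smul, pow_succ]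
  show u ᵥ* (((td hst hF hG hu hw hc t) ^ N).1 * x.1).1 = _
  rw [vecMul_mul', h, smul_vecMul']

theorem w_pow (N : ℕ) (x : G) : (c • w) ᵥ* ((td hst hF hG hu hw hc t) ^ N * x).1.1 =
    (t⁻¹) ^ N • ((c • w) ᵥ* x.1.1) := by
  have h : ∀ N : ℕ, w ᵥ* ((td hst hF hG hu hw hc t) ^ N).1.1 = (t⁻¹) ^ N • w := by
    intro N
    induction N with
    | zero => rw [pow_zero, pow_zero, one_smul]; exact vecMul_one' w
    | succ N ih =>
      show w ᵥ* ((td hst hF hG hu hw hc t) ^ (N + 1)).1.1 = _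
      rw [pow_succ]
      show w ᵥ* (((td hst hF hG hu hw hc t) ^ N).1 * (td hst hF hG hu hw hc t).1).1 = _
      rw [vecMul_mul', ih, smul_vecMul', w_td hst hF hG hu hw huw hc0 hc ht, smul_smul, pow_succ]
  show (c • w) ᵥ* (((td hst hF hG hu hw hc t) ^ N).1 * x.1).1 = _
  rw [vecMul_mul', smul_vecMul, h, smul_vecMul, smul_vecMul', smul_vecMul, smul_comm]

end td

theorem chn_ps {H : Type} [Group H] [TopologicalSpace H] [IsTopologicalGroup H] [ProperSpace k]
    (hst : ∀ t : k, star (algebraMap k D t) = algebraMap k D t)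
    (hF : Frm ε J) (hG : GT ε J ≤ G) {q : ℕ} {u w : Fin q → n → D} (h : HPs J u w)
    (π : G →* H) (hq : IsQuotientMap π)
    (hsc : ∀ z : G, π z = 1 → ∃ a : k, ∀ x : n → D, x ᵥ* z.1.1 = a • x)
    (hct : ∀ b : ℕ → G, Tendsto b atTop (cocompact G) → Tendsto (fun N => π (b N)) atTop
      (cocompact H)) : Chn H q := by
  obtain ⟨c, hc0, hc⟩ := hF.cc
  obtain ⟨t, ht1⟩ := NormedField.exists_one_lt_norm k
  have ht : t ≠ 0 := norm_pos_iff.mp (lt_trans one_pos ht1)
  refine H387.Qt.chn_quo (π := π)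
    (R := fun j => rp hst hF hG (h.uu j j) (h.ww j j) (h.one j) hc0 hc)
    (b := fun j N => td hst hF hG (h.uu j j) (h.ww j j) hc t ^ N)
    (α := fun _ N => t ^ N) (β := fun _ N => (t⁻¹) ^ N) ?_ ?_ ?_ ?_ ?_ ?_ ?_ hq ?_
  · intro j N x
    exact u_pow hst hF hG (h.uu j j) (h.ww j j) (h.one j) hc0 hc ht N x
  · intro j N x
    exact w_pow hst hF hG (h.uu j j) (h.ww j j) (h.one j) hc0 hc ht N x
  · intro j N
    exact pow_ne_zero _ ht
  · intro j C
    obtain ⟨N₀, hN₀⟩ := pow_unbounded_of_one_lt C ht1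
    refine ⟨N₀, fun N hN => ?_⟩
    rw [norm_pow, norm_pow, norm_inv]
    have h1 : C ≤ ‖t‖ ^ N := hN₀.le.trans (pow_le_pow_right₀ ht1.le hN)
    have h2 : (‖t‖⁻¹) ^ N ≤ 1 := pow_le_one₀ (by positivity) (inv_le_one_of_one_le₀ ht1.le)
    have h3 : 0 ≤ (‖t‖⁻¹) ^ N := by positivity
    have h4 : 0 ≤ ‖t‖ ^ N := by positivity
    calc C * (‖t‖⁻¹) ^ N ≤ ‖t‖ ^ N * (‖t‖⁻¹) ^ N := mul_le_mul_of_nonneg_right h1 h3
      _ ≤ ‖t‖ ^ N * 1 := mul_le_mul_of_nonneg_left h2 h4
      _ = _ := mul_one _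
  · intro i j hij N M
    have h1 : Commute (td hst hF hG (h.uu i i) (h.ww i i) hc t)
        (td hst hF hG (h.uu j j) (h.ww j j) hc t) :=
      Subtype.ext (h.comm hij.ne c (algebraMap k D t⁻¹) c (algebraMap k D t⁻¹))
    exact h1.pow_pow N M
  · intro i j hij N x hx
    have key : ∀ (v : n → D) (hv : hf J v v = 0), (hf J (u i) v = 0) → hf J v (u i) = 0 →
        hf J (w i) v = 0 → hf J v (w i) = 0 → ∀ (d : D) (y : G), y.1 = tv J v d →
        td hst hF hG (h.uu i i) (h.ww i i) hc t ^ N * y =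
          y * td hst hF hG (h.uu i i) (h.ww i i) hc t ^ N := by
      intro v hv e1 e2 e3 e4 d y hy
      have h1 : Commute (td hst hF hG (h.uu i i) (h.ww i i) hc t) y := by
        refine Subtype.ext ?_
        show (td hst hF hG (h.uu i i) (h.ww i i) hc t).1 * y.1 =
          y.1 * (td hst hF hG (h.uu i i) (h.ww i i) hc t).1
        rw [hy]
        exact commute_dv (h.uu i i) (h.ww i i) hv e1 e2 e3 e4 c (algebraMap k D t⁻¹) d
      exact h1.pow_left N
    rcases hx with ⟨s, -, rfl⟩ | ⟨s, -, rfl⟩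
    · exact key (w j) (h.ww j j) (h.uw i j hij.ne) (h.wu j i hij.ne') (h.ww i j) (h.ww j i) _ _ rfl
    · exact key (u j) (h.uu j j) (h.uu i j) (h.uu j i) (h.wu i j hij.ne) (h.uw j i hij.ne') _ _ rfl
  · intro j z hz
    obtain ⟨a, ha⟩ := hsc z hz
    have ha0 : a ≠ 0 := by
      rintro rfl
      have h1 := ha (u j)
      rw [zero_smul] at h1
      have h2 := vecMul_cancel_inv (u j) z.1
      rw [h1, zero_vecMul] at h2
      have h3 := h.one j
      rw [← h2, hf_zero_left] at h3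
      exact zero_ne_one h3
    refine ⟨a, ha0, fun x => ?_, fun x => ?_⟩
    · show u j ᵥ* (x.1 * z.1).1 = _
      rw [vecMul_mul', ha]
      rfl
    · show (c • w j) ᵥ* (x.1 * z.1).1 = _
      rw [vecMul_mul', ha]
      rfl
  · intro hr
    refine hct _ ?_
    have hcont : Continuous fun g : G => ‖u ⟨0, hr⟩ ᵥ* g.1.1‖ := (continuous_row _).norm
    have hu0 : u ⟨0, hr⟩ ≠ 0 := by
      intro h0
      have h3 := h.one ⟨0, hr⟩
      rw [h0, hf_zero_left] at h3
      exact zero_ne_one h3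
    rw [hasBasis_cocompact.tendsto_right_iff]
    intro C hC
    obtain ⟨M, hM⟩ := (hC.image hcont).bddAbove
    obtain ⟨N₀, hN₀⟩ := pow_unbounded_of_one_lt (M / ‖u ⟨0, hr⟩‖) ht1
    filter_upwards [eventually_ge_atTop N₀] with N hN hmem
    have h1 : ‖u ⟨0, hr⟩ ᵥ* (td hst hF hG (h.uu ⟨0, hr⟩ ⟨0, hr⟩) (h.ww ⟨0, hr⟩ ⟨0, hr⟩) hc t ^ N
      ).1.1‖ ≤ M := hM ⟨_, hmem, rfl⟩
    have h2 := u_pow hst hF hG (h.uu ⟨0, hr⟩ ⟨0, hr⟩) (h.ww ⟨0, hr⟩ ⟨0, hr⟩) (h.one ⟨0, hr⟩) hc0 hc
      ht N 1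
    rw [mul_one] at h2
    have h3 : u ⟨0, hr⟩ ᵥ* (1 : G).1.1 = u ⟨0, hr⟩ := vecMul_one' _
    rw [h2, h3, norm_smul, norm_pow] at h1
    have h4 : 0 < ‖u ⟨0, hr⟩‖ := norm_pos_iff.2 hu0
    have h5 : ‖t‖ ^ N₀ ≤ ‖t‖ ^ N := pow_le_pow_right₀ ht1.le hN
    rw [div_lt_iff₀ h4] at hN₀
    have h6 := mul_le_mul_of_nonneg_right h5 h4.le
    linarith

/-- **The chain of length `q`.** -/
theorem chn_gt [ProperSpace k] [FiniteDimensional k D]
    (hst : ∀ t : k, star (algebraMap k D t) = algebraMap k D t)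
    (hF : Frm ε J) (hG : GT ε J ≤ G) {q : ℕ} {u w : Fin q → n → D} (h : HPs J u w) : Chn G q := by
  refine chn_ps hst hF hG h (MonoidHom.id G) .id (fun z hz => ⟨1, fun x => ?_⟩) fun b hb => hb
  have hz' : z = 1 := hz
  rw [hz', one_smul]
  exact vecMul_one' x

/-- **The chain of length `q` of a quotient.** -/
theorem chn_gt_quo [ProperSpace k] [FiniteDimensional k D]
    (hst : ∀ t : k, star (algebraMap k D t) = algebraMap k D t)
    (hF : Frm ε J) (hG : GT ε J ≤ G) {q : ℕ} {u w : Fin q → n → D} (h : HPs J u w)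
    (Z : Subgroup G) [Z.Normal] (hZc : IsCompact (Z : Set G))
    (hZ : ∀ z ∈ Z, ∃ a : k, ∀ x : n → D, x ᵥ* z.1.1 = a • x) : Chn (G ⧸ Z) q :=
  chn_ps hst hF hG h (QuotientGroup.mk' Z) (QuotientGroup.isQuotientMap_mk (N := Z))
    (fun z hz => hZ z ((QuotientGroup.eq_one_iff z).1 hz)) fun b hb => H387.Qt.tendsto_quo Z hZc hb

end top

end Vale.Agent.P092.H899.Qu
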