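import Vale.Agent.P092.H899.V0
import Vale.Agent.P092.H899.V1

/-!
P092 (helper899), [CLASS-H] U2: the chains of the groups of the forms `hypD q ε J₀`.
-/

set_option linter.all false

open Matrix Filter Topology

namespace Vale.Agent.P092.H899.Qu

open Vale.Agent.P092.H103.QH
open Vale.Agent.P092.H264 (Chn)

section alg

variable {ι : Type} [Fintype ι] [DecidableEq ι] {D : Type} [DivisionRing D] [StarRing D] {ε : D}
  {J₀ : Matrix ι ι D} {q : ℕ}

theorem hypD_uw (i j : Fin q) :
    hypD q ε J₀ (.inl (.inl i)) (.inl (.inr j)) = if i = j then 1 else 0 := by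
  simp [hypD, Matrix.one_apply]

theorem hypD_wu (i j : Fin q) :
    hypD q ε J₀ (.inl (.inr i)) (.inl (.inl j)) = if i = j then ε else 0 := by
  simp [hypD, Matrix.one_apply]

/-- The standard hyperbolic pairs. -/
theorem hps_hypD : HPs (hypD q ε J₀) (fun i => Pi.single (.inl (.inl i)) 1)
    (fun i => Pi.single (.inl (.inr i)) 1) where
  uu i j := by rw [hf_single]; simp [hypD]
  ww i j := by rw [hf_single]; simp [hypD]
  one i := by rw [hf_single, hypD_uw, if_pos rfl]; simp
  uw i j hij := by rw [hf_single, hypD_uw, if_neg hij]; simp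
  wu i j hij := by rw [hf_single, hypD_wu, if_neg hij]; simp

end alg

section top

variable {ι : Type} [Fintype ι] [DecidableEq ι] {k : Type} [NontriviallyNormedField k]
  [ProperSpace k] {D : Type} [NormedDivisionRing D] [NormedAlgebra k D] [FiniteDimensional k D]
  [StarRing D] {ε : D} {J₀ : Matrix ι ι D} {q : ℕ}
  {G : Subgroup (Matrix ((Fin q ⊕ Fin q) ⊕ ι) ((Fin q ⊕ Fin q) ⊕ ι) D)ˣ}

/-- **The chain of length `q` of the group of the form `hypD q ε J₀`.** -/
theorem chn_hypD (hst : ∀ t : k, star (algebraMap k D t) = algebraMap k D t)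
    (hF : Frm ε (hypD q ε J₀)) (hG : GT ε (hypD q ε J₀) ≤ G) : Chn G q :=
  chn_gt hst hF hG hps_hypD

/-- **The chains of length `q` of the central quotients.** -/
theorem chn_hypD_quo (hst : ∀ t : k, star (algebraMap k D t) = algebraMap k D t)
    (hF : Frm ε (hypD q ε J₀)) (hG : GT ε (hypD q ε J₀) ≤ G) (Z : Subgroup G) [Z.Normal]
    (hZc : IsCompact (Z : Set G))
    (hZ : ∀ z ∈ Z, ∃ a : k, ∀ x : (Fin q ⊕ Fin q) ⊕ ι → D, x ᵥ* z.1.1 = a • x) : Chn (G ⧸ Z) q :=
  chn_gt_quo hst hF hG hps_hypD Z hZc hZ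

end top

end Vale.Agent.P092.H899.Qu
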