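import Vale.Agent.P092.H899.U1
import Vale.Agent.P092.H714.Cl6

/-!
P092 (helper899): the rank one chains of the groups of hermitian forms of Witt index one, and of their
central quotients.
-/

set_option linter.all false

open Matrix Filter Topology

namespace Vale.Agent.P092.H899.Un

open Vale.Agent.P092.H714.Cl
open Vale.Agent.P092.H303 (FormGroup hyp Idx)
open Vale.Agent.P092.H264 (Chn)

section alg

variable {k : Type} [Field k] {σ : k →+* k} {ε : k}

/-- Witt index one. -/
def WOne {n : Type} [Fintype n] [DecidableEq n] (σ : k →+* k) (J : Matrix n n k) : Prop :=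
  ∀ x v : n → k, x ≠ 0 → hf σ J x x = 0 → hf σ J v v = 0 → hf σ J x v = 0 → ∃ c : k, v = c • x

variable {ι : Type} [Fintype ι] [DecidableEq ι] {J₀ : Matrix ι ι k}

theorem hf_hyp_one (x y : Idx 1 ι → k) : hf σ (hyp 1 ε J₀) x y =
    x (.inl (.inl 0)) * σ (y (.inl (.inr 0))) + ε * (x (.inl (.inr 0)) * σ (y (.inl (.inl 0)))) +
      hf σ J₀ (fun i => x (.inr i)) (fun i => y (.inr i)) := by
  rw [hf_hyp, Fin.sum_univ_one, Fin.sum_univ_one]

theorem zero_of {z : Idx 1 ι → k}
    (hJ : ∀ v : ι → k, v ≠ 0 → v ⬝ᵥ (J₀ *ᵥ fun l => σ (v l)) ≠ 0)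
    (hz : hf σ (hyp 1 ε J₀) z z = 0) (h : z (.inl (.inl 0)) = 0 ∨ z (.inl (.inr 0)) = 0) (i : ι) :
    z (.inr i) = 0 := by
  by_contra hi
  have h0 : (fun i => z (.inr i)) ≠ 0 := fun h0 => hi (congrFun h0 i)
  apply hJ _ h0
  rw [hf_hyp_one] at hz
  rcases h with h | h
  · rw [h, map_zero, zero_mul, mul_zero, mul_zero, zero_add, zero_add] at hz
    exact hz
  · rw [h, map_zero, zero_mul, mul_zero, mul_zero, zero_add, zero_add] at hz
    exact hz

/-- The sum of a hyperbolic plane and an anisotropic form has Witt index one. -/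
theorem wone_hyp (he : ε ≠ 0) (hF : Frm σ ε (hyp 1 ε J₀))
    (hJ : ∀ v : ι → k, v ≠ 0 → v ⬝ᵥ (J₀ *ᵥ fun l => σ (v l)) ≠ 0) : WOne σ (hyp 1 ε J₀) := by
  intro x v hx0 hx hv hxv
  have hvx := hF.symm_zero hxv
  have key : ∀ a b : k, hf σ (hyp 1 ε J₀) (a • x + b • v) (a • x + b • v) = 0 ∧
      hf σ (hyp 1 ε J₀) (a • x + b • v) x = 0 := by
    intro a b
    simp only [hf_add_left, hf_add_right, hf_smul_left, hf_smul_right, hx, hv, hxv, hvx, mul_zero,
      add_zero]
    exact ⟨trivial, trivial⟩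
  have fin : ∀ a b : k, b ≠ 0 → a • x + b • v = 0 → ∃ c : k, v = c • x := by
    intro a b hb h
    refine ⟨-(b⁻¹ * a), ?_⟩
    have h1 : b⁻¹ • (a • x + b • v) = 0 := by rw [h, smul_zero]
    rw [smul_add, smul_smul, smul_smul, inv_mul_cancel₀ hb, one_smul] at h1
    rw [neg_smul]
    exact eq_neg_of_add_eq_zero_right h1
  by_cases h1 : x (.inl (.inl 0)) = 0
  · have h2 : x (.inl (.inr 0)) ≠ 0 := by
      intro h2
      apply hx0
      funext p
      rcases p with (i | i) | i
      · rw [Subsingleton.elim i 0]; exact h1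
      · rw [Subsingleton.elim i 0]; exact h2
      · exact zero_of hJ hx (Or.inl h1) i
    obtain ⟨k1, k2⟩ := key (v (.inl (.inr 0))) (-x (.inl (.inr 0)))
    set z := v (.inl (.inr 0)) • x + (-x (.inl (.inr 0))) • v with hz
    have z2 : z (.inl (.inr 0)) = 0 := by
      rw [hz]
      simp only [Pi.add_apply, Pi.smul_apply, smul_eq_mul]
      ring
    have z0 := zero_of hJ k1 (Or.inr z2)
    have z0' : (fun i => z (.inr i)) = 0 := funext z0
    rw [hf_hyp_one, z2, z0', hf_zero_left, zero_mul, mul_zero, add_zero, add_zero] at k2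
    have z1 : z (.inl (.inl 0)) = 0 :=
      (mul_eq_zero.1 k2).resolve_right (by rwa [map_eq_zero])
    refine fin (v (.inl (.inr 0))) (-x (.inl (.inr 0))) (neg_ne_zero.2 h2) ?_
    rw [← hz]
    funext p
    rcases p with (i | i) | i
    · rw [Subsingleton.elim i 0]; exact z1
    · rw [Subsingleton.elim i 0]; exact z2
    · exact z0 i
  · obtain ⟨k1, k2⟩ := key (v (.inl (.inl 0))) (-x (.inl (.inl 0)))
    set z := v (.inl (.inl 0)) • x + (-x (.inl (.inl 0))) • v with hz
    have z1 : z (.inl (.inl 0)) = 0 := by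
      rw [hz]
      simp only [Pi.add_apply, Pi.smul_apply, smul_eq_mul]
      ring
    have z0 := zero_of hJ k1 (Or.inl z1)
    have z0' : (fun i => z (.inr i)) = 0 := funext z0
    rw [hf_hyp_one, z1, z0', hf_zero_left, zero_mul, zero_add, add_zero] at k2
    have z2 : z (.inl (.inr 0)) = 0 :=
      (mul_eq_zero.1 ((mul_eq_zero.1 k2).resolve_left he)).resolve_right (by rwa [map_eq_zero])
    refine fin (v (.inl (.inl 0))) (-x (.inl (.inl 0))) (neg_ne_zero.2 h1) ?_
    rw [← hz]
    funext p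
    rcases p with (i | i) | i
    · rw [Subsingleton.elim i 0]; exact z1
    · rw [Subsingleton.elim i 0]; exact z2
    · exact z0 i

end alg

section top

variable {n : Type} [Fintype n] [DecidableEq n] {k : Type} [NontriviallyNormedField k]
  [ProperSpace k] {σ : k →+* k} {ε : k} {J : Matrix n n k}
  {G : Subgroup (SpecialLinearGroup n k)}

/-- The action. -/
noncomputable def act (g : G) : (n → k) →L[k] (n → k) :=
  LinearMap.toContinuousLinearMap (Matrix.vecMulLinear (g⁻¹ : G).1.1)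

theorem act_apply (g : G) (v : n → k) : act g v = v ᵥ* (g⁻¹ : G).1.1 := rfl

/-- The pairing with a vector. -/
noncomputable def pr (σ : k →+* k) (J : Matrix n n k) (y : n → k) : (n → k) →L[k] k :=
  LinearMap.toContinuousLinearMap
    { toFun := fun x => hf σ J x y
      map_add' := fun a b => hf_add_left σ J a b y
      map_smul' := fun c x => hf_smul_left σ J c x y }

theorem pr_apply (x y : n → k) : pr σ J y x = hf σ J x y := rfl

theorem act_mul (g h : G) (v : n → k) : act (g * h) v = act g (act h v) := by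
  rw [act_apply, act_apply, act_apply, _root_.mul_inv_rev, ← vecMul_mul']
  rfl

theorem act_one (v : n → k) : act (1 : G) v = v := by
  rw [act_apply, inv_one]
  exact vecMul_one' v

theorem continuous_act' (v : n → k) : Continuous fun g : G => act g v :=
  (continuous_act v).comp continuous_inv

theorem act_iso (hGF : G ≤ FormGroup σ J) (g : G) (x y : n → k) :
    hf σ J (act g x) (act g y) = hf σ J x y :=
  mem_formGroup.1 (hGF (g⁻¹ : G).2) x y

theorem act_move (hGF : G ≤ FormGroup σ J) (g : G) (x y : n → k) :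
    hf σ J (act g x) y = hf σ J x (y ᵥ* g.1.1) := by
  have h := act_iso hGF g x (y ᵥ* g.1.1)
  have e : act g (y ᵥ* g.1.1) = y := vecMul_cancel_inv y g.1
  rw [e] at h
  exact h

theorem continuous_tg (hσ : ∀ x, ‖σ x‖ = ‖x‖) (hG : GT σ ε J ≤ G) {u : n → k}
    (hu : hf σ J u u = 0) :
    Continuous fun c : {c : k // c + ε * σ c = 0} => tg hG hu c.2 := by
  refine Continuous.subtype_mk (continuous_induced_rng.2 ?_) _
  show Continuous fun c : {c : k // c + ε * σ c = 0} => (tv σ J u c.1).1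
  simp only [tv_val hu]
  have h := continuous_tvm (J := J) (continuous_of_norm hσ)
  have h2 : Continuous fun c : {c : k // c + ε * σ c = 0} => (u, c.1) :=
    continuous_const.prodMk continuous_subtype_val
  exact h.comp h2

/-- **The ping-pong families of a group of Witt index one.** -/
theorem ppz_un (hσ : ∀ x, ‖σ x‖ = ‖x‖) (hF : Frm σ ε J) (hG : GT σ ε J ≤ G)
    (hGF : G ≤ FormGroup σ J) (hw1 : WOne σ J) :
    ∃ (b : ℕ → G) (K : Set G), IsCompact K ∧ Tendsto b atTop (cocompact G) ∧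
      PPZ {z | ∀ e : n → k, ∃ a : k, act z e = a • e} b K := by
  obtain ⟨e, he0, hee⟩ := hF.iso
  haveI : Nonempty n := by
    by_contra hcon
    rw [not_nonempty_iff] at hcon
    exact he0 (Subsingleton.elim _ _)
  obtain ⟨f, hff, hef⟩ := hF.exists_hyp he0 hee
  have hfe : hf σ J f e = ε := hF.swap hef
  have hε := hF.eps
  have hε0 := hF.eps_ne
  have hσc := continuous_of_norm hσ
  obtain ⟨r, hr, hr1⟩ := exists_fix hF hσ
  obtain ⟨c₀, hc0, hc⟩ := hF.cc
  have hr0 : r ≠ 0 := by
    rintro rfl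
    rw [norm_zero] at hr1
    linarith
  obtain ⟨d, hd⟩ : ∃ d : G, d = dg hG hF hee hff hc0 hc hr0 hr := ⟨_, rfl⟩
  have de : act d e = r • e := by
    rw [act_apply, ← inv_inv r]
    refine inv_of_smul (inv_ne_zero hr0) ?_
    rw [hd]
    exact u_dv hF hee hff hef hc0 hr0
  have df : act d f = r⁻¹ • f := by
    rw [act_apply]
    refine inv_of_smul hr0 ?_
    rw [hd]
    exact w_dv hF hee hff hef hc0 hr0
  have dy : ∀ y, hf σ J y e = 0 → hf σ J y f = 0 → act d y = y := by
    intro y h1 h2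
    have h3 : y ᵥ* d.1.1 = y := by
      rw [hd]
      exact y_dv hee hff h1 h2
    rw [act_apply]
    have h4 := vecMul_cancel_inv y d.1
    rw [h3] at h4
    exact h4
  have dNe : ∀ N : ℕ, act (d ^ N) e = r ^ N • e := by
    intro N
    induction N with
    | zero => rw [pow_zero, pow_zero, act_one, one_smul]
    | succ N ih => rw [pow_succ, act_mul, de, map_smul, ih, smul_smul, pow_succ, mul_comm]
  have dNf : ∀ N : ℕ, act (d ^ N) f = (r ^ N)⁻¹ • f := by
    intro N
    induction N with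
    | zero => rw [pow_zero, pow_zero, act_one, inv_one, one_smul]
    | succ N ih =>
      rw [pow_succ, act_mul, df, map_smul, ih, smul_smul, pow_succ, _root_.mul_inv_rev]
  have dNy : ∀ (N : ℕ) (y), hf σ J y e = 0 → hf σ J y f = 0 → act (d ^ N) y = y := by
    intro N y h1 h2
    induction N with
    | zero => rw [pow_zero, act_one]
    | succ N ih => rw [pow_succ, act_mul, dy y h1 h2, ih]
  -- the compact set
  have hcl : IsClosed {c : k | c + ε * σ c = 0} :=
    isClosed_eq (continuous_id.add (continuous_const.mul hσc)) continuous_const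
  have hS : IsCompact (Subtype.val ⁻¹' Metric.closedBall (0 : k) ‖c₀‖ :
      Set {c : k // c + ε * σ c = 0}) :=
    hcl.isClosedEmbedding_subtypeVal.isCompact_preimage (isCompact_closedBall 0 ‖c₀‖)
  obtain ⟨S, hSd⟩ : ∃ S : Set {c : k // c + ε * σ c = 0},
      S = Subtype.val ⁻¹' Metric.closedBall (0 : k) ‖c₀‖ := ⟨_, rfl⟩
  rw [← hSd] at hS
  refine ⟨fun N => d ^ N, (fun c => tg hG hee c.2) '' S ∪ (fun c => tg hG hff c.2) '' S,
    (hS.image (continuous_tg hσ hG hee)).union (hS.image (continuous_tg hσ hG hff)), ?_, ?_⟩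
  · have hcont : Continuous fun g : G => ‖hf σ J (act g e) f‖ :=
      ((pr σ J f).continuous.comp (continuous_act' e)).norm
    refine tendsto_cocompact_of hcont ?_
    have key : ∀ N : ℕ, ‖hf σ J (act (d ^ N) e) f‖ = ‖r‖ ^ N := by
      intro N
      rw [dNe, hf_smul_left, hef, mul_one, norm_pow]
    simp only [key]
    exact tendsto_pow_atTop_atTop_of_one_lt hr1
  · -- the family
    have hcN : ∀ l : ℕ, (r⁻¹) ^ l * c₀ + ε * σ ((r⁻¹) ^ l * c₀) = 0 := fun l =>
      cc_fix (by rw [map_pow, map_inv₀, hr]) hc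
    have hcN' : ∀ l : ℕ, -((r⁻¹) ^ l * c₀) + ε * σ (-((r⁻¹) ^ l * c₀)) = 0 := fun l => by
      rw [map_neg]
      linear_combination -(hcN l)
    have hnN : ∀ l : ℕ, ‖(r⁻¹) ^ l * c₀‖ ≤ ‖c₀‖ := by
      intro l
      rw [norm_mul, norm_pow, norm_inv]
      have h1 : (‖r‖⁻¹) ^ l ≤ 1 := pow_le_one₀ (by positivity) (inv_le_one_of_one_le₀ hr1.le)
      exact mul_le_of_le_one_left (norm_nonneg _) h1
    have hinj : ∀ l l' : ℕ, (r⁻¹) ^ l * c₀ = (r⁻¹) ^ l' * c₀ → l = l' := by
      intro l l' h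
      have h1 := mul_right_cancel₀ hc0 h
      have h2 : (‖r‖⁻¹) ^ l = (‖r‖⁻¹) ^ l' := by
        rw [← norm_inv, ← norm_pow, ← norm_pow, h1]
      exact pow_right_injective₀ (by positivity) (inv_lt_one_of_one_lt₀ hr1).ne h2
    refine (ppz_of (C := {v | hf σ J v v = 0}) act act_one act_mul continuous_act' ?_ ?_ ?_
      (e := e) (f := f) hee he0 (pr σ J f) (ε • pr σ J e) hef hff hr1 ?_ ?_).mono ?_
    · have h1 : Continuous fun v : n → k => hf σ J v v :=
        (continuous_hf hσc).comp (continuous_id.prodMk continuous_id)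
      exact isClosed_eq h1 continuous_const
    · intro a v hv
      exact iso_smul hv a
    · intro g v hv
      show hf σ J (act g v) (act g v) = 0
      rw [act_iso hGF]
      exact hv
    · intro N v
      obtain ⟨y, hy⟩ : ∃ y, y = v - hf σ J v f • e - (ε * hf σ J v e) • f := ⟨_, rfl⟩
      have hsub : ∀ a b c : n → k, hf σ J (a - b) c = hf σ J a c - hf σ J b c := by
        intro a b c
        have := hf_add_left σ J (a - b) b c
        rw [sub_add_cancel] at this
        rw [this]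
        ring
      have h1 : hf σ J y e = 0 := by
        rw [hy, hsub, hsub, hf_smul_left, hf_smul_left, hee, hfe]
        linear_combination -(hf σ J v e) * hε
      have h2 : hf σ J y f = 0 := by
        rw [hy, hsub, hsub, hf_smul_left, hf_smul_left, hef, hff]
        ring
      have h3 : v = y + hf σ J v f • e + (ε * hf σ J v e) • f := by
        rw [hy]
        abel
      show act (d ^ N) v = v + ((r ^ N - 1) * hf σ J v f) • e +
        (((r ^ N)⁻¹ - 1) * (ε * hf σ J v e)) • f
      calc act (d ^ N) v = act (d ^ N) (y + hf σ J v f • e + (ε * hf σ J v e) • f) := by rw [← h3]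
        _ = y + hf σ J v f • (r ^ N • e) + (ε * hf σ J v e) • ((r ^ N)⁻¹ • f) := by
          rw [map_add, map_add, map_smul, map_smul, dNe, dNf, dNy N y h1 h2]
        _ = (y + hf σ J v f • e + (ε * hf σ J v e) • f) + ((r ^ N - 1) * hf σ J v f) • e +
            (((r ^ N)⁻¹ - 1) * (ε * hf σ J v e)) • f := by module
        _ = _ := by rw [← h3]
    · intro p
      refine ⟨fun l => tg hG hff (hcN' l), fun l => tg hG hee (hcN l), ?_, ?_, ?_, ?_⟩
      · intro l
        refine Or.inr ⟨⟨-((r⁻¹) ^ (l : ℕ) * c₀), hcN' l⟩, ?_, rfl⟩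
        rw [hSd]
        show -((r⁻¹) ^ (l : ℕ) * c₀) ∈ Metric.closedBall (0 : k) ‖c₀‖
        rw [mem_closedBall_zero_iff, norm_neg]
        exact hnN l
      · intro l
        refine Or.inl ⟨⟨(r⁻¹) ^ (l : ℕ) * c₀, hcN l⟩, ?_, rfl⟩
        rw [hSd]
        show (r⁻¹) ^ (l : ℕ) * c₀ ∈ Metric.closedBall (0 : k) ‖c₀‖
        rw [mem_closedBall_zero_iff]
        exact hnN l
      · intro l l' hne v hv hv0 h1 h2
        have hfw : ∀ l : ℕ, f ᵥ* (tg hG hee (hcN l)).1.1 = f + ((r⁻¹) ^ l * c₀ * ε) • e := by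
          intro l
          have := vecMul_tv (σ := σ) (J := J) hee ((r⁻¹) ^ l * c₀) f
          rw [hfe] at this
          exact this
        have q : ∀ l : ℕ, pr σ J f (act (tg hG hee (hcN l)) v) = 0 →
            hf σ J v (f + ((r⁻¹) ^ l * c₀ * ε) • e) = 0 := by
          intro l h
          rw [pr_apply, act_move hGF, hfw] at h
          exact h
        have hFF : ∀ l : ℕ, hf σ J (f + ((r⁻¹) ^ l * c₀ * ε) • e)
            (f + ((r⁻¹) ^ l * c₀ * ε) • e) = 0 := by
          intro l
          rw [← hfw l]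
          exact iso_vecMul (hGF (tg hG hee (hcN l)).2) hff
        obtain ⟨a, ha⟩ := hw1 v _ hv0 hv (hFF l) (q l h1)
        obtain ⟨a', ha'⟩ := hw1 v _ hv0 hv (hFF l') (q l' h2)
        have r1 : ∀ l : ℕ, hf σ J (f + ((r⁻¹) ^ l * c₀ * ε) • e) e = ε := by
          intro l
          rw [hf_add_left, hf_smul_left, hee, hfe, mul_zero, add_zero]
        have r2 : ∀ l : ℕ, hf σ J (f + ((r⁻¹) ^ l * c₀ * ε) • e) f = (r⁻¹) ^ l * c₀ * ε := by
          intro l
          rw [hf_add_left, hf_smul_left, hff, hef, zero_add, mul_one]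
        have s1 := r1 l
        have s2 := r1 l'
        rw [ha, hf_smul_left] at s1
        rw [ha', hf_smul_left] at s2
        have hb : hf σ J v e ≠ 0 := by
          intro h0
          rw [h0, mul_zero] at s1
          exact hε0 s1.symm
        have haa : a = a' := mul_right_cancel₀ hb (s1.trans s2.symm)
        have s3 := r2 l
        rw [ha, haa, ← ha', r2 l'] at s3
        exact hne (Fin.ext (hinj _ _ (mul_right_cancel₀ hε0 s3)).symm)
      · intro l l' hne v hv hv0 h1 h2
        have hew : ∀ l : ℕ, act (tg hG hff (hcN' l)) e = e + ((r⁻¹) ^ l * c₀) • f := by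
          intro l
          have h3 := vecMul_tv (σ := σ) (J := J) hff ((r⁻¹) ^ l * c₀) e
          rw [hef, mul_one] at h3
          have h4 : ((tg hG hff (hcN' l))⁻¹ : G).1 = tv σ J f ((r⁻¹) ^ l * c₀) := by
            show (tv σ J f (-((r⁻¹) ^ l * c₀)))⁻¹ = _
            rw [tv_neg hff, inv_inv]
          rw [act_apply, h4, h3]
        obtain ⟨a, ha⟩ := h1
        obtain ⟨a', ha'⟩ := h2
        rw [hew] at ha ha'
        have r1 : hf σ J v f = a := by
          rw [ha, hf_smul_left, hf_add_left, hf_smul_left, hef, hff, mul_zero, add_zero, mul_one]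
        have r2 : hf σ J v f = a' := by
          rw [ha', hf_smul_left, hf_add_left, hf_smul_left, hef, hff, mul_zero, add_zero, mul_one]
        have haa : a = a' := r1.symm.trans r2
        have ha0 : a ≠ 0 := by
          rintro rfl
          rw [zero_smul] at ha
          exact hv0 ha
        have s1 : hf σ J v e = a * ((r⁻¹) ^ (l : ℕ) * c₀ * ε) := by
          rw [ha, hf_smul_left, hf_add_left, hf_smul_left, hee, hfe, zero_add]
        have s2 : hf σ J v e = a' * ((r⁻¹) ^ (l' : ℕ) * c₀ * ε) := by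
          rw [ha', hf_smul_left, hf_add_left, hf_smul_left, hee, hfe, zero_add]
        rw [← haa, s1] at s2
        have s3 := mul_right_cancel₀ hε0 (mul_left_cancel₀ ha0 s2)
        exact hne (Fin.ext (hinj _ _ s3))
    · intro z hz
      exact hz e

/-- Central elements act by scalars. -/
theorem center_le (hF : Frm σ ε J) (hG : GT σ ε J ≤ G) (hGF : G ≤ FormGroup σ J) :
    (Subgroup.center G : Set G) ⊆ {z | ∀ e : n → k, ∃ a : k, act z e = a • e} := by
  intro z hz e
  obtain ⟨a, -, ha⟩ := center_smul hF hG hGF (inv_mem hz)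
  exact ⟨a, ha e⟩

theorem chn_un (hσ : ∀ x, ‖σ x‖ = ‖x‖) (hF : Frm σ ε J) (hG : GT σ ε J ≤ G)
    (hGF : G ≤ FormGroup σ J) (hw1 : WOne σ J) : Chn G 1 := by
  obtain ⟨b, K, hK, hb, h⟩ := ppz_un hσ hF hG hGF hw1
  exact h.chn hK hb

theorem chn_un_quo (hσ : ∀ x, ‖σ x‖ = ‖x‖) (hF : Frm σ ε J) (hG : GT σ ε J ≤ G)
    (hGF : G ≤ FormGroup σ J) (hw1 : WOne σ J) (Z : Subgroup G) [Z.Normal]
    (hZ : Z ≤ Subgroup.center G) : Chn (G ⧸ Z) 1 := by
  obtain ⟨b, K, hK, hb, h⟩ := ppz_un hσ hF hG hGF hw1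
  haveI := finite_center hF hG hGF
  have hZc : IsCompact (Z : Set G) := ((Set.toFinite (Subgroup.center G : Set G)).subset hZ).isCompact
  exact (h.mono (fun z hz => center_le hF hG hGF (hZ hz))).chn_quo Z hZc hK hb

end top

section form

variable {ι : Type} [Fintype ι] [DecidableEq ι] {k : Type} [NontriviallyNormedField k]
  [ProperSpace k] {σ : k →+* k} {ε : k} {J₀ : Matrix ι ι k}

/-- **The chain of the group of a form of Witt index one.** -/
theorem chn_form_one (hσ : ∀ x, ‖σ x‖ = ‖x‖) (hF : Frm σ ε (hyp 1 ε J₀))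
    (hJ : ∀ v : ι → k, v ≠ 0 → v ⬝ᵥ (J₀ *ᵥ fun l => σ (v l)) ≠ 0) :
    Chn (FormGroup σ (hyp 1 ε J₀)) 1 :=
  chn_un hσ hF (GT_le hF) le_rfl (wone_hyp hF.eps_ne hF hJ)

/-- **The chains of the central quotients.** -/
theorem chn_form_quo_one (hσ : ∀ x, ‖σ x‖ = ‖x‖) (hF : Frm σ ε (hyp 1 ε J₀))
    (hJ : ∀ v : ι → k, v ≠ 0 → v ⬝ᵥ (J₀ *ᵥ fun l => σ (v l)) ≠ 0)
    (Z : Subgroup (FormGroup σ (hyp 1 ε J₀))) [Z.Normal]
    (hZ : Z ≤ Subgroup.center (FormGroup σ (hyp 1 ε J₀))) :
    Chn (FormGroup σ (hyp 1 ε J₀) ⧸ Z) 1 :=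
  chn_un_quo hσ hF (GT_le hF) le_rfl (wone_hyp hF.eps_ne hF hJ) Z hZ

end form

end Vale.Agent.P092.H899.Un
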