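import Vale.Agent.P092.H899.O9
import Vale.Agent.P092.H714.TopF
import Vale.Agent.P092.H515.Witt

/-!
P092 (helper899), [CLASS-O]: orthogonal groups belong to the class of factors.
-/

set_option linter.all false

open Filter Topology Matrix

namespace Vale.Agent.P092.H899.Ort

open Vale.Agent.P092.H701
open Vale.Agent.P092.H303 (Idx hyp FormGroup torF dgF root2)
open Vale.Agent.P092.H515 (Tgt)
open Vale.Agent.P092.H933 (LocK)
open Vale.Agent.P092.H264 (Chn)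

section one

variable {n : Type} [Fintype n] [DecidableEq n] {k : Type} [NontriviallyNormedField k]
  [ProperSpace k] {K : Matrix n n k}

/-- The chain of length one. -/
noncomputable def oneChain (h : Good K)
    (hw1 : ∀ x v : n → k, x ≠ 0 → bf K x x = 0 → bf K v v = 0 → bf K x v = 0 → ∃ c : k, v = c • x)
    {e f w : n → k} (he : (sysOf h).Hyp e f) (hwe : bf K e w = 0) (hwf : bf K f w = 0)
    (hww : bf K w w ≠ 0) {t : k} {d : Om K} (ht1 : 1 < ‖t‖) (hd : (sysOf h).IsTor e f t d)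
    [MeasurableSpace (Om K)] [OpensMeasurableSpace (Om K)] : HChain (Om K) 1 where
  b _ N := d ^ N
  K _ := kset h e f w
  compact _ := isCompact_kset h he hwe hwf
  comm_b i j hij := absurd hij (by omega)
  comm_K i j hij := absurd hij (by omega)
  pp _ p := pp_one h hw1 he hwe hwf hww ht1 hd p

theorem tendsto_cocompact_of {X : Type*} [TopologicalSpace X] {g : X → ℝ} (hg : Continuous g)
    {b : ℕ → X} {r : ℝ} (hr : 1 < r) (hb : ∀ N, g (b N) = r ^ N) :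
    Tendsto b atTop (cocompact X) := by
  rw [hasBasis_cocompact.tendsto_right_iff]
  intro C hC
  obtain ⟨M, hM⟩ := (hC.image hg).bddAbove
  obtain ⟨N₀, hN₀⟩ := pow_unbounded_of_one_lt M hr
  filter_upwards [eventually_ge_atTop N₀] with N hN hmem
  have h1 : g (b N) ≤ M := hM ⟨_, hmem, rfl⟩
  rw [hb] at h1
  have h2 : r ^ N₀ ≤ r ^ N := pow_le_pow_right₀ hr.le hN
  linarith

theorem chn_one (h : Good K)
    (hw1 : ∀ x v : n → k, x ≠ 0 → bf K x x = 0 → bf K v v = 0 → bf K x v = 0 → ∃ c : k, v = c • x) :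
    Chn (Om K) 1 := by
  let _ : MeasurableSpace (Om K) := borel _
  have _ : BorelSpace (Om K) := ⟨rfl⟩
  obtain ⟨e, he0, hee⟩ := (tsysOf h).ex
  obtain ⟨f, hf⟩ := (sysOf h).exists_hyp he0 hee
  obtain ⟨s, hs, hs0, -, -⟩ := TSys.exists_big (k := k)
  obtain ⟨w, d, hwe, hwf, hww, -, hd⟩ := (sysOf h).exists_tor hf hs0
  have ht1 : 1 < ‖s ^ 2‖ := by rw [norm_pow]; nlinarith
  refine ⟨oneChain h hw1 hf hwe hwf hww ht1 hd, fun hn => ?_⟩
  refine tendsto_cocompact_of (g := fun x : Om K => ‖bf K (rho K x e) f‖)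
    ((tsysOf h).contB e f).norm ht1 fun N => ?_
  have h1 := (hd.pow hf (pow_ne_zero 2 hs0) N).e hf
  have h2 : rho K (d ^ N) e = (s ^ 2) ^ N • e := h1
  have hef : bf K e f = 1 := hf.ef
  show ‖bf K (rho K (d ^ N) e) f‖ = _
  rw [h2, map_smul, LinearMap.smul_apply, hef, smul_eq_mul, mul_one, norm_pow]

end one

section hyp

variable {ι : Type} [Fintype ι] [DecidableEq ι] {k : Type} [NontriviallyNormedField k]
  [ProperSpace k]

theorem chn_two {q : ℕ} {J₀ : Matrix ι ι k} (h : Good (hyp (q + 2) 1 J₀)) :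
    Chn (Om (hyp (q + 2) 1 J₀)) (q + 2) := by
  let _ : MeasurableSpace (Om (hyp (q + 2) 1 J₀)) := borel _
  have _ : BorelSpace (Om (hyp (q + 2) 1 J₀)) := ⟨rfl⟩
  obtain ⟨s, hs, hs0, -, -⟩ := TSys.exists_big (k := k)
  have ht1 : 1 < ‖s ^ 2‖ := by rw [norm_pow]; nlinarith
  refine ⟨omChain h ht1 hs0, fun hn => ?_⟩
  have hc : Continuous fun x : Om (hyp (q + 2) 1 J₀) =>
      ‖x.1.1 (H303.ra q ι ⟨0, hn⟩) (H303.ra q ι ⟨0, hn⟩)‖ :=
    ((continuous_apply _).comp (H303.continuous_frow _)).norm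
  refine tendsto_cocompact_of hc ht1 fun N => ?_
  obtain ⟨e, e1, -, -⟩ := H303.dg_ratio (ι := ι) q (s ^ 2) ⟨0, hn⟩
  have h1 := H303.torF_pow_row (q + 2) (pow_ne_zero 2 hs0) (H303.lam q ⟨0, hn⟩)
    (H303.ra q ι ⟨0, hn⟩) N 1
  rw [mul_one, e1] at h1
  have h2 := congrFun h1 (H303.ra q ι ⟨0, hn⟩)
  have h3 : (((omChain h ht1 hs0).b ⟨0, hn⟩ N).1.1 (H303.ra q ι ⟨0, hn⟩) (H303.ra q ι ⟨0, hn⟩)) =
      (H303.torF (q + 2) ι (pow_ne_zero 2 hs0) (H303.lam q ⟨0, hn⟩) ^ N).1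
        (H303.ra q ι ⟨0, hn⟩) (H303.ra q ι ⟨0, hn⟩) := rfl
  rw [h3, h2]
  show ‖(s ^ 2) ^ N • (1 : Matrix _ _ k) (H303.ra q ι ⟨0, hn⟩) (H303.ra q ι ⟨0, hn⟩)‖ = _
  rw [Matrix.one_apply_eq, smul_eq_mul, mul_one, norm_pow]

theorem chn_om {q : ℕ} (hq : Dim q ι) {J₀ : Matrix ι ι k} (h2 : (2 : k) ≠ 0) (hJs : J₀ᵀ = J₀)
    (hJ : Aniso J₀) : Chn (Om (hyp q 1 J₀)) q := by
  have hg := good_hyp hq h2 hJs hJ
  rcases hq with ⟨rfl, h⟩ | ⟨h, h'⟩
  · exact chn_one hg fun x v hx0 hx hv hxv => hyp_one hJs hJ x v hx0 hx hv hxv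
  · obtain ⟨q, rfl⟩ : ∃ q', q = q' + 2 := ⟨q - 2, by omega⟩
    exact chn_two hg

/-- The inverse transpose. -/
def ctr {n : Type} [Fintype n] [DecidableEq n] {k : Type} [Field k] (K : Matrix n n k)
    (hK : Kᵀ = K) (h2 : (2 : k) ≠ 0) : Om K →* FormGroup (RingHom.id k) K where
  toFun g := ⟨((g⁻¹ : Om K).1).transpose, by
    have h1 : (g⁻¹ : Om K).1.1ᵀ * K * (g⁻¹ : Om K).1.1 = K := om_le_isoG hK h2 (g⁻¹ : Om K).2
    rw [H303.mem_formGroup]
    show (g⁻¹ : Om K).1.1ᵀ * K * (((g⁻¹ : Om K).1.1ᵀ).map (RingHom.id k))ᵀ = K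
    have h3 : (((g⁻¹ : Om K).1.1ᵀ).map (RingHom.id k))ᵀ = (g⁻¹ : Om K).1.1 := by
      ext i j
      rfl
    rw [h3, h1]⟩
  map_one' := by
    refine Subtype.ext (Subtype.ext ?_)
    show (((1 : Om K)⁻¹ : Om K).1.1)ᵀ = 1
    rw [inv_one]
    show (1 : Matrix n n k)ᵀ = 1
    rw [transpose_one]
  map_mul' g h := by
    refine Subtype.ext (Subtype.ext ?_)
    show (((g * h)⁻¹ : Om K).1.1)ᵀ = ((g⁻¹ : Om K).1.1)ᵀ * ((h⁻¹ : Om K).1.1)ᵀ
    rw [← transpose_mul, _root_.mul_inv_rev]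
    rfl

theorem tgt_om {q : ℕ} (hk : LocK k) {J₀ : Matrix ι ι k} (h : Good (hyp q 1 J₀))
    (hJ : Aniso J₀) : Tgt (Om (hyp q 1 J₀)) q := by
  have h1 : Tgt (FormGroup (RingHom.id k) (hyp q 1 J₀)) q :=
    H515.tgt_formGroup hk (fun _ => rfl) (fun _ => rfl) one_ne_zero hJ
  refine h1.comap (ctr _ h.sym h.two) fun C hC => ?_
  have hcl := (isClosed_om h).isClosedEmbedding_subtypeVal
  have ct : Continuous fun g : SpecialLinearGroup (Idx q ι) k => (g⁻¹).transpose := by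
    refine continuous_induced_rng.2 ?_
    show Continuous fun g : SpecialLinearGroup (Idx q ι) k => ((g⁻¹).1)ᵀ
    have c1 : Continuous fun g : SpecialLinearGroup (Idx q ι) k => g.1 := continuous_subtype_val
    exact (c1.comp continuous_inv).matrix_transpose
  have hC' := (hC.image (continuous_subtype_val)).image ct
  refine ⟨_, hcl.isCompact_preimage hC', fun x hx => ?_⟩
  refine ⟨_, ⟨_, hx, rfl⟩, ?_⟩
  show ((((x⁻¹ : Om _).1).transpose)⁻¹).transpose = x.1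
  refine Subtype.ext ?_
  have e1 : (((((x⁻¹ : Om (hyp q 1 J₀)).1).transpose)⁻¹).transpose).1 = ((x⁻¹ : Om _).1.1ᵀ⁻¹)ᵀ := by
    show (((((x⁻¹ : Om (hyp q 1 J₀)).1).transpose)⁻¹).1)ᵀ = _
    congr 1
    exact Matrix.SpecialLinearGroup.coe_inv _ |>.trans (by
      rw [Matrix.inv_def]
      have : ((x⁻¹ : Om (hyp q 1 J₀)).1.1ᵀ).det = 1 := by
        rw [det_transpose]; exact (x⁻¹ : Om (hyp q 1 J₀)).1.2
      rw [this, Ring.inverse_one, one_smul]
      rfl)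
  rw [e1]
  have e2 : (x⁻¹ : Om (hyp q 1 J₀)).1.1 * x.1.1 = 1 := by
    have := congrArg (fun g : Om (hyp q 1 J₀) => g.1.1) (inv_mul_cancel x)
    exact this
  rw [← Matrix.transpose_nonsing_inv, transpose_transpose]
  exact Matrix.inv_eq_right_inv e2

/-- **Orthogonal groups are factors**: the group generated by the Siegel transformations of the sum
of `q` hyperbolic planes and an anisotropic symmetric form, over a local field of characteristic not
two. -/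
theorem fct_om {q : ℕ} (hk : LocK k) (hq : Dim q ι) {J₀ : Matrix ι ι k} (h2 : (2 : k) ≠ 0)
    (hJs : J₀ᵀ = J₀) (hJ : Aniso J₀) : H714.TF.Fct (Om (hyp q 1 J₀)) q where
  top := inferInstance
  lc := lc_om (isClosed_om (good_hyp hq h2 hJs hJ))
  sc := sc_om _
  t2 := t2_om _
  cf := cf_om (good_hyp hq h2 hJs hJ)
  fac := facS_om (good_hyp hq h2 hJs hJ)
  hm := howeMoore (good_hyp hq h2 hJs hJ) (isClosed_om (good_hyp hq h2 hJs hJ))
  chn := chn_om hq h2 hJs hJ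
  tgt := tgt_om hk (good_hyp hq h2 hJs hJ) hJ
  pos := by rcases hq with h | h <;> omega

end hyp

end Vale.Agent.P092.H899.Ort
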