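import Vale.Agent.P092.H899.U1
import Vale.Agent.P092.H899.O10

/-!
P092 (helper899): the rank one chains of the central quotients of orthogonal groups of Witt index one.
-/

set_option linter.all false

open Matrix Filter Topology

namespace Vale.Agent.P092.H899.Ort

open Vale.Agent.P092.H303 (Idx hyp)
open Vale.Agent.P092.H264 (Chn)
open Vale.Agent.P092.H899.Un (PPZ ppz_of)

section one

variable {n : Type} [Fintype n] [DecidableEq n] {k : Type} [NontriviallyNormedField k]
  [ProperSpace k] {K : Matrix n n k}

/-- **The ping-pong families of an orthogonal group of Witt index one.** -/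
theorem ppz_om (h : Good K)
    (hw1 : ∀ x v : n → k, x ≠ 0 → bf K x x = 0 → bf K v v = 0 → bf K x v = 0 → ∃ c : k, v = c • x) :
    ∃ (b : ℕ → Om K) (C : Set (Om K)), IsCompact C ∧ Tendsto b atTop (cocompact (Om K)) ∧
      PPZ {z | ∀ e : n → k, ∃ a : k, act z e = a • e} b C := by
  haveI := h.nonempty
  obtain ⟨e, he0, hee⟩ := (tsysOf h).ex
  obtain ⟨f, he⟩ := (sysOf h).exists_hyp he0 hee
  obtain ⟨s, hs, hs0, -, -⟩ := TSys.exists_big (k := k)
  obtain ⟨w, d, hwe, hwf, hww, -, hd⟩ := (sysOf h).exists_tor he hs0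
  have ht1 : 1 < ‖s ^ 2‖ := by rw [norm_pow]; nlinarith
  replace hwe : bf K e w = 0 := hwe
  replace hwf : bf K f w = 0 := hwf
  replace hww : bf K w w ≠ 0 := hww
  replace hee : bf K e e = 0 := hee
  have hff : bf K f f = 0 := he.ff
  have hef : bf K e f = 1 := he.ef
  have hfe : bf K f e = 1 := he.fe
  have hwe' : bf K w e = 0 := by rw [bf_sym h.sym, hwe]
  have hwf' : bf K w f = 0 := by rw [bf_sym h.sym, hwf]
  have hew : ∀ a : k, bf K e (a • w) = 0 := fun a => by rw [map_smul, hwe, smul_zero]
  have hfw : ∀ a : k, bf K f (a • w) = 0 := fun a => by rw [map_smul, hwf, smul_zero]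
  refine ⟨fun N => d ^ N, kset h e f w, isCompact_kset h he hwe hwf, ?_, ?_⟩
  · refine tendsto_cocompact_of (g := fun x : Om K => ‖bf K (rho K x e) f‖)
      ((tsysOf h).contB e f).norm ht1 fun N => ?_
    have h1 := (hd.pow he (pow_ne_zero 2 hs0) N).e he
    have h2 : rho K (d ^ N) e = (s ^ 2) ^ N • e := h1
    show ‖bf K (rho K (d ^ N) e) f‖ = _
    rw [h2, map_smul, LinearMap.smul_apply, hef, smul_eq_mul, mul_one, norm_pow]
  · refine (ppz_of (C := {v | bf K v v = 0}) act ?_ ?_ ?_ ?_ ?_ ?_
      (e := e) (f := f) hee he0 (pair K f) (pair K e) hef hff ht1 ?_ ?_).mono ?_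
    · intro v
      exact (sysOf h).one_apply v
    · intro g g' v
      exact (sysOf h).mul_apply g g' v
    · intro v
      have h1 : Continuous fun x : Om K => rho K x v := by
        have := continuous_rho (K := K) 1 v
        simpa only [one_mul] using this
      exact h1
    · exact isClosed_eq (bf_self_continuous K) continuous_const
    · intro a v hv
      show bf K (a • v) (a • v) = 0
      rw [map_smul, map_smul, LinearMap.smul_apply, show bf K v v = 0 from hv, smul_zero, smul_zero]
    · intro g v hv
      show bf K (rho K g v) (rho K g v) = 0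
      rw [rho_iso h]
      exact hv
    · intro N v
      exact (hd.pow he (pow_ne_zero 2 hs0) N) v
    · intro p
      obtain ⟨c, η₀, hη₀, -, hc1, hsep⟩ := H701.exists_pts k p
      have hinj : ∀ l l', l ≠ l' → c l ≠ c l' := by
        intro l l' hne heq
        have := hsep l l' hne
        rw [heq, sub_self, norm_zero] at this
        linarith
      -- the moved vectors
      obtain ⟨E, hE⟩ : ∃ E : k → n → k, ∀ a, E a = rho K ((sysOf h).psi f (a • w)) e :=
        ⟨_, fun _ => rfl⟩
      obtain ⟨F, hF⟩ : ∃ F : k → n → k, ∀ a, F a = rho K ((sysOf h).psi e (a • w)) f :=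
        ⟨_, fun _ => rfl⟩
      have hE1 : ∀ a, bf K (E a) f = 1 ∧ bf K (E a) w = a * bf K w w := by
        intro a
        have h1 : E a = e + bf K e f • (a • w) -
            (bf K e (a • w) + 2⁻¹ * bf K (a • w) (a • w) * bf K e f) • f := by
          rw [hE]
          exact (sysOf h).hpsi f (a • w) hff (hfw a) e
        rw [h1]
        simp only [map_add, map_sub, map_smul, LinearMap.add_apply, LinearMap.sub_apply,
          LinearMap.smul_apply, smul_eq_mul, hef, hff, hwf', hwe, hwf]
        constructor <;> ring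
      have hF1 : ∀ a, bf K (F a) e = 1 ∧ bf K (F a) w = a * bf K w w := by
        intro a
        have h1 : F a = f + bf K f e • (a • w) -
            (bf K f (a • w) + 2⁻¹ * bf K (a • w) (a • w) * bf K f e) • e := by
          rw [hF]
          exact (sysOf h).hpsi e (a • w) hee (hew a) f
        rw [h1]
        simp only [map_add, map_sub, map_smul, LinearMap.add_apply, LinearMap.sub_apply,
          LinearMap.smul_apply, smul_eq_mul, hfe, hee, hwe', hwe, hwf]
        constructor <;> ring
      have hFF : ∀ a, bf K (F a) (F a) = 0 := fun a => by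
        rw [hF, rho_iso h, hff]
      have hκ'i : ∀ l, ((sysOf h).psi e (-c l • w))⁻¹ = (sysOf h).psi e (c l • w) := by
        intro l
        have := (sysOf h).psi_inv hee (w := -c l • w) (hew _)
        rw [this, neg_smul, neg_neg]
      refine ⟨fun l => (sysOf h).psi f (c l • w), fun l => (sysOf h).psi e (-c l • w),
        fun l => Or.inr ⟨c l, by simpa using hc1 l, rfl⟩,
        fun l => Or.inl ⟨-c l, by simpa using hc1 l, rfl⟩, ?_, ?_⟩
      · intro l l' hne v hv hv0 h1 h2
        have q : ∀ l, bf K (rho K ((sysOf h).psi e (-c l • w)) v) f = 0 → bf K v (F (c l)) = 0 := by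
          intro l h1'
          have := (sysOf h).iso_left ((sysOf h).psi e (-c l • w)) v f
          rw [hκ'i] at this
          rw [hF]
          exact this.symm.trans h1'
        obtain ⟨a, ha⟩ := hw1 v _ hv0 hv (hFF _) (q l h1)
        obtain ⟨a', ha'⟩ := hw1 v _ hv0 hv (hFF _) (q l' h2)
        have r1 := (hF1 (c l)).1
        have r2 := (hF1 (c l')).1
        rw [ha, map_smul, LinearMap.smul_apply, smul_eq_mul] at r1
        rw [ha', map_smul, LinearMap.smul_apply, smul_eq_mul] at r2
        have hb : bf K v e ≠ 0 := right_ne_zero_of_mul_eq_one r1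
        have haa : a = a' := mul_right_cancel₀ hb (r1.trans r2.symm)
        have hFe : F (c l) = F (c l') := by rw [ha, ha', haa]
        have r3 := (hF1 (c l)).2
        rw [hFe, (hF1 (c l')).2] at r3
        exact hinj l l' hne (mul_right_cancel₀ hww r3).symm
      · intro l l' hne v hv hv0 h1 h2
        obtain ⟨a, ha⟩ := h1
        obtain ⟨a', ha'⟩ := h2
        replace ha : v = a • E (c l) := by rw [hE]; exact ha
        replace ha' : v = a' • E (c l') := by rw [hE]; exact ha'
        have r1 : bf K v f = a := by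
          rw [ha, map_smul, LinearMap.smul_apply, (hE1 _).1, smul_eq_mul, mul_one]
        have r2 : bf K v f = a' := by
          rw [ha', map_smul, LinearMap.smul_apply, (hE1 _).1, smul_eq_mul, mul_one]
        have haa : a = a' := r1.symm.trans r2
        have ha0 : a ≠ 0 := by
          rintro rfl
          rw [zero_smul] at ha
          exact hv0 ha
        have hEe : E (c l) = E (c l') := by
          rw [← haa] at ha'
          exact smul_right_injective _ ha0 (ha.symm.trans ha')
        have r3 := (hE1 (c l)).2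
        rw [hEe, (hE1 (c l')).2] at r3
        exact hinj l l' hne (mul_right_cancel₀ hww r3).symm
    · intro z hz
      exact hz e

theorem chn_om_quo_one (h : Good K)
    (hw1 : ∀ x v : n → k, x ≠ 0 → bf K x x = 0 → bf K v v = 0 → bf K x v = 0 → ∃ c : k, v = c • x)
    (Z : Subgroup (Om K)) [Z.Normal] (hZ : Z ≤ Subgroup.center (Om K)) : Chn (Om K ⧸ Z) 1 := by
  obtain ⟨b, C, hC, hb, hp⟩ := ppz_om h hw1
  have hZc : IsCompact (Z : Set (Om K)) := ((finite_center_om h).subset hZ).isCompact
  refine (hp.mono fun z hz e => ?_).chn_quo Z hZc hC hb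
  obtain ⟨c, -, hc⟩ := (tsysOf h).of_mem_center (hZ hz)
  exact ⟨c, hc e⟩

end one

section hyp

variable {ι : Type} [Fintype ι] [DecidableEq ι] {k : Type} [NontriviallyNormedField k]
  [ProperSpace k]

/-- **The chains of the central quotients of `Ω(J)`, Witt index one.** -/
theorem chn_hyp_quo_one (hι : 1 ≤ Fintype.card ι) {J₀ : Matrix ι ι k} (h2 : (2 : k) ≠ 0)
    (hJs : J₀ᵀ = J₀) (hJ : Aniso J₀) (Z : Subgroup (Om (hyp 1 1 J₀))) [Z.Normal]
    (hZ : Z ≤ Subgroup.center (Om (hyp 1 1 J₀))) : Chn (Om (hyp 1 1 J₀) ⧸ Z) 1 :=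
  chn_om_quo_one (good_hyp (Or.inl ⟨rfl, hι⟩) h2 hJs hJ)
    (fun x v hx0 hx hv hxv => hyp_one hJs hJ x v hx0 hx hv hxv) Z hZ

end hyp

end Vale.Agent.P092.H899.Ort
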