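import Vale.Agent.P092.H899.Ad3
import Mathlib.Analysis.Calculus.InverseFunctionTheorem.FDeriv
import Mathlib.Analysis.Calculus.ContDiff.RCLike
import Mathlib.Analysis.Calculus.Deriv.Pi
import Mathlib.Analysis.Calculus.Deriv.Prod
import Mathlib.Analysis.Calculus.ContDiff.Operations
import Mathlib.Analysis.Calculus.Deriv.Mul
import Mathlib.Analysis.Calculus.Deriv.Add

/-!
P092, project RE-ADJ, block [AD-2] (helper899): rigidity of brackets with nondegenerate Killing form,
from the vanishing of the second cohomology.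
-/

set_option linter.all false

open Matrix Filter Topology

namespace Vale.Agent.P092.H899.Ad

open Vale.Agent.P092.H793.Re (Mat SLn RS Lie)
open Vale.Agent.P092.H259.Ad

variable {n : ℕ}

theorem br_addl (c : Ten n) (x x' y : Fin n → ℝ) : br c (x + x') y = br c x y + br c x' y := by
  ext l
  simp only [br, Pi.add_apply, mul_add, add_mul, Finset.sum_add_distrib]

theorem br_addr (c : Ten n) (x y y' : Fin n → ℝ) : br c x (y + y') = br c x y + br c x y' := by
  ext l
  simp only [br, Pi.add_apply, mul_add, add_mul, Finset.sum_add_distrib]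

theorem br_smull (c : Ten n) (t : ℝ) (x y : Fin n → ℝ) : br c (t • x) y = t • br c x y := by
  ext l
  simp only [br, Pi.smul_apply, smul_eq_mul, Finset.mul_sum]
  exact Finset.sum_congr rfl fun i _ => Finset.sum_congr rfl fun j _ => by ring

theorem br_smulr (c : Ten n) (t : ℝ) (x y : Fin n → ℝ) : br c x (t • y) = t • br c x y := by
  ext l
  simp only [br, Pi.smul_apply, smul_eq_mul, Finset.mul_sum]
  exact Finset.sum_congr rfl fun i _ => Finset.sum_congr rfl fun j _ => by ring

theorem br_addc (c c' : Ten n) (x y : Fin n → ℝ) : br (c + c') x y = br c x y + br c' x y := by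
  ext l
  simp only [br, Pi.add_apply, mul_add, add_mul, Finset.sum_add_distrib]

theorem br_smulc (c : Ten n) (t : ℝ) (x y : Fin n → ℝ) : br (t • c) x y = t • br c x y := by
  ext l
  simp only [br, Pi.smul_apply, smul_eq_mul, Finset.mul_sum]
  exact Finset.sum_congr rfl fun i _ => Finset.sum_congr rfl fun j _ => by ring

theorem br_zeror (c : Ten n) (x : Fin n → ℝ) : br c x 0 = 0 := by
  ext l
  simp [br]

theorem br_negr (c : Ten n) (x y : Fin n → ℝ) : br c x (-y) = -br c x y := by
  have := br_smulr c (-1) x y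
  simpa using this

theorem br_negl (c : Ten n) (x y : Fin n → ℝ) : br c (-x) y = -br c x y := by
  have := br_smull c (-1) x y
  simpa using this

theorem br_single (c : Ten n) (i j : Fin n) :
    br c (Pi.single i 1) (Pi.single j 1) = c i j := by
  ext l
  unfold br
  rw [Finset.sum_eq_single i, Finset.sum_eq_single j]
  · simp
  · intro b _ hb
    rw [Pi.single_eq_of_ne hb, mul_zero]
  · simp
  · intro b _ hb
    refine Finset.sum_eq_zero fun j _ => ?_
    rw [Pi.single_eq_of_ne hb, mul_zero, zero_mul]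
  · simp

theorem lin0 {f : (Fin n → ℝ) → (Fin n → ℝ)} (ha : ∀ x y, f (x + y) = f x + f y)
    (hs : ∀ (t : ℝ) x, f (t • x) = t • f x) (h : ∀ i, f (Pi.single i 1) = 0) (x : Fin n → ℝ) :
    f x = 0 := by
  let F : (Fin n → ℝ) →ₗ[ℝ] (Fin n → ℝ) := { toFun := f, map_add' := ha, map_smul' := hs }
  have : F = 0 := by
    refine LinearMap.pi_ext' fun i => LinearMap.ext_ring ?_
    exact h i
  exact congrArg (fun G : (Fin n → ℝ) →ₗ[ℝ] (Fin n → ℝ) => G x) this

/-- the second differential -/
def dd (c w : Ten n) (x y z : Fin n → ℝ) : Fin n → ℝ :=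
  br c x (br w y z) + br w x (br c y z) -
    (br c (br w x y) z + br w (br c x y) z + br c y (br w x z) + br w y (br c x z))

theorem dd_ext (c w : Ten n)
    (h : ∀ i j k, dd c w (Pi.single i 1) (Pi.single j 1) (Pi.single k 1) = 0) :
    ∀ x y z, dd c w x y z = 0 := by
  intro x y z
  refine lin0 (f := fun x => dd c w x y z) ?_ ?_ (fun i => ?_) x
  · intro a b
    simp only [dd, br_addl, br_addr]
    abel
  · intro t a
    simp only [dd, br_smull, br_smulr, smul_add, smul_sub]
  refine lin0 (f := fun y => dd c w (Pi.single i 1) y z) ?_ ?_ (fun j => ?_) y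
  · intro a b
    simp only [dd, br_addl, br_addr]
    abel
  · intro t a
    simp only [dd, br_smull, br_smulr, smul_add, smul_sub]
  refine lin0 (f := fun z => dd c w (Pi.single i 1) (Pi.single j 1) z) ?_ ?_ (fun k => ?_) z
  · intro a b
    simp only [dd, br_addl, br_addr]
    abel
  · intro t a
    simp only [dd, br_smull, br_smulr, smul_add, smul_sub]
  exact h i j k

/-- the linear map whose kernel is the space of cocycles -/
def LL (c : Ten n) : Ten n →ₗ[ℝ] Ten n × (Fin n → Fin n → Fin n → Fin n → ℝ) where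
  toFun w := (fun i j l => w i j l + w j i l,
    fun i j k => dd c w (Pi.single i 1) (Pi.single j 1) (Pi.single k 1))
  map_add' w w' := by
    refine Prod.ext ?_ ?_
    · funext i j l
      simp only [Pi.add_apply, Prod.fst_add]
      ring
    · funext i j k
      simp only [dd, br_addc, br_addl, br_addr, Prod.snd_add, Pi.add_apply]
      abel
  map_smul' t w := by
    refine Prod.ext ?_ ?_
    · funext i j l
      simp only [Pi.smul_apply, Prod.smul_fst, smul_eq_mul, RingHom.id_apply]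
      ring
    · funext i j k
      simp only [dd, br_smulc, br_smull, br_smulr, Prod.smul_snd, Pi.smul_apply, smul_add, smul_sub,
        RingHom.id_apply]

theorem br_anti (w : Ten n) (h : ∀ i j l, w i j l + w j i l = 0) (x y : Fin n → ℝ) :
    br w x y = -br w y x := by
  refine eq_neg_of_add_eq_zero_left ?_
  have key : ∀ i j, br w (Pi.single i 1) (Pi.single j 1) + br w (Pi.single j 1) (Pi.single i 1) = 0 := by
    intro i j
    rw [br_single, br_single]
    funext l
    exact h i j l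
  refine lin0 (f := fun x => br w x y + br w y x) ?_ ?_ (fun i => ?_) x
  · intro a b
    simp only [br_addl, br_addr]
    abel
  · intro t a
    simp only [br_smull, br_smulr, smul_add]
  refine lin0 (f := fun y => br w (Pi.single i 1) y + br w y (Pi.single i 1)) ?_ ?_ (fun j => key i j) y
  · intro a b
    simp only [br_addl, br_addr]
    abel
  · intro t a
    simp only [br_smull, br_smulr, smul_add]

theorem LL_zero {c w : Ten n} (h : LL c w = 0) :
    (∀ x y, br w x y = -br w y x) ∧ ∀ x y z, dd c w x y z = 0 := by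
  have h1 := congrArg Prod.fst h
  have h2 := congrArg Prod.snd h
  refine ⟨br_anti w fun i j l => congrFun (congrFun (congrFun h1 i) j) l,
    dd_ext c w fun i j k => congrFun (congrFun (congrFun h2 i) j) k⟩

/-- the quadratic term of the Jacobi identity -/
theorem LL_lie {c w : Ten n} (hc : IsLie c) (hw : IsLie (c + w)) :
    LL c w = (0, fun i j k => br w (br w (Pi.single i 1) (Pi.single j 1)) (Pi.single k 1) +
      br w (Pi.single j 1) (br w (Pi.single i 1) (Pi.single k 1)) -
      br w (Pi.single i 1) (br w (Pi.single j 1) (Pi.single k 1))) := by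
  refine Prod.ext ?_ ?_
  · funext i j l
    have h1 := congrFun (hw.anti (Pi.single i 1) (Pi.single j 1)) l
    have h2 := congrFun (hc.anti (Pi.single i 1) (Pi.single j 1)) l
    rw [Pi.neg_apply, br_single, br_single] at h1 h2
    simp only [Pi.add_apply] at h1
    show w i j l + w j i l = 0
    linarith
  · funext i j k
    have h1 := hw.jac (Pi.single i 1) (Pi.single j 1) (Pi.single k 1)
    have h2 := hc.jac (Pi.single i 1) (Pi.single j 1) (Pi.single k 1)
    simp only [br_addc, br_addl, br_addr] at h1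
    rw [h2] at h1
    show dd c w (Pi.single i 1) (Pi.single j 1) (Pi.single k 1) =
      br w (br w (Pi.single i 1) (Pi.single j 1)) (Pi.single k 1) +
      br w (Pi.single j 1) (br w (Pi.single i 1) (Pi.single k 1)) -
      br w (Pi.single i 1) (br w (Pi.single j 1) (Pi.single k 1))
    unfold dd
    rw [← sub_eq_zero] at h1 ⊢
    rw [← h1]
    abel

/-- a generalised inverse -/
theorem gen_inv {V W : Type*} [AddCommGroup V] [Module ℝ V] [AddCommGroup W] [Module ℝ W]
    (L : V →ₗ[ℝ] W) : ∃ S : W →ₗ[ℝ] V, ∀ x, L (S (L x)) = L x := by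
  obtain ⟨r, hr⟩ := L.rangeRestrict.exists_rightInverse_of_surjective
    (LinearMap.range_rangeRestrict L)
  obtain ⟨p, hp⟩ := (LinearMap.range L).subtype.exists_leftInverse_of_injective
    (LinearMap.ker_eq_bot.2 Subtype.val_injective)
  refine ⟨r ∘ₗ p, fun x => ?_⟩
  have h1 : p (L x) = ⟨L x, x, rfl⟩ := by
    have := congrArg (fun f => f (⟨L x, x, rfl⟩ : LinearMap.range L)) hp
    exact this
  have h2 := congrArg (fun f => f (⟨L x, x, rfl⟩ : LinearMap.range L)) hr
  rw [LinearMap.comp_apply, h1]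
  exact congrArg Subtype.val h2

theorem norm_br (w : Ten n) (x y : Fin n → ℝ) : ‖br w x y‖ ≤ (n : ℝ) ^ 2 * ‖w‖ * ‖x‖ * ‖y‖ := by
  refine (pi_norm_le_iff_of_nonneg (by positivity)).2 fun l => ?_
  unfold br
  refine (norm_sum_le _ _).trans ?_
  have h1 : ∀ i ∈ (Finset.univ : Finset (Fin n)), ‖∑ j, w i j l * x i * y j‖ ≤
      (n : ℝ) * (‖w‖ * ‖x‖ * ‖y‖) := by
    intro i _
    refine (norm_sum_le _ _).trans ?_
    have h2 : ∀ j ∈ (Finset.univ : Finset (Fin n)), ‖w i j l * x i * y j‖ ≤ ‖w‖ * ‖x‖ * ‖y‖ := by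
      intro j _
      rw [norm_mul, norm_mul]
      have hw : ‖w i j l‖ ≤ ‖w‖ :=
        (norm_le_pi_norm (w i j) l).trans ((norm_le_pi_norm (w i) j).trans (norm_le_pi_norm w i))
      have hx := norm_le_pi_norm x i
      have hy := norm_le_pi_norm y j
      gcongr
    refine (Finset.sum_le_sum h2).trans ?_
    simp
  refine (Finset.sum_le_sum h1).trans ?_
  simp
  apply le_of_eq
  ring

theorem norm_single_le (i : Fin n) : ‖(Pi.single i 1 : Fin n → ℝ)‖ ≤ 1 := by
  refine (pi_norm_le_iff_of_nonneg zero_le_one).2 fun j => ?_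
  by_cases h : j = i
  · subst h; simp
  · rw [Pi.single_eq_of_ne h]; simp

/-- the quadratic estimate -/
theorem LL_norm {c w : Ten n} (hc : IsLie c) (hw : IsLie (c + w)) :
    ‖LL c w‖ ≤ 3 * (n : ℝ) ^ 4 * ‖w‖ ^ 2 := by
  rw [LL_lie hc hw]
  refine (Prod.norm_def _).trans_le (max_le ?_ ?_)
  · show ‖(0 : Ten n)‖ ≤ _
    rw [norm_zero]
    positivity
  have e := norm_single_le (n := n)
  have h2 : ∀ i j, ‖br w (Pi.single i 1) (Pi.single j 1)‖ ≤ (n : ℝ) ^ 2 * ‖w‖ := by
    intro i j
    refine (norm_br w _ _).trans ?_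
    have h1 := e i
    have h2 := e j
    calc (n : ℝ) ^ 2 * ‖w‖ * ‖(Pi.single i 1 : Fin n → ℝ)‖ * ‖(Pi.single j 1 : Fin n → ℝ)‖
        ≤ (n : ℝ) ^ 2 * ‖w‖ * 1 * 1 := by gcongr
      _ = _ := by ring
  have h3 : ∀ i (v : Fin n → ℝ), ‖v‖ ≤ (n : ℝ) ^ 2 * ‖w‖ →
      ‖br w (Pi.single i 1) v‖ ≤ (n : ℝ) ^ 4 * ‖w‖ ^ 2 ∧
      ‖br w v (Pi.single i 1)‖ ≤ (n : ℝ) ^ 4 * ‖w‖ ^ 2 := by
    intro i v hv
    have h1 := e i
    constructor
    · refine (norm_br w _ _).trans ?_
      calc (n : ℝ) ^ 2 * ‖w‖ * ‖(Pi.single i 1 : Fin n → ℝ)‖ * ‖v‖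
          ≤ (n : ℝ) ^ 2 * ‖w‖ * 1 * ((n : ℝ) ^ 2 * ‖w‖) := by gcongr
        _ = _ := by ring
    · refine (norm_br w _ _).trans ?_
      calc (n : ℝ) ^ 2 * ‖w‖ * ‖v‖ * ‖(Pi.single i 1 : Fin n → ℝ)‖
          ≤ (n : ℝ) ^ 2 * ‖w‖ * ((n : ℝ) ^ 2 * ‖w‖) * 1 := by gcongr
        _ = _ := by ring
  have hp : (0 : ℝ) ≤ 3 * (n : ℝ) ^ 4 * ‖w‖ ^ 2 := by positivity
  refine (pi_norm_le_iff_of_nonneg hp).2 fun i => (pi_norm_le_iff_of_nonneg hp).2 fun j =>
    (pi_norm_le_iff_of_nonneg hp).2 fun k => ?_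
  have a1 := (h3 k _ (h2 i j)).2
  have a2 := (h3 j _ (h2 i k)).1
  have a3 := (h3 i _ (h2 j k)).1
  refine (norm_sub_le _ _).trans ((add_le_add (norm_add_le _ _) le_rfl).trans ?_)
  linarith

/-- the defect of an isomorphism -/
def Df (p : Ten n × (Fin n → Fin n → ℝ) × Ten n) : Ten n := fun i j l =>
  ∑ m, p.2.1 l m * p.2.2 i j m - ∑ a, ∑ b, p.1 a b l * (p.2.1 a i * p.2.1 b j)

theorem Df_iso {c' : Ten n} {A : Fin n → Fin n → ℝ} {b : Ten n} (h : Df (c', A, b) = 0) :
    Iso (of A) b c' := by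
  have key : ∀ i j, of A *ᵥ br b (Pi.single i 1) (Pi.single j 1) =
      br c' (of A *ᵥ Pi.single i 1) (of A *ᵥ Pi.single j 1) := by
    intro i j
    rw [br_single]
    funext l
    have h1 := congrFun (congrFun (congrFun h i) j) l
    have h2 : ∑ m, A l m * b i j m = ∑ a, ∑ b, c' a b l * (A a i * A b j) := by
      have : ∑ m, A l m * b i j m - ∑ a, ∑ b, c' a b l * (A a i * A b j) = 0 := h1
      linarith
    show ∑ m, A l m * b i j m = _
    rw [h2]
    unfold br
    refine Finset.sum_congr rfl fun a _ => Finset.sum_congr rfl fun b _ => ?_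
    rw [mulVec_single_one, mulVec_single_one]
    simp only [Matrix.col_apply, of_apply]
    ring
  intro x y
  rw [← sub_eq_zero]
  refine lin0 (f := fun x => of A *ᵥ br b x y - br c' (of A *ᵥ x) (of A *ᵥ y)) ?_ ?_ (fun i => ?_) x
  · intro u v
    simp only [br_addl, mulVec_add]
    abel
  · intro t u
    simp only [br_smull, mulVec_smul, smul_sub]
  refine lin0 (f := fun y => of A *ᵥ br b (Pi.single i 1) y -
    br c' (of A *ᵥ Pi.single i 1) (of A *ᵥ y)) ?_ ?_ (fun j => ?_) y
  · intro u v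
    simp only [br_addr, mulVec_add]
    abel
  · intro t u
    simp only [br_smulr, mulVec_smul, smul_sub]
  rw [key, sub_self]

/-- the identity matrix as a function -/
def dl : Fin n → Fin n → ℝ := fun i j => (1 : Mat n) i j

/-- the derivative of the defect -/
def dDf (c u : Ten n) (A : Fin n → Fin n → ℝ) (w : Ten n) : Ten n := fun i j =>
  of A *ᵥ c i j + w i j - u i j - br c (of A *ᵥ Pi.single i 1) (Pi.single j 1) -
    br c (Pi.single i 1) (of A *ᵥ Pi.single j 1)

theorem br_col (c : Ten n) (A : Fin n → Fin n → ℝ) (i j l : Fin n) :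
    br c (of A *ᵥ Pi.single i 1) (Pi.single j 1) l = ∑ a, c a j l * A a i := by
  unfold br
  refine Finset.sum_congr rfl fun a _ => ?_
  rw [Finset.sum_eq_single j, mulVec_single_one]
  · simp only [Matrix.col_apply, of_apply, Pi.single_eq_same, mul_one]
  · intro b _ hb
    rw [Pi.single_eq_of_ne hb, mul_zero]
  · simp

theorem br_row (c : Ten n) (A : Fin n → Fin n → ℝ) (i j l : Fin n) :
    br c (Pi.single i 1) (of A *ᵥ Pi.single j 1) l = ∑ b, c i b l * A b j := by
  unfold br
  rw [Finset.sum_eq_single i]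
  · refine Finset.sum_congr rfl fun b _ => ?_
    rw [mulVec_single_one]
    simp only [Matrix.col_apply, of_apply, Pi.single_eq_same, mul_one]
  · intro b _ hb
    refine Finset.sum_eq_zero fun j _ => ?_
    rw [Pi.single_eq_of_ne hb, mul_zero, zero_mul]
  · simp

theorem lin (x y : ℝ) : HasDerivAt (fun t : ℝ => x + t * y) y 0 := by
  have := ((hasDerivAt_id (0 : ℝ)).mul_const y).const_add x
  simpa using this

theorem df_line (c u : Ten n) (A : Fin n → Fin n → ℝ) (w : Ten n) :
    HasDerivAt (fun t : ℝ => Df (c + t • u, dl + t • A, c + t • w)) (dDf c u A w) 0 := by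
  refine hasDerivAt_pi.2 fun i => hasDerivAt_pi.2 fun j => hasDerivAt_pi.2 fun l => ?_
  have h := (HasDerivAt.fun_sum fun m (_ : m ∈ (Finset.univ : Finset (Fin n))) =>
      (lin (dl l m) (A l m)).fun_mul (lin (c i j m) (w i j m))).fun_sub
    (HasDerivAt.fun_sum fun a (_ : a ∈ (Finset.univ : Finset (Fin n))) =>
      HasDerivAt.fun_sum fun b (_ : b ∈ (Finset.univ : Finset (Fin n))) =>
      (lin (c a b l) (u a b l)).fun_mul ((lin (dl a i) (A a i)).fun_mul (lin (dl b j) (A b j))))
  refine h.congr_deriv ?_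
  simp only [dDf, Pi.add_apply, Pi.sub_apply, br_col, br_row, zero_mul, add_zero,
    Finset.sum_add_distrib, mulVec, dotProduct, of_apply, mul_add]
  have e1 : ∑ m, dl l m * w i j m = w i j l := by
    simp [dl, Matrix.one_apply]
  have e2 : ∑ a, ∑ b, u a b l * (dl a i * dl b j) = u i j l := by
    simp [dl, Matrix.one_apply]
  have e3 : ∑ a, ∑ b, c a b l * (A a i * dl b j) = ∑ a, c a j l * A a i := by
    simp [dl, Matrix.one_apply]
  have e4 : ∑ a, ∑ b, c a b l * (dl a i * A b j) = ∑ b, c i b l * A b j := by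
    simp [dl, Matrix.one_apply]
  rw [e1, e2, e3, e4]
  ring

theorem Df_cont {k : WithTop ℕ∞} : ContDiff ℝ k (Df (n := n)) := by
  unfold Df
  refine contDiff_pi.2 fun i => contDiff_pi.2 fun j => contDiff_pi.2 fun l => ?_
  fun_prop

theorem Df_one (c : Ten n) : Df (c, dl, c) = 0 := by
  funext i j l
  show ∑ m, dl l m * c i j m - ∑ a, ∑ b, c a b l * (dl a i * dl b j) = 0
  simp [dl, Matrix.one_apply]

/-- **[AD-2] RigB** -/
theorem rigB (h2 : H2B) : RigB := by
  intro n c hc hn
  obtain ⟨S, hS⟩ := gen_inv (LL c)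
  let P : Ten n →L[ℝ] Ten n := LinearMap.toContinuousLinearMap (S ∘ₗ LL c)
  have hP : ∀ w, P w = S (LL c w) := fun w => rfl
  have hLP : ∀ w, LL c (P w) = LL c w := hS
  let S' := LinearMap.toContinuousLinearMap S
  let p₀ : Ten n × (Fin n → Fin n → ℝ) × Ten n := (c, 0, 0)
  let Ψ : Ten n × (Fin n → Fin n → ℝ) × Ten n → Ten n × Ten n :=
    fun p => (p.1, Df (p.1, dl + p.2.1, c + P p.2.2))
  have hcd : ContDiff ℝ 1 Ψ := by
    refine contDiff_fst.prodMk (Df_cont.comp ?_)
    fun_prop
  have hst := (hcd.contDiffAt (x := p₀)).hasStrictFDerivAt one_ne_zero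
  have hD : ∀ u A w, fderiv ℝ Ψ p₀ (u, A, w) = (u, dDf c u A (P w)) := by
    intro u A w
    have h1 : HasDerivAt (fun t : ℝ => p₀ + t • ((u, A, w) : Ten n × (Fin n → Fin n → ℝ) × Ten n))
        (u, A, w) 0 := by
      have := ((hasDerivAt_id (0 : ℝ)).smul_const
        ((u, A, w) : Ten n × (Fin n → Fin n → ℝ) × Ten n)).const_add p₀
      rw [one_smul] at this
      exact this
    have h2 := hst.hasFDerivAt.comp_hasDerivAt_of_eq (0 : ℝ) h1 (by simp)
    have h3 : HasDerivAt (fun t : ℝ => c + t • u) u 0 := by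
      have := ((hasDerivAt_id (0 : ℝ)).smul_const u).const_add c
      rw [one_smul] at this
      exact this
    have h4 := h3.prodMk (df_line c u A (P w))
    have h5 : (Ψ ∘ fun t : ℝ => p₀ + t • ((u, A, w) : Ten n × (Fin n → Fin n → ℝ) × Ten n)) =
        fun t : ℝ => (c + t • u, Df (c + t • u, dl + t • A, c + t • P w)) := by
      funext t
      show (c + t • u, Df (c + t • u, dl + (0 + t • A), c + P (0 + t • w))) = _
      rw [zero_add, zero_add, map_smul]
    rw [h5] at h2
    exact h2.unique h4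
  have hsurj : (fderiv ℝ Ψ p₀).range = ⊤ := by
    refine LinearMap.range_eq_top.2 ?_
    rintro ⟨u, z⟩
    have hker : LL c ((z + u) - P (z + u)) = 0 := by
      rw [map_sub, hLP, sub_self]
    obtain ⟨k1, k2⟩ := LL_zero hker
    obtain ⟨A, hA⟩ := h2 c hc hn _ k1 fun x y z => sub_eq_zero.1 (k2 x y z)
    refine ⟨(u, fun i j => -A i j, z + u), (hD _ _ _).trans ?_⟩
    refine Prod.ext rfl ?_
    funext i j
    have := hA (Pi.single i 1) (Pi.single j 1)
    rw [br_single, br_single] at this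
    show of (fun i j => -A i j) *ᵥ c i j + P (z + u) i j - u i j -
      br c (of (fun i j => -A i j) *ᵥ Pi.single i 1) (Pi.single j 1) -
      br c (Pi.single i 1) (of (fun i j => -A i j) *ᵥ Pi.single j 1) = z i j
    have hneg : (of (fun i j => -A i j) : Mat n) = -A := rfl
    rw [hneg, neg_mulVec, neg_mulVec, neg_mulVec, br_negl, br_negr]
    have h6 : z i j + u i j - P (z + u) i j = br c (A *ᵥ Pi.single i 1) (Pi.single j 1) +
        br c (Pi.single i 1) (A *ᵥ Pi.single j 1) - A *ᵥ c i j := this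
    have h7 : z i j = br c (A *ᵥ Pi.single i 1) (Pi.single j 1) +
        br c (Pi.single i 1) (A *ᵥ Pi.single j 1) - A *ᵥ c i j + P (z + u) i j - u i j := by
      rw [← h6]
      abel
    rw [h7]
    abel
  have hmap := hst.map_nhds_eq_of_surj hsurj
  have h0 : Ψ p₀ = (c, 0) := by
    show (c, Df (c, dl + 0, c + P 0)) = _
    rw [add_zero, map_zero, add_zero, Df_one]
  rw [h0] at hmap
  obtain ⟨K, hK0, hK⟩ : ∃ K : ℝ, 0 ≤ K ∧ ∀ x, ‖S x‖ ≤ K * ‖x‖ :=
    ⟨‖S'‖, norm_nonneg _, fun x => S'.le_opNorm x⟩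
  have hε : (0 : ℝ) < 1 / (K * (3 * (n : ℝ) ^ 4) + 1) := by positivity
  have hU : ∀ᶠ p in 𝓝 p₀, (of (dl + p.2.1) : Mat n).det ≠ 0 ∧
      ‖P p.2.2‖ < 1 / (K * (3 * (n : ℝ) ^ 4) + 1) := by
    refine Filter.Eventually.and ?_ ?_
    · have hcont : Continuous fun p : Ten n × (Fin n → Fin n → ℝ) × Ten n =>
          (of (dl + p.2.1) : Mat n).det := by
        refine Continuous.matrix_det ?_
        refine continuous_matrix fun i j => ?_
        simp only [of_apply]
        fun_prop
      refine hcont.continuousAt.eventually_ne ?_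
      show (of (dl + (0 : Fin n → Fin n → ℝ)) : Mat n).det ≠ 0
      rw [add_zero]
      have : (of dl : Mat n) = 1 := rfl
      rw [this, det_one]
      exact one_ne_zero
    · have hcont : Continuous fun p : Ten n × (Fin n → Fin n → ℝ) × Ten n => ‖P p.2.2‖ := by
        fun_prop
      refine hcont.continuousAt.eventually_lt continuousAt_const ?_
      show ‖P 0‖ < _
      rw [map_zero, norm_zero]
      exact hε
  have himg := image_mem_map (m := Ψ) hU
  rw [hmap] at himg
  have ht : Tendsto (fun c' : Ten n => (c', (0 : Ten n))) (𝓝 c) (𝓝 (c, 0)) :=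
    (continuous_id.prodMk continuous_const).tendsto c
  filter_upwards [ht himg] with c' hc' hlie
  obtain ⟨⟨c'', A, w⟩, ⟨hdet, hw⟩, he⟩ := hc'
  have e1 : c'' = c' := congrArg Prod.fst he
  subst e1
  have e2 : Df (c'', dl + A, c + P w) = 0 := congrArg Prod.snd he
  have hiso := Df_iso e2
  have hi2 : (of (dl + A) : Mat n)⁻¹.det ≠ 0 := by
    rw [det_nonsing_inv, Ring.inverse_eq_inv']
    exact inv_ne_zero hdet
  have hl : IsLie (c + P w) := Iso.lie hi2 (Iso.inv hdet hiso) hlie
  have hq := LL_norm hc hl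
  have hs : P w = S (LL c (P w)) := by rw [hLP, ← hP]
  have hw0 : P w = 0 := by
    by_contra hne
    have hpos : 0 < ‖P w‖ := norm_pos_iff.2 hne
    have h7 : ‖P w‖ ≤ K * (3 * (n : ℝ) ^ 4 * ‖P w‖ ^ 2) := by
      calc ‖P w‖ = ‖S (LL c (P w))‖ := by rw [← hs]
        _ ≤ K * ‖LL c (P w)‖ := hK _
        _ ≤ _ := by gcongr
    have h8 : ‖P w‖ * (K * (3 * (n : ℝ) ^ 4) + 1) < 1 := (lt_div_iff₀ (by positivity)).1 hw
    nlinarith
  rw [hw0, add_zero] at hiso
  exact ⟨_, hdet, hiso⟩

/-- **[AD-2] and [AD-3]** with [AD-1] -/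
theorem minB_of (h2 : H2B) : MinB := minB (rigB h2)

end Vale.Agent.P092.H899.Ad
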