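import Vale.Agent.P092.H381.Ad.H2
import Vale.Agent.P092.H899.Ad2

/-!
P092, project RE-ADJ (helper899): blocks [AD-2] and [AD-3] without hypothesis (with [AD-1] of helper381).
-/

set_option linter.all false

namespace Vale.Agent.P092.H899.Ad

/-- **[AD-2]** -/
theorem rig : H259.Ad.RigB := rigB H381.Ad.h2B

/-- **[AD-3]** -/
theorem mini : H259.Ad.MinB := minB rig

end Vale.Agent.P092.H899.Ad
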