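import Vale.Agent.P092.H899.O7
import Vale.Agent.P092.H303.Form

/-!
P092 (helper899), [CLASS-O]: the form `hyp q 1 J₀` is good; torus and root elements of the matrix
group; chains of length `q ≥ 2`.
-/

set_option linter.all false

open Filter Topology Matrix

namespace Vale.Agent.P092.H899.Ort

open Vale.Agent.P092.H303 (Idx hyp FormGroup torF dgF root2)

section alg

variable {ι : Type} [Fintype ι] [DecidableEq ι] {k : Type} [Field k]

theorem bf_hyp (q : ℕ) (J₀ : Matrix ι ι k) (x y : Idx q ι → k) : bf (hyp q 1 J₀) x y =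
    ∑ i, (x (.inl (.inl i)) * y (.inl (.inr i)) + x (.inl (.inr i)) * y (.inl (.inl i))) +
      (fun a => x (.inr a)) ⬝ᵥ (J₀ *ᵥ fun a => y (.inr a)) := by
  have h1 : hyp q 1 J₀ *ᵥ y = Sum.elim (Sum.elim (fun i => y (.inl (.inr i)))
      (fun i => y (.inl (.inl i)))) (J₀ *ᵥ fun a => y (.inr a)) := by
    rw [hyp, fromBlocks_mulVec, fromBlocks_mulVec]
    funext z
    rcases z with (z | z) | z
    · simp [Function.comp_def]
    · simp [Function.comp_def]
    · simp [Function.comp_def]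
  rw [bf_apply, h1, dotProduct, Fintype.sum_sum_type, Fintype.sum_sum_type]
  simp only [Sum.elim_inl, Sum.elim_inr]
  rw [← Finset.sum_add_distrib]
  rfl

/-- Anisotropic forms. -/
def Aniso (J₀ : Matrix ι ι k) : Prop := ∀ v : ι → k, v ≠ 0 → v ⬝ᵥ (J₀ *ᵥ v) ≠ 0

theorem hyp_transpose (q : ℕ) {J₀ : Matrix ι ι k} (hJ : J₀ᵀ = J₀) :
    (hyp q 1 J₀)ᵀ = hyp q 1 J₀ := by
  rw [hyp, fromBlocks_transpose, fromBlocks_transpose, hJ]
  simp

theorem hyp_det (q : ℕ) {J₀ : Matrix ι ι k} (hJ : Aniso J₀) : IsUnit (hyp q 1 J₀).det := by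
  rw [isUnit_iff_ne_zero]
  intro h0
  obtain ⟨v, hv0, hv⟩ := Matrix.exists_mulVec_eq_zero_iff.2 h0
  have h1 : ∀ x, bf (hyp q 1 J₀) x v = 0 := fun x => by rw [bf_apply, hv, dotProduct_zero]
  apply hv0
  have hr : (fun a => v (.inr a)) = 0 := by
    by_contra hne
    refine hJ _ hne ?_
    have := h1 (Sum.elim 0 (fun a => v (.inr a)))
    rw [bf_hyp] at this
    simpa using this
  funext z
  rcases z with (z | z) | z
  · have := h1 (Pi.single (.inl (.inr z)) 1)
    rw [bf_hyp] at this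
    have h2 : (fun a : ι => (Pi.single (.inl (.inr z)) 1 : Idx q ι → k) (.inr a)) = 0 := by
      funext a
      simp
    rw [h2, zero_dotProduct, add_zero, Finset.sum_eq_single z] at this
    · simpa using this
    · intro b _ hb
      simp [hb]
    · simp
  · have := h1 (Pi.single (.inl (.inl z)) 1)
    rw [bf_hyp] at this
    have h2 : (fun a : ι => (Pi.single (.inl (.inl z)) 1 : Idx q ι → k) (.inr a)) = 0 := by
      funext a
      simp
    rw [h2, zero_dotProduct, add_zero, Finset.sum_eq_single z] at this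
    · simpa using this
    · intro b _ hb
      simp [hb]
    · simp
  · exact congrFun hr z

/-- Isotropic vectors are proportional if orthogonal, in Witt index one. -/
theorem hyp_one {J₀ : Matrix ι ι k} (hJs : J₀ᵀ = J₀) (hJ : Aniso J₀) (x v : Idx 1 ι → k)
    (hx0 : x ≠ 0)
    (hx : bf (hyp 1 1 J₀) x x = 0) (hv : bf (hyp 1 1 J₀) v v = 0)
    (hxv : bf (hyp 1 1 J₀) x v = 0) : ∃ c : k, v = c • x := by
  -- isotropic vectors with vanishing first coordinate
  have key : ∀ y : Idx 1 ι → k, bf (hyp 1 1 J₀) y y = 0 → y (.inl (.inl 0)) = 0 →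
      ∀ z, z ≠ .inl (.inr 0) → y z = 0 := by
    intro y hy h0
    rw [bf_hyp] at hy
    simp only [Fin.sum_univ_succ, Fin.sum_univ_zero, h0, zero_mul, mul_zero, zero_add] at hy
    have h1 : (fun a => y (.inr a)) = 0 := by
      by_contra hne
      exact hJ _ hne hy
    intro z hz
    rcases z with (z | z) | z
    · rw [Subsingleton.elim z 0, h0]
    · exact absurd (by rw [Subsingleton.elim z 0]) hz
    · exact congrFun h1 z
  by_cases h0 : x (.inl (.inl 0)) = 0
  · have hx1 := key x hx h0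
    have hxr : x (.inl (.inr 0)) ≠ 0 := by
      intro h
      apply hx0
      funext z
      by_cases hz : z = .inl (.inr 0)
      · rw [hz, h]; rfl
      · exact hx1 z hz
    have hv0 : v (.inl (.inl 0)) = 0 := by
      rw [bf_hyp] at hxv
      have h2 : (fun a : ι => x (.inr a)) = 0 := by
        funext a
        exact hx1 _ (by simp)
      simp only [Fin.sum_univ_succ, Fin.sum_univ_zero, h0, h2, zero_mul, zero_add, zero_dotProduct,
        add_zero] at hxv
      exact (mul_eq_zero.1 hxv).resolve_left hxr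
    have hv1 := key v hv hv0
    refine ⟨v (.inl (.inr 0)) / x (.inl (.inr 0)), ?_⟩
    funext z
    by_cases hz : z = .inl (.inr 0)
    · rw [hz, Pi.smul_apply, smul_eq_mul, div_mul_cancel₀ _ hxr]
    · rw [hv1 z hz, Pi.smul_apply, hx1 z hz, smul_zero]
  · set c := v (.inl (.inl 0)) / x (.inl (.inl 0)) with hc
    set y := v - c • x with hy
    have hvx : bf (hyp 1 1 J₀) v x = 0 := by rw [bf_sym (hyp_transpose 1 hJs), hxv]
    have hyy : bf (hyp 1 1 J₀) y y = 0 := by
      simp only [hy, map_sub, map_smul, LinearMap.sub_apply, LinearMap.smul_apply, hx, hv, hxv, hvx]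
      simp
    have hxy : bf (hyp 1 1 J₀) x y = 0 := by
      simp only [hy, map_sub, map_smul, hx, hxv]
      simp
    have hy0 : y (.inl (.inl 0)) = 0 := by
      rw [hy, Pi.sub_apply, Pi.smul_apply, smul_eq_mul, hc, div_mul_cancel₀ _ h0, sub_self]
    have hy1 := key y hyy hy0
    have hy2 : y (.inl (.inr 0)) = 0 := by
      rw [bf_hyp] at hxy
      have h2 : (fun a : ι => y (.inr a)) = 0 := by
        funext a
        exact hy1 _ (by simp)
      simp only [Fin.sum_univ_succ, Fin.sum_univ_zero, hy0, h2, mul_zero, add_zero, mulVec_zero,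
        dotProduct_zero] at hxy
      exact (mul_eq_zero.1 hxy).resolve_left h0
    refine ⟨c, ?_⟩
    have : y = 0 := by
      funext z
      by_cases hz : z = .inl (.inr 0)
      · rw [hz, hy2]; rfl
      · exact hy1 z hz
    exact sub_eq_zero.1 this

theorem hyp_single (q : ℕ) (J₀ : Matrix ι ι k) (x : Idx q ι → k) (i : Fin q) :
    bf (hyp q 1 J₀) x (Pi.single (.inl (.inl i)) 1) = x (.inl (.inr i)) := by
  rw [bf_hyp]
  have h2 : (fun a : ι => (Pi.single (.inl (.inl i)) 1 : Idx q ι → k) (.inr a)) = 0 := by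
    funext a
    simp
  rw [h2, mulVec_zero, dotProduct_zero, add_zero, Finset.sum_eq_single i]
  · simp
  · intro b _ hb
    simp [hb]
  · simp

theorem hyp_single' (q : ℕ) (J₀ : Matrix ι ι k) (x : Idx q ι → k) (i : Fin q) :
    bf (hyp q 1 J₀) x (Pi.single (.inl (.inr i)) 1) = x (.inl (.inl i)) := by
  rw [bf_hyp]
  have h2 : (fun a : ι => (Pi.single (.inl (.inr i)) 1 : Idx q ι → k) (.inr a)) = 0 := by
    funext a
    simp
  rw [h2, mulVec_zero, dotProduct_zero, add_zero, Finset.sum_eq_single i]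
  · simp
  · intro b _ hb
    simp [hb]
  · simp

/-- The conditions on `q` and the anisotropic part. -/
def Dim (q : ℕ) (ι : Type) [Fintype ι] : Prop :=
  (q = 1 ∧ 1 ≤ Fintype.card ι) ∨ 2 ≤ q ∧ 5 ≤ 2 * q + Fintype.card ι

theorem good_hyp {q : ℕ} (hq : Dim q ι) {J₀ : Matrix ι ι k} (h2 : (2 : k) ≠ 0) (hJs : J₀ᵀ = J₀)
    (hJ : Aniso J₀) : Good (hyp q 1 J₀) where
  sym := hyp_transpose q hJs
  det := hyp_det q hJ
  two := h2
  ex := by
    have hq0 : 0 < q := by rcases hq with h | h <;> omega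
    refine ⟨Pi.single (.inl (.inl ⟨0, hq0⟩)) 1, ?_, ?_⟩
    · intro h
      have := congrFun h (.inl (.inl ⟨0, hq0⟩))
      simp at this
    · rw [hyp_single]
      simp
  card := by
    rw [Fintype.card_sum, Fintype.card_sum, Fintype.card_fin]
    rcases hq with h | h <;> omega
  card' := by
    rcases hq with ⟨rfl, h⟩ | h
    · right
      intro x v hx0 hx hv hxv
      exact hyp_one hJs hJ x v hx0 hx hv hxv
    · left
      rw [Fintype.card_sum, Fintype.card_sum, Fintype.card_fin]
      omega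

theorem sl_ext {n : Type} [Fintype n] [DecidableEq n] {g h : SpecialLinearGroup n k}
    (hgh : ∀ x, g.1 *ᵥ x = h.1 *ᵥ x) : g = h := by
  refine Subtype.ext ?_
  ext i j
  have h5 := congrFun (hgh (Pi.single j 1)) i
  simpa using h5

/-- Root elements of two isotropic basis vectors. -/
theorem root2_mem_om {n : Type} [Fintype n] [DecidableEq n] {K : Matrix n n k} (hK : Kᵀ = K)
    {a b a' b' : n} (ha : ∀ x, bf K x (Pi.single a 1) = x a')
    (hb : ∀ x, bf K x (Pi.single b' 1) = x b) (haa : a ≠ a') (hbb : b ≠ b') (h : a ≠ b)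
    (h' : b' ≠ a') (t : k) : root2 h h' t (-t) ∈ Om K := by
  have h1 : bf K (Pi.single a 1) (Pi.single a 1) = 0 := by
    rw [ha, Pi.single_eq_of_ne haa.symm]
  have h2 : bf K (Pi.single a 1) ((-t) • Pi.single b' 1) = 0 := by
    rw [map_smul, hb, Pi.single_eq_of_ne h.symm, smul_zero]
  refine Subgroup.subset_closure ⟨Pi.single a 1, (-t) • Pi.single b' 1, h1, h2, ?_⟩
  have e1 : (⟨psiM K (Pi.single a 1) ((-t) • Pi.single b' 1), det_psiM hK h1 h2⟩ :
      SpecialLinearGroup n k) = root2 h h' t (-t) := by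
    refine sl_ext fun x => ?_
    show psiM K (Pi.single a 1) ((-t) • Pi.single b' 1) *ᵥ x = _
    have hg : (root2 h h' t (-t)).1 = 1 + Matrix.single a b t + Matrix.single b' a' (-t) := by
      show transvection a b t * transvection b' a' (-t) = _
      rw [transvection, transvection, Matrix.add_mul, Matrix.one_mul, Matrix.mul_add,
        Matrix.mul_one, single_mul_single_of_ne _ _ _ _ hbb]
      abel
    rw [psiM_mulVec hK, hg, Matrix.add_mulVec, Matrix.add_mulVec, one_mulVec, ha]
    simp only [map_smul, LinearMap.smul_apply, smul_eq_mul]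
    rw [hb, hb, Pi.single_eq_of_ne hbb, mul_zero, mul_zero, mul_zero, zero_mul, add_zero]
    funext z
    simp only [Pi.add_apply, Pi.sub_apply, Pi.smul_apply, smul_eq_mul, Pi.single_apply,
      Matrix.mulVec, dotProduct, Matrix.single_apply]
    have s1 : ∑ j, (if a = z ∧ b = j then t else 0) * x j = if a = z then t * x b else 0 := by
      by_cases hz : a = z
      · simp [hz]
      · simp [hz]
    have s2 : ∑ j, (if b' = z ∧ a' = j then -t else 0) * x j = if b' = z then -t * x a' else 0 := by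
      by_cases hz : b' = z
      · simp [hz]
      · simp [hz]
    rw [s1, s2]
    by_cases hz : a = z <;> by_cases hz' : b' = z
    · simp only [hz, hz', if_true]; ring
    · simp [hz, hz', Ne.symm hz']
    · simp [hz, hz', Ne.symm hz]; ring
    · simp [hz, hz', Ne.symm hz, Ne.symm hz']
  exact congrArg Subtype.val e1.symm

theorem torF_add (q : ℕ) {w : k} (hw : w ≠ 0) (l l' : Fin q → ℤ) :
    torF q ι hw (l + l') = torF q ι hw l * torF q ι hw l' := by
  apply Subtype.ext
  show diagonal (dgF q ι w (l + l')) = diagonal (dgF q ι w l) * diagonal (dgF q ι w l')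
  rw [diagonal_mul_diagonal]
  congr 1
  funext z
  rcases z with (z | z) | z
  · simp [dgF, zpow_add₀ hw]
  · simp [dgF, zpow_add₀ hw, mul_comm]
  · simp [dgF]

theorem torF_zero (q : ℕ) {w : k} (hw : w ≠ 0) : torF q ι hw (0 : Fin q → ℤ) = 1 := by
  apply Subtype.ext
  show diagonal (dgF q ι w 0) = 1
  rw [← diagonal_one]
  congr 1
  funext z
  rcases z with (z | z) | z <;> simp [dgF]

theorem torF_single_mem {q : ℕ} {J₀ : Matrix ι ι k} (h : Good (hyp q 1 J₀)) {s : k} (hs : s ≠ 0)
    (i : Fin q) : torF q ι (pow_ne_zero 2 hs) (Pi.single i 1) ∈ Om (hyp q 1 J₀) := by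
  have hh : (sysOf h).Hyp (Pi.single (.inl (.inl i)) 1) (Pi.single (.inl (.inr i)) 1) := by
    refine ⟨?_, ?_, ?_⟩
    · show bf (hyp q 1 J₀) _ _ = 0
      rw [hyp_single]
      simp
    · show bf (hyp q 1 J₀) _ _ = 0
      rw [hyp_single']
      simp
    · show bf (hyp q 1 J₀) _ _ = 1
      rw [hyp_single']
      simp
  obtain ⟨_, d, -, -, -, -, hd⟩ := (sysOf h).exists_tor hh hs
  have e : torF q ι (pow_ne_zero 2 hs) (Pi.single i 1) = d.1 := by
    refine sl_ext fun x => ?_
    have h1 : d.1.1 *ᵥ x = x + ((s ^ 2 - 1) * bf (hyp q 1 J₀) x (Pi.single (.inl (.inr i)) 1)) •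
        Pi.single (.inl (.inl i)) 1 + (((s ^ 2)⁻¹ - 1) * bf (hyp q 1 J₀) x
          (Pi.single (.inl (.inl i)) 1)) • Pi.single (.inl (.inr i)) 1 := hd x
    rw [h1, hyp_single, hyp_single']
    show diagonal (dgF q ι (s ^ 2) (Pi.single i 1)) *ᵥ x = _
    funext z
    rw [mulVec_diagonal]
    rcases z with (z | z) | z
    · by_cases hz : z = i
      · subst hz
        simp [dgF]
        ring
      · simp [dgF, hz, Pi.single_apply]
    · by_cases hz : z = i
      · subst hz
        simp [dgF]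
        ring
      · simp [dgF, hz, Pi.single_apply]
    · simp [dgF]
  rw [e]
  exact d.2

/-- The torus of squares lies in `Om`. -/
theorem torF_mem_om {q : ℕ} {J₀ : Matrix ι ι k} (h : Good (hyp q 1 J₀)) {s : k} (hs : s ≠ 0)
    (l : Fin q → ℤ) : torF q ι (pow_ne_zero 2 hs) l ∈ Om (hyp q 1 J₀) := by
  let A : AddSubgroup (Fin q → ℤ) :=
    { carrier := {l | torF q ι (pow_ne_zero 2 hs) l ∈ Om (hyp q 1 J₀)}
      zero_mem' := by
        show torF q ι (pow_ne_zero 2 hs) 0 ∈ Om (hyp q 1 J₀)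
        rw [torF_zero]
        exact Subgroup.one_mem _
      add_mem' := by
        intro a b ha hb
        show torF q ι (pow_ne_zero 2 hs) (a + b) ∈ Om (hyp q 1 J₀)
        rw [torF_add]
        exact Subgroup.mul_mem _ ha hb
      neg_mem' := by
        intro a ha
        show torF q ι (pow_ne_zero 2 hs) (-a) ∈ Om (hyp q 1 J₀)
        have h1 : torF q ι (pow_ne_zero 2 hs) (-a) * torF q ι (pow_ne_zero 2 hs) a = 1 := by
          rw [← torF_add, neg_add_cancel, torF_zero]
        rw [eq_inv_of_mul_eq_one_left h1]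
        exact Subgroup.inv_mem _ ha }
  have h1 : l = ∑ i, l i • Pi.single (M := fun _ => ℤ) i 1 := by
    funext j
    rw [Finset.sum_apply, Finset.sum_eq_single j]
    · simp
    · intro b _ hb
      simp [Pi.single_apply, Ne.symm hb]
    · simp
  have h2 : l ∈ A := by
    rw [h1]
    exact A.sum_mem fun i _ => A.zsmul_mem (torF_single_mem h hs i) _
  exact h2

end alg

section chain

open Vale.Agent.P092.H303 Vale.Agent.P092.H701

variable {ι : Type} [Fintype ι] [DecidableEq ι] {k : Type} [NontriviallyNormedField k]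

theorem up_mem_om {q : ℕ} {J₀ : Matrix ι ι k} (h : Good (hyp (q + 2) 1 J₀)) (j : Fin (q + 2))
    (t : k) : root2 (ra_ne_rb (ι := ι) q j) (ra'_ne_rb' q j).symm t (-t) ∈
      Om (hyp (q + 2) 1 J₀) := by
  refine root2_mem_om h.sym ?_ ?_ (ra_ne_ra' q j) (rb_ne_rb' q j) _ _ t
  · intro x
    by_cases hj : (j : ℕ) = q + 1
    · simp only [ra, ra', hj, if_true]; exact hyp_single _ _ _ _
    · simp only [ra, ra', hj, if_false]; exact hyp_single _ _ _ _
  · intro x
    by_cases hj : (j : ℕ) = q + 1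
    · simp only [rb, rb', hj, dif_pos]; exact hyp_single _ _ _ _
    · simp only [rb, rb', hj, dif_neg, not_false_eq_true]; exact hyp_single' _ _ _ _

theorem lo_mem_om {q : ℕ} {J₀ : Matrix ι ι k} (h : Good (hyp (q + 2) 1 J₀)) (j : Fin (q + 2))
    (t : k) : root2 (ra_ne_rb (ι := ι) q j).symm (ra'_ne_rb' q j) t (-t) ∈
      Om (hyp (q + 2) 1 J₀) := by
  refine root2_mem_om h.sym ?_ ?_ (rb_ne_rb' q j) (ra_ne_ra' q j) _ _ t
  · intro x
    by_cases hj : (j : ℕ) = q + 1
    · simp only [rb, rb', hj, dif_pos]; exact hyp_single' _ _ _ _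
    · simp only [rb, rb', hj, dif_neg, not_false_eq_true]; exact hyp_single _ _ _ _
  · intro x
    by_cases hj : (j : ℕ) = q + 1
    · simp only [ra, ra', hj, if_true]; exact hyp_single' _ _ _ _
    · simp only [ra, ra', hj, if_false]; exact hyp_single' _ _ _ _

/-- The row pair of the `j`-th root. -/
def omRow {q : ℕ} {J₀ : Matrix ι ι k} (h : Good (hyp (q + 2) 1 J₀)) (j : Fin (q + 2)) :
    RowPair (Om (hyp (q + 2) 1 J₀)) k (Idx (q + 2) ι → k) where
  ρ₁ x := x.1.1 (ra q ι j)
  ρ₂ x := x.1.1 (rb q ι j)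
  cont₁ := continuous_frow _
  cont₂ := continuous_frow _
  ne x := lt_max_of_lt_left (frow_pos x.1 _)
  up t := ⟨_, up_mem_om h j t⟩
  lo t := ⟨_, lo_mem_om h j t⟩
  cont_up := (continuous_root2 _ _ continuous_id (by fun_prop)).subtype_mk _
  cont_lo := (continuous_root2 _ _ continuous_id (by fun_prop)).subtype_mk _
  up₁ t x := root2_row_a (ra_ne_rb q j) (ra'_ne_rb' q j).symm t (-t)
    (ra_ne_rb' q j) (rb_ne_rb' q j) x.1
  up₂ t x := root2_row_b (ra_ne_rb q j) (ra'_ne_rb' q j).symm t (-t)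
    (rb_ne_rb' q j) x.1
  lo₁ t x := root2_row_b (ra_ne_rb q j).symm (ra'_ne_rb' q j) t (-t)
    (ra_ne_ra' q j) x.1
  lo₂ t x := root2_row_a (ra_ne_rb q j).symm (ra'_ne_rb' q j) t (-t)
    (rb_ne_ra' q j) (ra_ne_ra' q j) x.1

/-- **The group has a chain of length `q + 2`.** -/
noncomputable def omChain {q : ℕ} {J₀ : Matrix ι ι k} (h : Good (hyp (q + 2) 1 J₀)) [ProperSpace k]
    {s : k} (hs1 : 1 < ‖s ^ 2‖) (hs : s ≠ 0)
    [MeasurableSpace (Om (hyp (q + 2) 1 J₀))]
    [OpensMeasurableSpace (Om (hyp (q + 2) 1 J₀))] :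
    HChain (Om (hyp (q + 2) 1 J₀)) (q + 2) :=
  have hw : s ^ 2 ≠ 0 := pow_ne_zero 2 hs
  { b := fun j N => ⟨torF (q + 2) ι hw (lam q j), torF_mem_om h hs _⟩ ^ N
    K := fun j => (omRow h j).K
    compact := fun j => RowPair.isCompact_K _
    comm_b := fun i j _ N M => by
      apply Subtype.ext
      exact (torF_comm (q + 2) hw (lam q i) (lam q j)).pow_pow N M
    comm_K := by
      intro i j hij N x hx
      have e := dg_eq (ι := ι) q (s ^ 2) hij
      have e' : dgF (q + 2) ι (s ^ 2) (lam q i) (ra' q ι j) =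
          dgF (q + 2) ι (s ^ 2) (lam q i) (rb' q ι j) := by
        rw [dg_ra q hw, dg_rb q hw, e]
      rcases hx with ⟨t, -, rfl⟩ | ⟨t, -, rfl⟩
      · have h : Commute (⟨torF (q + 2) ι hw (lam q i), torF_mem_om h hs _⟩ :
            Om (hyp (q + 2) 1 J₀)) ((omRow h j).up t) := by
          apply Subtype.ext
          exact torF_root2 (q + 2) hw (lam q i) (ra_ne_rb q j) (ra'_ne_rb' q j).symm e e'.symm
            t (-t)
        exact h.pow_left N
      · have h : Commute (⟨torF (q + 2) ι hw (lam q i), torF_mem_om h hs _⟩ :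
            Om (hyp (q + 2) 1 J₀)) ((omRow h j).lo t) := by
          apply Subtype.ext
          exact torF_root2 (q + 2) hw (lam q i) (ra_ne_rb q j).symm (ra'_ne_rb' q j) e.symm e'
            t (-t)
        exact h.pow_left N
    pp := by
      intro j p
      obtain ⟨e, e1, e2, he⟩ := dg_ratio (ι := ι) q (s ^ 2) j
      refine RowPair.pp (omRow h j)
        (fun N => ⟨torF (q + 2) ι hw (lam q j), torF_mem_om h hs _⟩ ^ N)
        (fun N => (s ^ 2) ^ N) (fun N => ((s ^ 2) ^ (-e)) ^ N)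
        (fun N x => ?_) (fun N x => ?_) ?_ ?_ p
      · have := torF_pow_row (q + 2) hw (lam q j) (ra q ι j) N x.1
        rw [e1] at this
        exact this
      · have := torF_pow_row (q + 2) hw (lam q j) (rb q ι j) N x.1
        rw [e2] at this
        exact this
      · intro N
        exact pow_ne_zero _ hw
      · intro C
        obtain ⟨N₀, hN₀⟩ := pow_unbounded_of_one_lt C hs1
        refine ⟨N₀, fun N hN => ?_⟩
        have h1 : C ≤ ‖(s ^ 2)‖ ^ N := hN₀.le.trans (pow_le_pow_right₀ hs1.le hN)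
        have h2 : (‖(s ^ 2)‖ ^ (-e)) ^ N ≤ 1 :=
          pow_le_one₀ (by positivity) (zpow_le_one_of_nonpos₀ hs1.le (by omega))
        have h4 : (0 : ℝ) ≤ (‖(s ^ 2)‖ ^ (-e)) ^ N := by positivity
        have h5 : (0 : ℝ) ≤ ‖(s ^ 2)‖ ^ N := by positivity
        rw [norm_pow ((s ^ 2) ^ (-e)), norm_pow (s ^ 2) N, norm_zpow]
        calc C * (‖(s ^ 2)‖ ^ (-e)) ^ N ≤ ‖(s ^ 2)‖ ^ N * (‖(s ^ 2)‖ ^ (-e)) ^ N :=
              mul_le_mul_of_nonneg_right h1 h4
          _ ≤ ‖(s ^ 2)‖ ^ N * 1 := mul_le_mul_of_nonneg_left h2 h5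
          _ = _ := mul_one _ }

end chain

end Vale.Agent.P092.H899.Ort
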