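import Vale.Agent.P092.H899.G4
import Vale.Agent.P092.CL.Lt

/-!
P092 (helper899), block [CL-TGT], part 5: attracting point and attracting maximal singular subspace
in the letters of `CL/Lt`; they are attracting (`AttS`), stability.
-/

set_option linter.all false

open Matrix Topology Module Set Filter

namespace Vale.Agent.P092.H899.G

open Vale.Agent.P092.H100.Gr (Gr)
open Vale.Agent.P092.H899.T (Nr)
open Vale.Agent.P092.H370.Po
open Vale.Agent.P092.H303 (FormGroup)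
open Vale.Agent.P092.H714.Cl
open Vale.Agent.P092.H933 (LocK)
open Vale.Agent.P092.CL (ta nmM NW1 NWr AttS scal)

section mat

variable {k : Type} [NontriviallyNormedField k] {n : Type} [Fintype n] [DecidableEq n]
  {σ : k →+* k} {ε : k} {J : Matrix n n k}

theorem ta_mul (g h : SpecialLinearGroup n k) : ta (g * h) = ta g * ta h := by
  have e : (g * h)⁻¹ = h⁻¹ * g⁻¹ := _root_.mul_inv_rev g h
  change ((g * h)⁻¹).1ᵀ = _
  rw [e]
  change (h⁻¹.1 * g⁻¹.1)ᵀ = _
  rw [transpose_mul]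
  rfl

theorem ta_one : ta (1 : SpecialLinearGroup n k) = 1 := by
  change ((1 : SpecialLinearGroup n k)⁻¹).1ᵀ = 1
  rw [inv_one]
  exact transpose_one

theorem ta_inv (g : SpecialLinearGroup n k) : ta g⁻¹ * ta g = 1 := by
  rw [← ta_mul, inv_mul_cancel, ta_one]

theorem ta_inv' (g : SpecialLinearGroup n k) : ta g * ta g⁻¹ = 1 := by
  rw [← ta_mul, mul_inv_cancel, ta_one]

theorem ta_det (g : SpecialLinearGroup n k) : (ta g).det = 1 := by
  unfold ta
  rw [det_transpose]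
  exact (g⁻¹).2

theorem ta_mulVec (g : SpecialLinearGroup n k) (x : n → k) : ta g *ᵥ x = x ᵥ* (g⁻¹).1 := by
  unfold ta
  rw [mulVec_transpose]

theorem pres_ta {g : SpecialLinearGroup n k} (hg : g ∈ FormGroup σ J) : Pres σ J (ta g) := by
  intro x y
  rw [ta_mulVec, ta_mulVec]
  exact H714.Cl.mem_formGroup.1 (inv_mem hg) x y

theorem smul_map {j : ℕ} (g : FormGroup σ J) (X : SGr σ J j) :
    (g • X).S = X.S.map (ta g.1).mulVecLin := by
  rw [smul_S]
  ext y
  rw [mem_act, Submodule.mem_map]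
  constructor
  · rintro ⟨x, hx, rfl⟩
    exact ⟨x, hx, by rw [mulVecLin_apply, ta_mulVec]⟩
  · rintro ⟨x, hx, rfl⟩
    exact ⟨x, hx, by rw [mulVecLin_apply, ta_mulVec]⟩

theorem ent_le (A : Matrix n n k) (i j : n) : ‖A i j‖ ≤ nmM A :=
  (norm_le_pi_norm (fun j => A i j) j).trans (norm_le_pi_norm (fun i j => A i j : n → n → k) i)

theorem nmM_nonneg (A : Matrix n n k) : 0 ≤ nmM A := norm_nonneg _

theorem nmM_le {A : Matrix n n k} {r : ℝ} (hr : 0 ≤ r) (h : ∀ i j, ‖A i j‖ ≤ r) : nmM A ≤ r := by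
  unfold nmM
  rw [pi_norm_le_iff_of_nonneg hr]
  intro i
  rw [pi_norm_le_iff_of_nonneg hr]
  exact h i

theorem nmM_mul (A B : Matrix n n k) : nmM (A * B) ≤ Fintype.card n * (nmM A * nmM B) := by
  refine nmM_le (mul_nonneg (Nat.cast_nonneg _) (mul_nonneg (nmM_nonneg _) (nmM_nonneg _)))
    fun i j => ?_
  rw [Matrix.mul_apply]
  calc ‖∑ l, A i l * B l j‖ ≤ ∑ _l : n, nmM A * nmM B := by
        refine (norm_sum_le _ _).trans (Finset.sum_le_sum fun l _ => ?_)
        rw [norm_mul]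
        exact mul_le_mul (ent_le _ _ _) (ent_le _ _ _) (norm_nonneg _) (nmM_nonneg _)
    _ = _ := by rw [Finset.sum_const, Finset.card_univ, nsmul_eq_mul]

theorem nmM_smul {t : k} (ht : ‖t‖ = 1) (A : Matrix n n k) : nmM (t • A) = nmM A := by
  have key : ∀ (t : k) (A : Matrix n n k), ‖t‖ = 1 → nmM (t • A) ≤ nmM A := fun t A ht =>
    nmM_le (nmM_nonneg _) fun i j => by
      rw [Matrix.smul_apply, smul_eq_mul, norm_mul, ht, one_mul]
      exact ent_le _ _ _
  refine le_antisymm (key t A ht) ?_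
  have h0 : t ≠ 0 := norm_pos_iff.1 (by rw [ht]; exact one_pos)
  have h1 := key t⁻¹ (t • A) (by rw [norm_inv, ht, inv_one])
  rwa [smul_smul, inv_mul_cancel₀ h0, one_smul] at h1

end mat

section att

variable {k : Type} [NontriviallyNormedField k] [ProperSpace k] {n : Type} [Fintype n]
  [DecidableEq n] {σ : k →+* k} {ε : k} {J : Matrix n n k}

/-- **The attracting point of an isometry near the wall of points.** -/
theorem exists_at1 (hk : LocK k) (hσ : ∀ x, ‖σ x‖ = ‖x‖) (h2 : 2 ≤ Fintype.card n) (R : ℝ)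
    {δ : ℝ} (hδ : 0 < δ) : ∃ T : ℝ, ∀ z : Matrix n n k, z.det = 1 → Pres σ J z → NW1 R z →
      T ≤ nmM z → ∃ X : SGr σ J 1, AtL δ 1 z X.S := by
  have : Nonempty n := Fintype.card_pos_iff.1 (by omega)
  obtain ⟨C, hC, hdec⟩ := exists_decI hk (ι := n)
  obtain ⟨Q, hQ⟩ : ∃ Q : ℝ, Q = (Fintype.card n * C) ^ 2 * ((Fintype.card n * C) ^ 2 * (max R 1)) *
    (Fintype.card n * C ^ 2) + 1 := ⟨_, rfl⟩
  have hR1 : 1 ≤ max R 1 := le_max_right _ _
  have hQ1 : 1 ≤ Q := by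
    rw [hQ]
    have : 0 ≤ (Fintype.card n * C) ^ 2 * ((Fintype.card n * C) ^ 2 * (max R 1)) *
      (Fintype.card n * C ^ 2) := by positivity
    linarith
  obtain ⟨T, hT⟩ := exists_at_dec (N := Fintype.card n) hσ J hC le_rfl (by omega) Q hδ
  refine ⟨Fintype.card n * C ^ 2 * (|T| + 1), fun z hz hP hN hnm => ?_⟩
  obtain ⟨κ, κi, κ', κi', a, h⟩ := hdec z hz
  have hc0 : (0 : ℝ) < Fintype.card n := by
    have : 0 < Fintype.card n := by omega
    exact_mod_cast this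
  have hC0 : 0 < C := by linarith
  have hz1 : nmM z ≤ Fintype.card n * C ^ 2 * ‖a ⟨0, by omega⟩‖ :=
    nmM_le (by positivity) fun i j => h.z_le hC0.le (by omega) i j
  have ha0 : |T| + 1 ≤ ‖a ⟨0, by omega⟩‖ :=
    le_of_mul_le_mul_left (hnm.trans hz1) (by positivity)
  have hpos : 0 < ‖a ⟨0, by omega⟩‖ := by
    have := abs_nonneg T
    linarith
  refine hT z κ κi κ' κi' a h hP ?_ (fun i hi => ?_) ?_
  · have : ‖a ⟨0, by omega⟩‖ ≤ Q * ‖a ⟨0, by omega⟩‖ := by nlinarith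
    exact this
  · have h1 : ‖a i‖ ≤ ‖a ⟨1, by omega⟩‖ := h.anti (Fin.le_def.2 hi)
    have h3 := h.a2_le hC0.le (show 1 < Fintype.card n by omega)
      (M := max R 1 * (Fintype.card n * C ^ 2 * ‖a ⟨0, by omega⟩‖)) (fun i i' j j' => by
        have e : mi2 z i i' j j' = z i j * z i' j' - z i' j * z i j' := by
          unfold mi2
          ring
        rw [e]
        refine (hN i i' j j').trans ?_
        exact mul_le_mul (le_max_left _ _) hz1 (nmM_nonneg _) (by linarith))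
    have h4 : ‖a ⟨0, by omega⟩‖ * ‖a ⟨1, by omega⟩‖ ≤ ‖a ⟨0, by omega⟩‖ * (Q - 1) := by
      refine h3.trans (le_of_eq ?_)
      rw [hQ]
      ring
    have h5 := le_of_mul_le_mul_left h4 hpos
    linarith
  · have := le_abs_self T
    linarith

/-- singular values beyond the Witt index are bounded -/
theorem exists_top_bound (hσ : ∀ x, ‖σ x‖ = ‖x‖) {r : ℕ}
    (hW : ∀ Y, Sing σ J Y → finrank k Y ≤ r) {N : ℕ} {C : ℝ} (hC : 1 ≤ C) (hr : r < N) :
    ∃ B : ℝ, ∀ (z : Matrix n n k) (κ : Matrix n (Fin N) k) (κi κ' : Matrix (Fin N) n k)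
      (κi' : Matrix n (Fin N) k) (a : Fin N → k), DecI C z κ κi κ' κi' a → Pres σ J z →
      ‖a ⟨r, hr⟩‖ ≤ B := by
  obtain ⟨B, hB, hBf⟩ := hf_bd hσ J
  obtain ⟨K, hK⟩ : ∃ K : ℝ, K = (N + Fintype.card n) * C := ⟨_, rfl⟩
  have hN1 : (1 : ℝ) ≤ N := by
    have : 1 ≤ N := by omega
    exact_mod_cast this
  have hK1 : 1 ≤ K := by
    rw [hK]
    have : (0 : ℝ) ≤ Fintype.card n := Nat.cast_nonneg _
    nlinarith
  obtain ⟨η, hη, hsing⟩ := near_sing hσ J (r + 1) one_pos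
  refine ⟨K ^ 2 * ((B + 1) / η + 1), fun z κ κi κ' κi' a h hP => ?_⟩
  by_contra hcon
  push Not at hcon
  obtain ⟨V, hV, hVc, A, hA, hAn, hAz⟩ := h.exists_V (by linarith) hK1 hK
    (show 1 ≤ r + 1 by omega) hr
  obtain ⟨c, hc⟩ : ∃ c : ℝ, c = ‖a ⟨r + 1 - 1, by omega⟩‖ / K ^ 2 := ⟨_, rfl⟩
  rw [← hc] at hVc
  have hc1 : (B + 1) / η + 1 < c := by
    rw [hc, lt_div_iff₀ (by positivity), mul_comm]
    exact hcon
  have hLd : finrank k (V.map z.mulVecLin) = r + 1 := by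
    rw [← hV]
    exact (LinearEquiv.finrank_eq (Submodule.equivMapOfInjective _ h.inj V)).symm
  obtain ⟨X, hX⟩ := hsing ⟨V.map z.mulVecLin, hLd⟩ (by
    rintro _ ⟨x, hx, rfl⟩ _ ⟨y, hy, rfl⟩
    rw [mulVecLin_apply, mulVecLin_apply, hP]
    have b1 := hVc x hx
    have b2 := hVc y hy
    have b0 : 0 ≤ (B + 1) / η := by positivity
    have hc0 : 0 < c := by linarith
    have b3 : B ≤ η * c * c := by
      have e1 : 1 ≤ c := by linarith
      have e2 : (B + 1) / η ≤ c := by linarith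
      rw [div_le_iff₀ hη] at e2
      nlinarith
    calc ‖hf σ J x y‖ ≤ B * (‖x‖ * ‖y‖) := hBf x y
      _ ≤ η * c * c * (‖x‖ * ‖y‖) := by gcongr
      _ = η * ((c * ‖x‖) * (c * ‖y‖)) := by ring
      _ ≤ _ := by gcongr)
  have := hW X.S X.sing
  rw [X.dim] at this
  omega

/-- **The attracting maximal singular subspace of an isometry near its wall.** -/
theorem exists_atr (hk : LocK k) (hσ : ∀ x, ‖σ x‖ = ‖x‖) {r : ℕ} (hr : 1 ≤ r) (hW : WI σ J r)
    (R : ℝ) {δ : ℝ} (hδ : 0 < δ) : ∃ T : ℝ, ∀ z : Matrix n n k, z.det = 1 → Pres σ J z →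
      NWr r R z → T ≤ nmM z → ∃ X : SGr σ J r, AtL δ r z X.S := by
  have hrn : r ≤ Fintype.card n := by
    obtain ⟨⟨Y, hY, hd⟩, -⟩ := hW
    have := Submodule.finrank_le Y
    rwa [hd, Module.finrank_fintype_fun_eq_card] at this
  have : Nonempty n := Fintype.card_pos_iff.1 (by omega)
  obtain ⟨C, hC, hdec⟩ := exists_decI hk (ι := n)
  have hc0 : (0 : ℝ) < Fintype.card n := by
    have : 0 < Fintype.card n := by omega
    exact_mod_cast this
  have hC0 : 0 < C := by linarith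
  obtain ⟨B, hB⟩ : ∃ B : ℝ, ∀ (z : Matrix n n k) κ κi κ' κi' (a : Fin (Fintype.card n) → k),
      DecI C z κ κi κ' κi' a → Pres σ J z → ∀ i : Fin (Fintype.card n), r ≤ (i : ℕ) →
        ‖a i‖ ≤ B := by
    by_cases h : r < Fintype.card n
    · obtain ⟨B, hB⟩ := exists_top_bound (N := Fintype.card n) hσ hW.2 hC h
      exact ⟨B, fun z κ κi κ' κi' a hd hP i hi =>
        (hd.anti (show (⟨r, h⟩ : Fin (Fintype.card n)) ≤ i from hi)).trans
          (hB z κ κi κ' κi' a hd hP)⟩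
    · exact ⟨0, fun z κ κi κ' κi' a hd hP i hi => absurd (lt_of_le_of_lt hi i.2) h⟩
  obtain ⟨Q, hQ⟩ : ∃ Q : ℝ, Q = max B ((Fintype.card n * C) ^ 2 * (max R 1 *
    ((Fintype.card n * C) * (Fintype.card n * C)))) := ⟨_, rfl⟩
  obtain ⟨T, hT⟩ := exists_at_dec (N := Fintype.card n) hσ J hC hr hrn Q hδ
  refine ⟨Fintype.card n * C ^ 2 * (|T| + 1), fun z hz hP hN hnm => ?_⟩
  obtain ⟨κ, κi, κ', κi', a, h⟩ := hdec z hz
  have hz1 : nmM z ≤ Fintype.card n * C ^ 2 * ‖a ⟨0, by omega⟩‖ :=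
    nmM_le (by positivity) fun i j => h.z_le hC0.le (by omega) i j
  have ha0 : |T| + 1 ≤ ‖a ⟨0, by omega⟩‖ :=
    le_of_mul_le_mul_left (hnm.trans hz1) (by positivity)
  have hTa := le_abs_self T
  have hTn := abs_nonneg T
  refine hT z κ κi κ' κi' a h hP ?_ (fun i hi => (hB z κ κi κ' κi' a h hP i hi).trans
    (hQ ▸ le_max_left _ _)) (by linarith)
  -- the first and the `r`-th singular value
  have h1 := h.a_le hC0.le (nmM_nonneg z) (ent_le z) ⟨0, by omega⟩
  have hadp : 0 < ‖a ⟨r - 1, by omega⟩‖ := norm_pos_iff.2 (h.ne _)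
  have hnm0 : 0 < nmM z := by
    refine lt_of_lt_of_le ?_ hnm
    positivity
  have h3 : nmM z ≤ max R 1 * ((Fintype.card n * C) * (Fintype.card n * C)) *
      ‖a ⟨r - 1, by omega⟩‖ := by
    obtain ⟨V, hV, hVn⟩ := hN
    have hR1 : 0 < max R 1 := lt_of_lt_of_le one_pos (le_max_right _ _)
    have h2 := h.xp_le hC0.le hr hrn (c := nmM z / max R 1) ⟨V, hV, fun v hv => by
      rw [div_mul_eq_mul_div, div_le_iff₀ hR1]
      refine (hVn v hv).trans ?_
      rw [mul_comm]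
      exact mul_le_mul_of_nonneg_left (le_max_left _ _) (norm_nonneg _)⟩
    rw [div_le_iff₀ hR1] at h2
    refine h2.trans (le_of_eq ?_)
    ring
  calc ‖a ⟨0, by omega⟩‖ ≤ (Fintype.card n * C) ^ 2 * nmM z := h1
    _ ≤ (Fintype.card n * C) ^ 2 * (max R 1 * ((Fintype.card n * C) * (Fintype.card n * C)) *
      ‖a ⟨r - 1, by omega⟩‖) := by gcongr
    _ = (Fintype.card n * C) ^ 2 * (max R 1 * ((Fintype.card n * C) * (Fintype.card n * C))) *
      ‖a ⟨r - 1, by omega⟩‖ := by ring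
    _ ≤ Q * ‖a ⟨r - 1, by omega⟩‖ := by
        gcongr
        exact hQ ▸ le_max_right _ _

end att

end Vale.Agent.P092.H899.G
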