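import Vale.Agent.P092.SP.Defs

/-!
P092, Team P, block [P-SRC] (helper899), part 1: the source geometry of `Sp_4(k)`: the stabiliser
of the base point (line) is `Cen b · Ctr`, for the wall elements `B1 w`, `B2 w`, their inverses and
the opposite point (line).
-/

set_option linter.all false

open Matrix Topology Module Set Filter

namespace Vale.Agent.P092.H899.P

open Vale.Agent.P092.SP4
open Vale.Agent.P092.SP (B1 B2 l0 mem_l0)
open Vale.Agent.P092.RC (YY y0)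

section grp

variable {k : Type} [NontriviallyNormedField k]

theorem pow_diag {b : S4 k} {d : Fin 4 → k} (hb : b.1.1 = diagonal d) (N : ℕ) :
    (b ^ N).1.1 = diagonal fun i => d i ^ N := by
  induction N with
  | zero =>
    rw [pow_zero]
    change (1 : Matrix (Fin 4) (Fin 4) k) = _
    simp
  | succ N ih =>
    rw [pow_succ]
    change (b ^ N).1.1 * b.1.1 = _
    rw [ih, hb, diagonal_mul_diagonal]
    congr 1
    funext i
    rw [pow_succ]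

theorem inv_diag {b : S4 k} {d : Fin 4 → k} (hd : ∀ i, d i ≠ 0) (hb : b.1.1 = diagonal d) :
    (b⁻¹).1.1 = diagonal fun i => (d i)⁻¹ := by
  have h1 : (b⁻¹).1.1 * b.1.1 = 1 := congrArg (fun x : S4 k => x.1.1) (inv_mul_cancel b)
  have h2 : b.1.1 * diagonal (fun i => (d i)⁻¹) = 1 := by
    rw [hb, diagonal_mul_diagonal, ← diagonal_one]
    congr 1
    funext i
    exact mul_inv_cancel₀ (hd i)
  calc (b⁻¹).1.1 = (b⁻¹).1.1 * (b.1.1 * diagonal (fun i => (d i)⁻¹)) := by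
        rw [h2, Matrix.mul_one]
    _ = _ := by rw [← Matrix.mul_assoc, h1, Matrix.one_mul]

/-- The entries of the conjugates. -/
theorem conj_entry {b : S4 k} {d : Fin 4 → k} (hd : ∀ i, d i ≠ 0) (hb : b.1.1 = diagonal d)
    (g : S4 k) (N : ℕ) (i j : Fin 4) :
    ((b ^ N)⁻¹ * g * b ^ N).1.1 i j = (d i ^ N)⁻¹ * g.1.1 i j * d j ^ N := by
  have h1 := inv_diag (fun i => pow_ne_zero N (hd i)) (pow_diag hb N)
  change (((b ^ N)⁻¹).1.1 * g.1.1 * (b ^ N).1.1) i j = _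
  rw [h1, pow_diag hb N, mul_diagonal, diagonal_mul]

/-- Convergence in `Sp_4(k)` is convergence of the entries. -/
theorem tendsto_S4 {ι : Type*} {l : Filter ι} {g : ι → S4 k} {g₀ : S4 k}
    (h : ∀ i j, Tendsto (fun N => (g N).1.1 i j) l (𝓝 (g₀.1.1 i j))) : Tendsto g l (𝓝 g₀) := by
  rw [tendsto_subtype_rng]
  exact H714.Cl.tendsto_SL (tendsto_pi_nhds.2 fun i => tendsto_pi_nhds.2 fun j => h i j)

/-- **The parabolic decomposition.** -/
theorem par {b g : S4 k} {d : Fin 4 → k} (hd : ∀ i, d i ≠ 0) (hb : b.1.1 = diagonal d)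
    (h : ∀ i j, g.1.1 i j = 0 ∨ ‖d j‖ < ‖d i‖ ∨ d j = d i) :
    ∃ v n : S4 k, g = v * n ∧ v * b = b * v ∧
      Tendsto (fun N : ℕ => (b ^ N)⁻¹ * n * b ^ N) atTop (𝓝 1) := by
  classical
  obtain ⟨M, hM⟩ : ∃ M : Matrix (Fin 4) (Fin 4) k,
      M = of fun i j => if d j = d i then g.1.1 i j else 0 := ⟨_, rfl⟩
  have hMe : ∀ i j, M i j = if d j = d i then g.1.1 i j else 0 := fun i j => by rw [hM]; rfl
  -- the limits of the entries
  have hlim : ∀ i j, Tendsto (fun N : ℕ => ((b ^ N)⁻¹ * g * b ^ N).1.1 i j) atTop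
      (𝓝 (M i j)) := by
    intro i j
    simp only [conj_entry hd hb]
    rw [hMe]
    by_cases h2 : d j = d i
    · rw [if_pos h2]
      refine tendsto_const_nhds.congr fun N => ?_
      rw [h2]
      have := pow_ne_zero N (hd i)
      field_simp
    · rw [if_neg h2]
      rcases h i j with h1 | h1 | h1
      · simp only [h1, mul_zero, zero_mul]
        exact tendsto_const_nhds
      · have h3 : Tendsto (fun N : ℕ => g.1.1 i j * (d j / d i) ^ N) atTop (𝓝 (g.1.1 i j * 0)) := by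
          refine Tendsto.const_mul _ (tendsto_pow_atTop_nhds_zero_of_norm_lt_one ?_)
          rw [norm_div, div_lt_one (norm_pos_iff.2 (hd i))]
          exact h1
        rw [mul_zero] at h3
        refine h3.congr fun N => ?_
        rw [div_pow]
        ring
      · exact absurd h1 h2
  have hlimM : Tendsto (fun N : ℕ => ((b ^ N)⁻¹ * g * b ^ N).1.1) atTop (𝓝 M) :=
    tendsto_pi_nhds.2 fun i => tendsto_pi_nhds.2 fun j => hlim i j
  have hdet : M.det = 1 := by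
    have h1 : Tendsto (fun N : ℕ => ((b ^ N)⁻¹ * g * b ^ N).1.1.det) atTop (𝓝 M.det) :=
      ((continuous_id.matrix_det).tendsto M).comp hlimM
    have h2 : (fun N : ℕ => ((b ^ N)⁻¹ * g * b ^ N).1.1.det) = fun _ => (1 : k) :=
      funext fun N => ((b ^ N)⁻¹ * g * b ^ N).1.2
    rw [h2] at h1
    exact tendsto_nhds_unique h1 tendsto_const_nhds
  have hsp : M * J4 k * Mᵀ = J4 k := by
    have h1 : Continuous fun A : Matrix (Fin 4) (Fin 4) k => A * J4 k * Aᵀ := by fun_prop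
    have h2 := (h1.tendsto M).comp hlimM
    have h3 : (fun A : Matrix (Fin 4) (Fin 4) k => A * J4 k * Aᵀ) ∘
        (fun N : ℕ => ((b ^ N)⁻¹ * g * b ^ N).1.1) = fun _ => J4 k :=
      funext fun N => mem_S4.1 ((b ^ N)⁻¹ * g * b ^ N).2
    rw [h3] at h2
    exact tendsto_nhds_unique h2 tendsto_const_nhds
  obtain ⟨v, hv⟩ : ∃ v : S4 k, v = ⟨⟨M, hdet⟩, mem_S4.2 hsp⟩ := ⟨_, rfl⟩
  have hvM : v.1.1 = M := by rw [hv]
  have hvt : Tendsto (fun N : ℕ => (b ^ N)⁻¹ * g * b ^ N) atTop (𝓝 v) := by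
    refine tendsto_S4 fun i j => ?_
    rw [hvM]
    exact hlim i j
  have hvb : v * b = b * v := by
    refine Subtype.ext (Subtype.ext ?_)
    change v.1.1 * b.1.1 = b.1.1 * v.1.1
    rw [hvM, hb]
    ext i j
    rw [mul_diagonal, diagonal_mul, hMe]
    by_cases h2 : d j = d i
    · rw [if_pos h2, h2, mul_comm]
    · rw [if_neg h2, mul_zero, zero_mul]
  refine ⟨v, v⁻¹ * g, by rw [mul_inv_cancel_left], hvb, ?_⟩
  have hc : Commute v b := hvb
  have e : (fun N : ℕ => (b ^ N)⁻¹ * (v⁻¹ * g) * b ^ N) =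
      fun N : ℕ => v⁻¹ * ((b ^ N)⁻¹ * g * b ^ N) := by
    funext N
    have h1 : Commute v⁻¹ (b ^ N)⁻¹ := ((hc.inv_left).pow_right N).inv_right
    calc (b ^ N)⁻¹ * (v⁻¹ * g) * b ^ N = ((b ^ N)⁻¹ * v⁻¹) * g * b ^ N := by group
      _ = (v⁻¹ * (b ^ N)⁻¹) * g * b ^ N := by rw [h1.eq]
      _ = _ := by group
  rw [e, ← inv_mul_cancel v]
  exact hvt.const_mul v⁻¹

end grp

section stab

variable {k : Type} [NontriviallyNormedField k]

/-- the diagonal of `B1 w` -/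
def d1 (w : kˣ) : Fin 4 → k := ![((w⁻¹ : kˣ) : k), 1, 1, (w : k)]

/-- the diagonal of `B2 w` -/
def d2 (w : kˣ) : Fin 4 → k := ![((w⁻¹ : kˣ) : k), ((w⁻¹ : kˣ) : k), (w : k), (w : k)]

theorem B1_diag (w : kˣ) : (B1 w).1.1 = diagonal (d1 w) := rfl

theorem B2_diag (w : kˣ) : (B2 w).1.1 = diagonal (d2 w) := rfl

theorem d1_ne (w : kˣ) (i : Fin 4) : d1 w i ≠ 0 := by
  fin_cases i <;> simp [d1]

theorem d2_ne (w : kˣ) (i : Fin 4) : d2 w i ≠ 0 := by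
  fin_cases i <;> simp [d2]

/-- the opposite base point -/
noncomputable def y3 : YY k 3 := Projectivization.mk k (Pi.single 3 1) (by
  intro h
  have := congrFun h 3
  simp at this)

/-- the first column of the stabiliser of `y0` -/
theorem col_of_y0 {g : S4 k} (h : g • (y0 : YY k 3) = y0) :
    g.1.1 1 0 = 0 ∧ g.1.1 2 0 = 0 ∧ g.1.1 3 0 = 0 := by
  rw [smul_YY] at h
  have h1 : Projectivization.mk k (g.1 • (Pi.single 0 1 : Fin 4 → k)) _ =
      Projectivization.mk k (Pi.single 0 1 : Fin 4 → k) _ := h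
  obtain ⟨a, ha⟩ := (Projectivization.mk_eq_mk_iff k _ _ _ _).1 h1
  have h2 : ∀ i, i ≠ 0 → g.1.1 i 0 = 0 := by
    intro i hi
    have h3 := congrFun ha i
    have h4 : (g.1 • (Pi.single 0 1 : Fin 4 → k)) i = g.1.1 i 0 := by
      change (g.1.1 *ᵥ (Pi.single 0 1 : Fin 4 → k)) i = _
      rw [mulVec_single_one]
      rfl
    rw [← h4, ← h3]
    simp [Units.smul_def, hi]
  exact ⟨h2 1 (by decide), h2 2 (by decide), h2 3 (by decide)⟩

theorem col_of_y3 {g : S4 k} (h : g • (y3 : YY k 3) = y3) :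
    g.1.1 0 3 = 0 ∧ g.1.1 1 3 = 0 ∧ g.1.1 2 3 = 0 := by
  rw [smul_YY] at h
  have h1 : Projectivization.mk k (g.1 • (Pi.single 3 1 : Fin 4 → k)) _ =
      Projectivization.mk k (Pi.single 3 1 : Fin 4 → k) _ := h
  obtain ⟨a, ha⟩ := (Projectivization.mk_eq_mk_iff k _ _ _ _).1 h1
  have h2 : ∀ i, i ≠ 3 → g.1.1 i 3 = 0 := by
    intro i hi
    have h3 := congrFun ha i
    have h4 : (g.1 • (Pi.single 3 1 : Fin 4 → k)) i = g.1.1 i 3 := by
      change (g.1.1 *ᵥ (Pi.single 3 1 : Fin 4 → k)) i = _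
      rw [mulVec_single_one]
      rfl
    rw [← h4, ← h3]
    simp [Units.smul_def, hi]
  exact ⟨h2 0 (by decide), h2 1 (by decide), h2 2 (by decide)⟩

/-- columns: the form -/
theorem om_col (g : S4 k) (i j : Fin 4) :
    g.1.1 0 i * g.1.1 3 j + g.1.1 1 i * g.1.1 2 j - g.1.1 2 i * g.1.1 1 j - g.1.1 3 i * g.1.1 0 j =
      om (Pi.single i 1 : Fin 4 → k) (Pi.single j 1) := by
  rw [← om_mulVec g.2, mulVec_single_one, mulVec_single_one, om_eq]
  rfl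

theorem det_col {g : S4 k} (h1 : g.1.1 1 0 = 0) (h2 : g.1.1 2 0 = 0) (h3 : g.1.1 3 0 = 0) :
    g.1.1 3 1 = 0 ∧ g.1.1 3 2 = 0 := by
  have e3 := om_col g 0 3
  have e1 := om_col g 0 1
  have e2 := om_col g 0 2
  rw [om_eq] at e1 e2 e3
  simp [h1, h2, h3] at e1 e2 e3
  have h0 : g.1.1 0 0 ≠ 0 := fun h0 => by
    rw [h0, zero_mul] at e3
    exact zero_ne_one e3
  exact ⟨e1.resolve_left h0, e2.resolve_left h0⟩

theorem det_col' {g : S4 k} (h1 : g.1.1 0 3 = 0) (h2 : g.1.1 1 3 = 0) (h3 : g.1.1 2 3 = 0) :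
    g.1.1 0 1 = 0 ∧ g.1.1 0 2 = 0 := by
  have e0 := om_col g 0 3
  have e1 := om_col g 1 3
  have e2 := om_col g 2 3
  rw [om_eq] at e0 e1 e2
  simp [h1, h2, h3] at e0 e1 e2
  have h0 : g.1.1 3 3 ≠ 0 := fun h0 => by
    rw [h0, mul_zero] at e0
    exact zero_ne_one e0
  exact ⟨e1.resolve_right h0, e2.resolve_right h0⟩

/-- the opposite base line -/
noncomputable def l3 : LL k :=
  ⟨⟨Submodule.span k (Set.range ![(Pi.single 2 1 : Fin 4 → k), Pi.single 3 1]), by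
    rw [finrank_span_eq_card, Fintype.card_fin]
    rw [LinearIndependent.pair_iff]
    intro s t h
    have h0 := congrFun h 2
    have h1 := congrFun h 3
    simp at h0 h1
    exact ⟨h0, h1⟩⟩, by
    intro x hx y hy
    have key : ∀ z ∈ Submodule.span k (Set.range ![(Pi.single 2 1 : Fin 4 → k), Pi.single 3 1]),
        z 0 = 0 ∧ z 1 = 0 := by
      intro z hz
      rw [Submodule.mem_span_range_iff_exists_fun] at hz
      obtain ⟨c, rfl⟩ := hz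
      simp [Fin.sum_univ_two]
    obtain ⟨hx2, hx3⟩ := key x hx
    obtain ⟨hy2, hy3⟩ := key y hy
    rw [om_eq, hx2, hx3, hy2, hy3]
    ring⟩

theorem mem_l3 {x : Fin 4 → k} (h : x ∈ (l3 : LL k).1.1) : x 0 = 0 ∧ x 1 = 0 := by
  have hz : x ∈ Submodule.span k (Set.range ![(Pi.single 2 1 : Fin 4 → k), Pi.single 3 1]) := h
  rw [Submodule.mem_span_range_iff_exists_fun] at hz
  obtain ⟨c, rfl⟩ := hz
  simp [Fin.sum_univ_two]

theorem col_of_l0 {g : S4 k} (h : g • (l0 : LL k) = l0) :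
    g.1.1 2 0 = 0 ∧ g.1.1 3 0 = 0 ∧ g.1.1 2 1 = 0 ∧ g.1.1 3 1 = 0 := by
  have key : ∀ x : Fin 4 → k, x ∈ (l0 : LL k).1.1 → g.1.1 *ᵥ x ∈ (l0 : LL k).1.1 := by
    intro x hx
    have h1 : g.1 • x ∈ (g • (l0 : LL k)).1.1 := H100.Gr.smul_mem hx
    rw [h] at h1
    exact h1
  have h0 := mem_l0.1 (key (Pi.single 0 1) (mem_l0.2 (by simp)))
  have h1 := mem_l0.1 (key (Pi.single 1 1) (mem_l0.2 (by simp)))
  rw [mulVec_single_one] at h0 h1
  exact ⟨h0.1, h0.2, h1.1, h1.2⟩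

theorem col_of_l3 {g : S4 k} (h : g • (l3 : LL k) = l3) :
    g.1.1 0 2 = 0 ∧ g.1.1 1 2 = 0 ∧ g.1.1 0 3 = 0 ∧ g.1.1 1 3 = 0 := by
  have key : ∀ x : Fin 4 → k, x ∈ (l3 : LL k).1.1 → g.1.1 *ᵥ x ∈ (l3 : LL k).1.1 := by
    intro x hx
    have h1 : g.1 • x ∈ (g • (l3 : LL k)).1.1 := H100.Gr.smul_mem hx
    rw [h] at h1
    exact h1
  have m2 : (Pi.single 2 1 : Fin 4 → k) ∈ (l3 : LL k).1.1 := Submodule.subset_span ⟨0, rfl⟩
  have m3 : (Pi.single 3 1 : Fin 4 → k) ∈ (l3 : LL k).1.1 := Submodule.subset_span ⟨1, rfl⟩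
  have h0 := mem_l3 (key _ m2)
  have h1 := mem_l3 (key _ m3)
  rw [mulVec_single_one] at h0 h1
  exact ⟨h0.1, h0.2, h1.1, h1.2⟩

theorem norm_inv_w {w : kˣ} (hw : ‖(w : k)‖ < 1) : 1 < ‖((w⁻¹ : kˣ) : k)‖ := by
  rw [Units.val_inv_eq_inv_val, norm_inv]
  exact one_lt_inv₀ (norm_pos_iff.2 w.ne_zero) |>.2 hw

theorem norms_w {w : kˣ} (hw : ‖(w : k)‖ < 1) :
    1 < ‖(w : k)‖⁻¹ ∧ ‖(w : k)‖ < ‖(w : k)‖⁻¹ := by
  have h1 : 1 < ‖(w : k)‖⁻¹ := (one_lt_inv₀ (norm_pos_iff.2 w.ne_zero)).2 hw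
  exact ⟨h1, hw.trans h1⟩

/-- **The stabiliser of the base point.** -/
theorem stab_y0 {w : kˣ} (hw : ‖(w : k)‖ < 1) {g : S4 k} (h : g • (y0 : YY k 3) = y0) :
    ∃ v n : S4 k, g = v * n ∧ v * B1 w = B1 w * v ∧
      Tendsto (fun N : ℕ => (B1 w ^ N)⁻¹ * n * B1 w ^ N) atTop (𝓝 1) := by
  obtain ⟨h1, h2, h3⟩ := col_of_y0 h
  obtain ⟨h4, h5⟩ := det_col h1 h2 h3
  obtain ⟨a1, a2⟩ := norms_w hw
  refine par (d1_ne w) (B1_diag w) fun i j => ?_
  fin_cases i <;> fin_cases j <;>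
    simp [d1, h1, h2, h3, h4, h5, hw, a1, a2, Units.val_inv_eq_inv_val, norm_inv]

/-- **The stabiliser of the base line.** -/
theorem stab_l0 {w : kˣ} (hw : ‖(w : k)‖ < 1) {g : S4 k} (h : g • (l0 : LL k) = l0) :
    ∃ v n : S4 k, g = v * n ∧ v * B2 w = B2 w * v ∧
      Tendsto (fun N : ℕ => (B2 w ^ N)⁻¹ * n * B2 w ^ N) atTop (𝓝 1) := by
  obtain ⟨h1, h2, h3, h4⟩ := col_of_l0 h
  obtain ⟨a1, a2⟩ := norms_w hw
  refine par (d2_ne w) (B2_diag w) fun i j => ?_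
  fin_cases i <;> fin_cases j <;>
    simp [d2, h1, h2, h3, h4, hw, a1, a2, Units.val_inv_eq_inv_val, norm_inv]

theorem inv_B1_diag (w : kˣ) : ((B1 w)⁻¹).1.1 = diagonal (d1 w⁻¹) := by
  rw [inv_diag (d1_ne w) (B1_diag w)]
  congr 1
  funext i
  fin_cases i <;> simp [d1]

theorem inv_B2_diag (w : kˣ) : ((B2 w)⁻¹).1.1 = diagonal (d2 w⁻¹) := by
  rw [inv_diag (d2_ne w) (B2_diag w)]
  congr 1
  funext i
  fin_cases i <;> simp [d2]

/-- **The stabiliser of the opposite point.** -/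
theorem stab_y3 {w : kˣ} (hw : ‖(w : k)‖ < 1) {g : S4 k} (h : g • (y3 : YY k 3) = y3) :
    ∃ v n : S4 k, g = v * n ∧ v * B1 w = B1 w * v ∧
      Tendsto (fun N : ℕ => B1 w ^ N * n * (B1 w ^ N)⁻¹) atTop (𝓝 1) := by
  obtain ⟨h1, h2, h3⟩ := col_of_y3 h
  obtain ⟨h4, h5⟩ := det_col' h1 h2 h3
  obtain ⟨a1, a2⟩ := norms_w hw
  obtain ⟨v, n, e1, e2, e3⟩ := par (b := (B1 w)⁻¹) (g := g) (d1_ne w⁻¹) (inv_B1_diag w)
    (fun i j => by
      fin_cases i <;> fin_cases j <;>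
        simp [d1, h1, h2, h3, h4, h5, hw, a1, a2, Units.val_inv_eq_inv_val, norm_inv])
  refine ⟨v, n, e1, ?_, ?_⟩
  · have hc : Commute v (B1 w)⁻¹ := e2
    exact (Commute.inv_right_iff.1 hc).eq
  · refine e3.congr fun N => ?_
    rw [inv_pow, inv_inv]

/-- **The stabiliser of the opposite line.** -/
theorem stab_l3 {w : kˣ} (hw : ‖(w : k)‖ < 1) {g : S4 k} (h : g • (l3 : LL k) = l3) :
    ∃ v n : S4 k, g = v * n ∧ v * B2 w = B2 w * v ∧
      Tendsto (fun N : ℕ => B2 w ^ N * n * (B2 w ^ N)⁻¹) atTop (𝓝 1) := by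
  obtain ⟨h1, h2, h3, h4⟩ := col_of_l3 h
  obtain ⟨a1, a2⟩ := norms_w hw
  obtain ⟨v, n, e1, e2, e3⟩ := par (b := (B2 w)⁻¹) (g := g) (d2_ne w⁻¹) (inv_B2_diag w)
    (fun i j => by
      fin_cases i <;> fin_cases j <;>
        simp [d2, h1, h2, h3, h4, hw, a1, a2, Units.val_inv_eq_inv_val, norm_inv])
  refine ⟨v, n, e1, ?_, ?_⟩
  · have hc : Commute v (B2 w)⁻¹ := e2
    exact (Commute.inv_right_iff.1 hc).eq
  · refine e3.congr fun N => ?_
    rw [inv_pow, inv_inv]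

/-- `B1 w ^ N` is unbounded -/
theorem nm_B1 (w : kˣ) (N : ℕ) : (‖(w : k)‖⁻¹) ^ N ≤ SP.nm (B1 w ^ N) := by
  have h1 := H337.NG.entry_le (B1 w ^ N).1.1 0 0
  have h0 : (B1 w ^ N).1.1 0 0 = ((w⁻¹ : kˣ) : k) ^ N := by
    rw [pow_diag (B1_diag w), diagonal_apply_eq]
    rfl
  rw [h0, norm_pow, Units.val_inv_eq_inv_val, norm_inv] at h1
  exact h1

theorem nm_B2 (w : kˣ) (N : ℕ) : (‖(w : k)‖⁻¹) ^ N ≤ SP.nm (B2 w ^ N) := by
  have h1 := H337.NG.entry_le (B2 w ^ N).1.1 0 0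
  have h0 : (B2 w ^ N).1.1 0 0 = ((w⁻¹ : kˣ) : k) ^ N := by
    rw [pow_diag (B2_diag w), diagonal_apply_eq]
    rfl
  rw [h0, norm_pow, Units.val_inv_eq_inv_val, norm_inv] at h1
  exact h1

theorem nm_B1_tendsto {w : kˣ} (hw : ‖(w : k)‖ < 1) :
    Tendsto (fun N : ℕ => SP.nm (B1 w ^ N)) atTop atTop :=
  tendsto_atTop_mono (nm_B1 w) (tendsto_pow_atTop_atTop_of_one_lt (norms_w hw).1)

theorem nm_B2_tendsto {w : kˣ} (hw : ‖(w : k)‖ < 1) :
    Tendsto (fun N : ℕ => SP.nm (B2 w ^ N)) atTop atTop :=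
  tendsto_atTop_mono (nm_B2 w) (tendsto_pow_atTop_atTop_of_one_lt (norms_w hw).1)

/-! ### The same for a source group `E` -/

variable {E : Type} [Group E] [TopologicalSpace E] {ι : S4 k →* E}

theorem map_par (hι : Continuous ι) {b g : S4 k}
    (h : ∃ v n : S4 k, g = v * n ∧ v * b = b * v ∧
      Tendsto (fun N : ℕ => (b ^ N)⁻¹ * n * b ^ N) atTop (𝓝 1)) :
    ∃ v n : E, ι g = v * n ∧ v * ι b = ι b * v ∧
      Tendsto (fun N : ℕ => (ι b ^ N)⁻¹ * n * ι b ^ N) atTop (𝓝 1) := by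
  obtain ⟨v, n, rfl, h1, h2⟩ := h
  refine ⟨ι v, ι n, map_mul ι v n, by rw [← map_mul, h1, map_mul], ?_⟩
  have h3 := (hι.tendsto 1).comp h2
  rw [map_one] at h3
  refine h3.congr fun N => ?_
  simp only [Function.comp_apply, map_mul, map_inv, map_pow]

end stab

end Vale.Agent.P092.H899.P
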