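import Vale.Agent.P092.H899.T3
import Vale.Agent.P092.H486.EngB

/-!
P092, Team P, block [P-TGT] (helper899), part 4: the geometry in the letters of helper486's engine.
-/

set_option linter.all false

open Topology Set Filter

namespace Vale.Agent.P092.H899.T

open Vale.Agent.P092.SP4 (S4 LL)
open Vale.Agent.P092.RC (YY)
open Vale.Agent.P092.H486.Eng (GeoU)

theorem GeoW.geoU {Γ Y : Type} [Group Γ] [TopologicalSpace Y] [MulAction Γ Y] {G1 G2 : Γ → ℝ}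
    {bp : Γ → Y} (h : GeoW G1 G2 bp) : GeoU G1 G2 bp := ⟨h.cact, h.fin, h.gap, h.stab⟩

variable {k : Type} [NontriviallyNormedField k] [ProperSpace k] {Γ : Type} [Group Γ]
  {q : Γ → S4 k}

/-- points: gauges `(l1, l2)` -/
theorem geoU_pt (hq : SP.PH q) (fin : ∀ C : ℝ, {γ | SP.nm (q γ) ≤ C}.Finite) :
    @GeoU Γ (YY k 3) _ _ (actP hq) (fun γ => l1 (q γ)) (fun γ => l2 (q γ))
      (fun γ => bpt (q γ)) :=
  @GeoW.geoU Γ (YY k 3) _ _ (actP hq) _ _ _ (geoW_pt hq fin)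

/-- lines: gauges `(l2, l1)` -/
theorem geoU_ln (hq : SP.PH q) (fin : ∀ C : ℝ, {γ | SP.nm (q γ) ≤ C}.Finite) :
    @GeoU Γ (LL k) _ _ (actL hq) (fun γ => l2 (q γ)) (fun γ => l1 (q γ))
      (fun γ => bln (q γ)) :=
  @GeoW.geoU Γ (LL k) _ _ (actL hq) _ _ _ (geoW_ln hq fin)

end Vale.Agent.P092.H899.T
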