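import Vale.Agent.P092.H899.T1
import Vale.Agent.P092.H315P.Kak
import Vale.Agent.P092.H789.Sp.Gau

/-!
P092, Team P, block [P-TGT] (helper899), part 2: the attracting isotropic line of a symplectic
matrix (from helper315's Cartan decomposition), stability of attracting lines.
-/

set_option linter.all false

open Matrix Topology Module Set Filter

namespace Vale.Agent.P092.H899.T

open Vale.Agent.P092.H100.Gr (Gr)
open Vale.Agent.P092.H337.NG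
open Vale.Agent.P092.H315P (M4 Sp dg dg_eq dg_mul cartan)
open Vale.Agent.P092.H789.Sp (L1 L2 log_en_eq log_m2_eq)

section stab

variable {k : Type*} [NontriviallyNormedField k] {n : ℕ} [NeZero n]

/-- The real inequality behind the stability. -/
theorem stab_aux {P Q C t τ c θ : ℝ} (hP : 0 ≤ P) (hQ : 0 ≤ Q) (hC : 0 ≤ C) (ht : 0 < t)
    (ht1 : t ≤ 1) (hτ : 0 < τ) (hc : 0 < c) (hcτ : 4 * τ * c = 1) (e3 : τ ≤ Q * t)
    (ht2 : (4 * P * C * Q + 4 * C * Q ^ 2 + 1) * t ≤ θ) :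
    P * (C * t) ≤ θ * c ∧ C * τ ≤ θ * c := by
  have k1 : 0 ≤ 4 * P * C * Q := by positivity
  have k2 : 0 ≤ 4 * C * Q ^ 2 := by positivity
  constructor
  · have h1 : P * (C * t) * (4 * τ) ≤ θ := by
      calc P * (C * t) * (4 * τ) ≤ P * (C * t) * (4 * (Q * t)) := by gcongr
        _ = (4 * P * C * Q) * t * t := by ring
        _ ≤ (4 * P * C * Q) * t * 1 := by gcongr
        _ ≤ (4 * P * C * Q + 4 * C * Q ^ 2 + 1) * t := by
            rw [mul_one]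
            exact mul_le_mul_of_nonneg_right (by linarith) ht.le
        _ ≤ θ := ht2
    calc P * (C * t) = P * (C * t) * (4 * τ * c) := by rw [hcτ, mul_one]
      _ = P * (C * t) * (4 * τ) * c := by ring
      _ ≤ θ * c := by gcongr
  · have h1 : C * τ * (4 * τ) ≤ θ := by
      calc C * τ * (4 * τ) ≤ C * (Q * t) * (4 * (Q * t)) := by gcongr
        _ = (4 * C * Q ^ 2) * t * t := by ring
        _ ≤ (4 * C * Q ^ 2) * t * 1 := by gcongr
        _ ≤ (4 * P * C * Q + 4 * C * Q ^ 2 + 1) * t := by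
            rw [mul_one]
            exact mul_le_mul_of_nonneg_right (by linarith) ht.le
        _ ≤ θ := ht2
    calc C * τ = C * τ * (4 * τ * c) := by rw [hcτ, mul_one]
      _ = C * τ * (4 * τ) * c := by ring
      _ ≤ θ * c := by gcongr

/-- Comparison of `‖z‖` with `‖x‖`. -/
theorem en_eqv (s u : SLn k n) : ∃ P : ℝ, 0 ≤ P ∧ P = n ^ 2 * (en s.1 * en u.1) ∧
    ∀ x z : SLn k n, Eqv z (s * x * u) → en z.1 ≤ P * en x.1 := by
  have s1 := en_nonneg s.1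
  have s2 := en_nonneg u.1
  refine ⟨_, mul_nonneg (by positivity) (mul_nonneg s1 s2), rfl, fun x z hz => ?_⟩
  have hn0 : (0 : ℝ) ≤ n := Nat.cast_nonneg n
  rw [hz.en_eq, coe_mul', coe_mul']
  have a1 := en_mul (s.1 * x.1) u.1
  have a2 := en_mul s.1 x.1
  calc _ ≤ n * (en (s.1 * x.1) * en u.1) := a1
    _ ≤ n * ((n * (en s.1 * en x.1)) * en u.1) :=
        mul_le_mul_of_nonneg_left (mul_le_mul_of_nonneg_right a2 s2) hn0
    _ = _ := by ring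

/-- Comparison of `‖Λ² x‖` with `‖Λ² z‖`. -/
theorem m2_eqv (s u : SLn k n) : ∃ P : ℝ, 0 ≤ P ∧
    ∀ x z : SLn k n, Eqv z (s * x * u) → m2 x.1 ≤ P * m2 z.1 := by
  obtain ⟨a, ha⟩ : ∃ a, a = s⁻¹ := ⟨_, rfl⟩
  obtain ⟨b, hb⟩ : ∃ b, b = u⁻¹ := ⟨_, rfl⟩
  have s3 := m2_nonneg a.1
  have s4 := m2_nonneg b.1
  have hn0 : (0 : ℝ) ≤ n ^ 2 := by positivity
  refine ⟨n ^ 4 * (m2 a.1 * m2 b.1), mul_nonneg (by positivity) (mul_nonneg s3 s4),
    fun x z hz => ?_⟩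
  rw [hz.m2_eq]
  have e : x.1 = a.1 * (s * x * u).1 * b.1 := by
    have : x = a * (s * x * u) * b := by rw [ha, hb]; group
    calc x.1 = (a * (s * x * u) * b).1 := by rw [← this]
      _ = _ := by rw [coe_mul', coe_mul']
  have a1 := m2_mul (a.1 * (s * x * u).1) b.1
  have a2 := m2_mul a.1 (s * x * u).1
  calc m2 x.1 = m2 (a.1 * (s * x * u).1 * b.1) := by rw [← e]
    _ ≤ n ^ 2 * (m2 (a.1 * (s * x * u).1) * m2 b.1) := a1
    _ ≤ n ^ 2 * ((n ^ 2 * (m2 a.1 * m2 (s * x * u).1)) * m2 b.1) :=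
        mul_le_mul_of_nonneg_left (mul_le_mul_of_nonneg_right a2 s4) hn0
    _ = _ := by ring

/-- **Stability of attracting planes**: if `x` expands two directions, the attracting planes of
`z ~ s x u` are near to the images under `s` of the attracting planes of `x`. -/
theorem stab_plane (hn : 2 ≤ n) {Y F : Type*} [TopologicalSpace Y] [CompactSpace Y]
    [PseudoMetricSpace F] {i : Y → Gr k (Fin n) 2} (hi : Continuous i)
    (hinj : Function.Injective i) {f : Y → F} (hf : Continuous f) {C : ℝ} (hC : 0 ≤ C)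
    (s u : SLn k n) {ε : ℝ} (hε : 0 < ε) :
    ∃ η : ℝ, 0 < η ∧ ∀ (x z : SLn k n) (y y' y'' : Y), Eqv z (s * x * u) →
      Atr (C * (en x.1 / m2 x.1)) x.1 (i y).1 → Atr (C * (en z.1 / m2 z.1)) z.1 (i y').1 →
      i y'' = s • i y → en x.1 / m2 x.1 ≤ η → dist (f y') (f y'') < ε := by
  obtain ⟨δ, hδ, h⟩ := uc_near hi hinj hf hε
  obtain ⟨P, hP, hPe, hP1⟩ := en_eqv s u
  obtain ⟨P', hP', hP'1⟩ := m2_eqv s u
  obtain ⟨Q, hQ⟩ : ∃ Q : ℝ, Q = P * P' := ⟨_, rfl⟩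
  have hQ0 : 0 ≤ Q := by rw [hQ]; positivity
  obtain ⟨B, hB⟩ : ∃ B : ℝ, B = 4 * P * C * Q + 4 * C * Q ^ 2 + 1 := ⟨_, rfl⟩
  have hB1 : 1 ≤ B := by
    rw [hB]
    have : 0 ≤ 4 * P * C * Q + 4 * C * Q ^ 2 := by positivity
    linarith
  obtain ⟨θ, hθ⟩ : ∃ θ : ℝ, θ = min (δ / 4) (1 / 4) := ⟨_, rfl⟩
  have hθ0 : 0 < θ := by rw [hθ]; exact lt_min (by positivity) (by norm_num)
  refine ⟨min 1 (θ / B), lt_min one_pos (by positivity), fun x z y y' y'' hz hx hz' hy hs => ?_⟩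
  have hx0 := en_pos (by omega) x
  have hz0 := en_pos (by omega) z
  have hx2 := m2_pos hn x
  have hz2 := m2_pos hn z
  obtain ⟨t, ht⟩ : ∃ t : ℝ, t = en x.1 / m2 x.1 := ⟨_, rfl⟩
  have ht0 : 0 < t := by rw [ht]; exact div_pos hx0 hx2
  rw [← ht] at hs hx
  have ht1 : t ≤ 1 := hs.trans (min_le_left _ _)
  have ht2 : B * t ≤ θ := by
    have := hs.trans (min_le_right _ _)
    rw [le_div_iff₀ (by linarith)] at this
    linarith
  obtain ⟨τ, hτ⟩ : ∃ τ : ℝ, τ = en z.1 / m2 z.1 := ⟨_, rfl⟩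
  have hτ0 : 0 < τ := by rw [hτ]; exact div_pos hz0 hz2
  have e3 : τ ≤ Q * t := by
    rw [hτ, div_le_iff₀ hz2]
    have a1 := hP1 x z hz
    have a2 := hP'1 x z hz
    have a3 : en x.1 = t * m2 x.1 := by rw [ht]; field_simp
    calc en z.1 ≤ P * (t * m2 x.1) := by rw [← a3]; exact a1
      _ ≤ P * (t * (P' * m2 z.1)) := by gcongr
      _ = _ := by rw [hQ]; ring
  rw [← hτ] at hz'
  obtain ⟨c, hc⟩ : ∃ c : ℝ, c = m2 z.1 / (4 * en z.1) := ⟨_, rfl⟩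
  have hc0 : 0 < c := by rw [hc]; exact div_pos hz2 (by linarith)
  have hcτ : 4 * τ * c = 1 := by rw [hc, hτ]; field_simp
  have hX := xp_two hn z
  rw [← hc] at hX
  rw [hB] at ht2
  obtain ⟨b1, b2⟩ := stab_aux hP hQ0 hC ht0 ht1 hτ0 hc0 hcτ e3 ht2
  rw [hPe] at b1
  have A1 : Atr (θ * c) z.1 (s • i y).1 := (hx.eqv (mul_nonneg hC ht0.le) hz).mono b1
  have A2 : Atr (θ * c) z.1 (i y').1 := hz'.mono b2
  have hθ1 : θ ≤ 1 / 4 := by rw [hθ]; exact min_le_right _ _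
  have hθ2 : θ ≤ δ / 4 := by rw [hθ]; exact min_le_left _ _
  have hlt : θ * c < c := by nlinarith
  have N1 := nr_of_atr (mul_nonneg hθ0.le hc0.le) hlt (i y').2 hX A2 A1
  refine h y' y'' ?_
  rw [hy]
  refine N1.mono ?_
  rw [div_le_iff₀ (by linarith)]
  have h1 : θ * c ≤ δ / 4 * c := mul_le_mul_of_nonneg_right hθ2 hc0.le
  have h2 : θ * c ≤ 1 / 4 * c := mul_le_mul_of_nonneg_right hθ1 hc0.le
  calc 2 * (θ * c) ≤ 2 * (δ / 4 * c) := by linarith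
    _ = δ * (c - 1 / 2 * c) := by ring
    _ ≤ δ * (c - θ * c) := by
        refine mul_le_mul_of_nonneg_left ?_ hδ.le
        linarith

end stab

section line

variable {k : Type*} [NormedField k]

theorem mi_diagonal (d : Fin 4 → k) (i i' j j' : Fin 4) {C : ℝ} (hC : 0 ≤ C)
    (h : ∀ a b, a ≠ b → ‖d a‖ * ‖d b‖ ≤ C) : ‖mi (diagonal d) i i' j j'‖ ≤ C + C := by
  by_cases hii : i = i'
  · subst hii
    have : mi (diagonal d) i i j j' = 0 := by unfold mi; ring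
    rw [this, norm_zero]
    linarith
  have key : ∀ p q : Fin 4, ‖diagonal d i p * diagonal d i' q‖ ≤ C := by
    intro p q
    rw [norm_mul]
    by_cases h1 : i = p
    · by_cases h2 : i' = q
      · rw [← h1, ← h2, diagonal_apply_eq, diagonal_apply_eq]
        exact h _ _ hii
      · rw [diagonal_apply_ne _ h2, norm_zero, mul_zero]
        exact hC
    · rw [diagonal_apply_ne _ h1, norm_zero, zero_mul]
      exact hC
  unfold mi
  refine (norm_sub_le _ _).trans (add_le_add (key j j') ?_)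
  rw [mul_comm]
  exact key j' j

theorem dg_entries {a b : k} (ha : a ≠ 0) (hb : b ≠ 0) (h1 : 1 ≤ 2 * ‖b‖ ^ 2)
    (h2 : ‖b‖ ≤ 16 * ‖a‖) : ‖b⁻¹‖ ≤ 2 * ‖b‖ ∧ ‖a⁻¹‖ ≤ 16 * ‖b⁻¹‖ ∧ ‖a⁻¹‖ ≤ 32 * ‖b‖ := by
  have pa : 0 < ‖a‖ := norm_pos_iff.2 ha
  have pb : 0 < ‖b‖ := norm_pos_iff.2 hb
  have e1 : ‖b⁻¹‖ ≤ 2 * ‖b‖ := by
    rw [norm_inv, inv_le_iff_one_le_mul₀ pb]
    nlinarith
  have e2 : ‖a⁻¹‖ ≤ 16 * ‖b⁻¹‖ := by
    rw [norm_inv, norm_inv, inv_le_iff_one_le_mul₀ pa]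
    rw [mul_comm (16 : ℝ), mul_assoc, inv_mul_eq_div, le_div_iff₀ pb]
    linarith
  exact ⟨e1, e2, by linarith⟩

theorem m2_dg {a b : k} (ha : a ≠ 0) (hb : b ≠ 0) (h1 : 1 ≤ 2 * ‖b‖ ^ 2)
    (h2 : ‖b‖ ≤ 16 * ‖a‖) : m2 (dg a b b⁻¹ a⁻¹) ≤ 32768 * (‖a‖ * ‖b‖) := by
  obtain ⟨e1, e2, e3⟩ := dg_entries ha hb h1 h2
  have pa : 0 < ‖a‖ := norm_pos_iff.2 ha
  have pb : 0 < ‖b‖ := norm_pos_iff.2 hb
  have key : ∀ p q : Fin 4, p ≠ q →
      ‖(![a, b, b⁻¹, a⁻¹] : Fin 4 → k) p‖ * ‖(![a, b, b⁻¹, a⁻¹] : Fin 4 → k) q‖ ≤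
        16384 * (‖a‖ * ‖b‖) := by
    have f0 : ∀ p : Fin 4, p ≠ 0 → ‖(![a, b, b⁻¹, a⁻¹] : Fin 4 → k) p‖ ≤ 32 * ‖b‖ := by
      intro p hp
      fin_cases p
      · exact absurd rfl hp
      · change ‖b‖ ≤ _
        linarith
      · change ‖b⁻¹‖ ≤ _
        linarith
      · exact e3
    intro p q hpq
    by_cases hp : p = 0
    · subst hp
      have hq := f0 q (Ne.symm hpq)
      change ‖a‖ * _ ≤ _
      have := mul_le_mul_of_nonneg_left hq pa.le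
      nlinarith
    · by_cases hq : q = 0
      · subst hq
        have hp' := f0 p hp
        change _ * ‖a‖ ≤ _
        have := mul_le_mul_of_nonneg_right hp' pa.le
        nlinarith
      · have g1 := f0 p hp
        have g2 := f0 q hq
        have g3 := mul_le_mul g1 g2 (norm_nonneg _) (by positivity)
        nlinarith
  rw [dg_eq]
  refine m2_le_of (by positivity) fun i i' j j' => ?_
  refine (mi_diagonal _ i i' j j' (by positivity) key).trans ?_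
  linarith

theorem en_dg_rest {a b : k} (ha : a ≠ 0) (hb : b ≠ 0) (h1 : 1 ≤ 2 * ‖b‖ ^ 2)
    (h2 : ‖b‖ ≤ 16 * ‖a‖) : en (dg 0 0 b⁻¹ a⁻¹) ≤ 16 * ‖b⁻¹‖ := by
  obtain ⟨e1, e2, e3⟩ := dg_entries ha hb h1 h2
  have pb : 0 ≤ ‖b⁻¹‖ := norm_nonneg _
  refine en_le_of (by positivity) fun i j => ?_
  rw [dg_eq]
  by_cases hij : i = j
  · rw [hij, diagonal_apply_eq]
    fin_cases j
    · change ‖(0 : k)‖ ≤ _
      rw [norm_zero]; positivity
    · change ‖(0 : k)‖ ≤ _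
      rw [norm_zero]; positivity
    · change ‖b⁻¹‖ ≤ _
      linarith
    · exact e2
  · rw [diagonal_apply_ne _ hij, norm_zero]
    positivity

/-- the constant of the attracting lines -/
noncomputable def CL : ℝ := 2 ^ 59

theorem CL_nonneg : 0 ≤ CL := by unfold CL; positivity

end line

section line

variable {k : Type*} [NontriviallyNormedField k]

theorem inj_of_sp {U : M4 k} (hU : Sp U) : Function.Injective fun v : Fin 4 → k => U *ᵥ v := by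
  intro v w h
  have h' : U *ᵥ v = U *ᵥ w := h
  have := congrArg (fun x => Vale.Agent.P092.H315P.sinv U *ᵥ x) h'
  simpa only [mulVec_mulVec, hU.sinv_mul, one_mulVec] using this

/-- the first two columns of a symplectic matrix span an isotropic plane -/
theorem exists_span {U : M4 k} (hU : Sp U) : ∃ L : Gr k (Fin 4) 2,
    (U *ᵥ Pi.single 0 1 ∈ L.1 ∧ U *ᵥ Pi.single 1 1 ∈ L.1) ∧
    ∀ x ∈ L.1, ∀ y ∈ L.1, x ⬝ᵥ (H315P.J k *ᵥ y) = 0 := by
  have hli : LinearIndependent k (![U *ᵥ Pi.single 0 1, U *ᵥ Pi.single 1 1] : Fin 2 → _) := by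
    rw [LinearIndependent.pair_iff]
    intro a b h
    have h0 : U *ᵥ (a • Pi.single 0 1 + b • Pi.single 1 1) = U *ᵥ 0 := by
      rw [mulVec_add, mulVec_smul, mulVec_smul, h, mulVec_zero]
    have h1 := inj_of_sp hU h0
    have h2 := congrFun h1 0
    have h3 := congrFun h1 1
    simp at h2 h3
    exact ⟨h2, h3⟩
  have hom : ∀ v w : Fin 4 → k, (U *ᵥ v) ⬝ᵥ (H315P.J k *ᵥ (U *ᵥ w)) = v ⬝ᵥ (H315P.J k *ᵥ w) := by
    intro v w
    have h1 := hU.left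
    calc (U *ᵥ v) ⬝ᵥ (H315P.J k *ᵥ (U *ᵥ w)) = (v ᵥ* Uᵀ) ⬝ᵥ ((H315P.J k * U) *ᵥ w) := by
          rw [vecMul_transpose, mulVec_mulVec]
      _ = v ⬝ᵥ ((Uᵀ * (H315P.J k * U)) *ᵥ w) := by
          rw [← dotProduct_mulVec, mulVec_mulVec]
      _ = _ := by rw [← Matrix.mul_assoc, h1]
  refine ⟨⟨Submodule.span k (range ![U *ᵥ Pi.single 0 1, U *ᵥ Pi.single 1 1]),
    (finrank_span_eq_card hli).trans (Fintype.card_fin 2)⟩,
    ⟨Submodule.subset_span ⟨0, rfl⟩, Submodule.subset_span ⟨1, rfl⟩⟩, ?_⟩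
  intro x hx y hy
  have hx' : x ∈ Submodule.span k (range ![U *ᵥ Pi.single 0 1, U *ᵥ Pi.single 1 1]) := hx
  have hy' : y ∈ Submodule.span k (range ![U *ᵥ Pi.single 0 1, U *ᵥ Pi.single 1 1]) := hy
  rw [Matrix.range_cons, Matrix.range_cons, Matrix.range_empty, union_empty] at hx' hy'
  obtain ⟨a, b, rfl⟩ := Submodule.mem_span_pair.1 hx'
  obtain ⟨c, d, rfl⟩ := Submodule.mem_span_pair.1 hy'
  have ex : a • (U *ᵥ Pi.single 0 1) + b • (U *ᵥ Pi.single 1 1) =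
      U *ᵥ (a • Pi.single 0 1 + b • Pi.single 1 1) := by
    rw [mulVec_add, mulVec_smul, mulVec_smul]
  have ey : c • (U *ᵥ Pi.single 0 1) + d • (U *ᵥ Pi.single 1 1) =
      U *ᵥ (c • Pi.single 0 1 + d • Pi.single 1 1) := by
    rw [mulVec_add, mulVec_smul, mulVec_smul]
  rw [ex, ey, hom]
  simp [H315P.J, dotProduct, mulVec, Fin.sum_univ_four]

/-- **The attracting isotropic line.** -/
theorem exists_line {g : M4 k} (hg : Sp g) : ∃ L : Gr k (Fin 4) 2,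
    (∀ x ∈ L.1, ∀ y ∈ L.1, x ⬝ᵥ (H315P.J k *ᵥ y) = 0) ∧ Atr (CL * (en g / m2 g)) g L.1 := by
  obtain ⟨U, V, a, b, hU, hV, hUb, hVb, ha, hb, hen, h1, h2, he⟩ := cartan hg
  obtain ⟨L, ⟨hL0, hL1⟩, hLi⟩ := exists_span hU
  refine ⟨L, hLi, ?_⟩
  have pa : 0 < ‖a‖ := norm_pos_iff.2 ha
  have pb : 0 < ‖b‖ := norm_pos_iff.2 hb
  have eU : en U ≤ 16 := en_le_of (by norm_num) hUb
  have eV : en V ≤ 16 := en_le_of (by norm_num) hVb
  have nU := en_nonneg U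
  have nV := en_nonneg V
  -- the second exterior power
  have hm : m2 g ≤ 2 ^ 41 * (‖a‖ * ‖b‖) := by
    have a1 := m2_mul (U * dg a b b⁻¹ a⁻¹) V
    have a2 := m2_mul U (dg a b b⁻¹ a⁻¹)
    have a3 := m2_dg ha hb h1 h2
    have a4 : m2 U ≤ 512 := (m2_le U).trans (by nlinarith)
    have a5 : m2 V ≤ 512 := (m2_le V).trans (by nlinarith)
    have n1 := m2_nonneg U
    have n2 := m2_nonneg V
    have n3 := m2_nonneg (dg a b b⁻¹ a⁻¹)
    rw [he]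
    push_cast at a1 a2
    calc m2 (U * dg a b b⁻¹ a⁻¹ * V) ≤ 4 ^ 2 * (m2 (U * dg a b b⁻¹ a⁻¹) * m2 V) := a1
      _ ≤ 4 ^ 2 * ((4 ^ 2 * (512 * (32768 * (‖a‖ * ‖b‖)))) * 512) := by
          refine mul_le_mul_of_nonneg_left (mul_le_mul (a2.trans ?_) a5 n2 (by positivity))
            (by norm_num)
          exact mul_le_mul_of_nonneg_left (mul_le_mul a4 a3 n3 (by norm_num)) (by norm_num)
      _ = _ := by ring
  have hmpos : 0 < m2 g := by
    rcases (m2_nonneg g).lt_or_eq with h | h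
    · exact h
    · exfalso
      have q1 := m2_mul g (H315P.sinv g)
      rw [hg.mul_sinv, ← h, zero_mul, mul_zero] at q1
      have q2 := mi_le (1 : M4 k) 0 1 0 1
      have q3 : mi (1 : M4 k) 0 1 0 1 = 1 := by
        simp [mi, Matrix.one_apply]
      rw [q3, norm_one] at q2
      linarith
  have hbi : ‖b⁻¹‖ ≤ 2 ^ 41 * (en g / m2 g) := by
    rw [norm_inv, inv_le_iff_one_le_mul₀ pb, ← hen]
    rw [mul_assoc, div_mul_eq_mul_div, ← mul_div_assoc, one_le_div hmpos]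
    exact hm
  -- the approximation
  have hlin : ∀ v, (U * dg a b 0 0 * V) *ᵥ v =
      (a * (V *ᵥ v) 0) • (U *ᵥ Pi.single 0 1) + (b * (V *ᵥ v) 1) • (U *ᵥ Pi.single 1 1) := by
    intro v
    rw [← mulVec_smul, ← mulVec_smul, ← mulVec_add, ← mulVec_mulVec, ← mulVec_mulVec]
    congr 1
    funext i
    rw [dg_eq, mulVec_diagonal]
    fin_cases i <;> simp
  refine ⟨U * dg a b 0 0 * V, fun v => ?_, fun v => ?_⟩
  · rw [hlin]
    exact L.1.add_mem (L.1.smul_mem _ hL0) (L.1.smul_mem _ hL1)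
  · have e1 : g *ᵥ v - (U * dg a b 0 0 * V) *ᵥ v = U *ᵥ (dg 0 0 b⁻¹ a⁻¹ *ᵥ (V *ᵥ v)) := by
      have e2 : dg a b b⁻¹ a⁻¹ = dg a b 0 0 + dg 0 0 b⁻¹ a⁻¹ := by
        ext i j
        fin_cases i <;> fin_cases j <;> simp [dg]
      calc g *ᵥ v - (U * dg a b 0 0 * V) *ᵥ v
          = (U * dg a b b⁻¹ a⁻¹ * V) *ᵥ v - (U * dg a b 0 0 * V) *ᵥ v := by rw [← he]
        _ = _ := by
          rw [e2, Matrix.mul_add, Matrix.add_mul, add_mulVec, add_sub_cancel_left,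
            ← mulVec_mulVec, ← mulVec_mulVec]
    rw [e1]
    have b1 := norm_mulVec_le U (dg 0 0 b⁻¹ a⁻¹ *ᵥ (V *ᵥ v))
    have b2 := norm_mulVec_le (dg 0 0 b⁻¹ a⁻¹) (V *ᵥ v)
    have b3 := norm_mulVec_le V v
    have b4 := en_dg_rest ha hb h1 h2
    have b5 := en_nonneg (dg (0 : k) 0 b⁻¹ a⁻¹)
    push_cast at b1 b2 b3
    have nv := norm_nonneg v
    have nbi : 0 ≤ ‖b⁻¹‖ := norm_nonneg _
    calc ‖U *ᵥ (dg 0 0 b⁻¹ a⁻¹ *ᵥ (V *ᵥ v))‖
        ≤ 4 * (en U * ‖dg 0 0 b⁻¹ a⁻¹ *ᵥ (V *ᵥ v)‖) := b1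
      _ ≤ 4 * (16 * (4 * ((16 * ‖b⁻¹‖) * (4 * (16 * ‖v‖))))) := by
          gcongr
          refine b2.trans ?_
          gcongr
          refine b3.trans ?_
          gcongr
      _ = 2 ^ 18 * ‖b⁻¹‖ * ‖v‖ := by ring
      _ ≤ 2 ^ 18 * (2 ^ 41 * (en g / m2 g)) * ‖v‖ := by gcongr
      _ = _ := by unfold CL; ring

end line

end Vale.Agent.P092.H899.T
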