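import Vale.Agent.P092.SP.Defs
import Vale.Agent.P092.H899.T2
import Vale.Agent.P092.H337.NGg
import Vale.Agent.P092.H789.Sp.Gau

/-!
P092, Team P, block [P-TGT] (helper899), part 3: the target geometry of `Sp_4(k)` in the letters
of `SP/Defs`: attracting point `bpt` and attracting line `bln`, the gauges `L1`, `L2`, the fields
of the engine (`cact`, `fin`, `gap`, `stab`, `DomCut`) for both walls, uniform discreteness.
-/

set_option linter.all false

open Matrix Topology Module Set Filter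

namespace Vale.Agent.P092.H899.T

open Vale.Agent.P092.H337.NG
open Vale.Agent.P092.SP4 (S4 LL J4 om on mem_S4 val_cont smul_LL)
open Vale.Agent.P092.RC (GG YY)
open Vale.Agent.P092.H789.Sp (L1 L2 L1_ge log_en_eq log_m2_eq L2_le_iff L1_le_iff)
open Vale.Agent.P092.H859.CL (BB FF cn)
open Vale.Agent.P092.H859

section one

variable {k : Type} [NontriviallyNormedField k]

theorem sp_of (h : S4 k) : H315P.Sp h.1.1 := mem_S4.1 h.2

theorem nm_en (h : S4 k) : SP.nm h = en h.1.1 := rfl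

theorem m2_m2 (h : S4 k) : SP.m2 h = H337.NG.m2 h.1.1 := rfl

theorem nm_pos (h : S4 k) : 0 < SP.nm h := en_pos (by norm_num) h.1

theorem m2_pos' (h : S4 k) : 0 < SP.m2 h := m2_pos (by norm_num) h.1

/-- The point gap. -/
noncomputable def l1 (h : S4 k) : ℝ := L1 h.1

/-- The line gap. -/
noncomputable def l2 (h : S4 k) : ℝ := L2 h.1

theorem l1_def (h : S4 k) : l1 h = 2 * Real.log (SP.nm h) - Real.log (SP.m2 h) := rfl

theorem l2_def (h : S4 k) : l2 h = 2 * Real.log (SP.m2 h) - 2 * Real.log (SP.nm h) := rfl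

theorem nm_exp (h : S4 k) : SP.nm h = Real.exp (l1 h + l2 h / 2) := by
  rw [← Real.exp_log (nm_pos h)]
  congr 1
  rw [l1_def, l2_def]
  ring

theorem m2_exp (h : S4 k) : SP.m2 h = Real.exp (l1 h + l2 h) := by
  rw [← Real.exp_log (m2_pos' h)]
  congr 1
  rw [l1_def, l2_def]
  ring

theorem l1_ge (h : S4 k) : -Real.log 2 ≤ l1 h := L1_ge h.1

/-- near the wall of points -/
theorem nw1_iff {R : ℝ} (hR : 0 < R) {h : S4 k} : SP.NW1 R h ↔ l2 h ≤ 2 * Real.log R :=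
  L2_le_iff hR

/-- near the wall of lines -/
theorem nw2_iff {R : ℝ} (hR : 0 < R) {h : S4 k} : SP.NW2 R h ↔ l1 h ≤ Real.log R :=
  L1_le_iff hR

/-- the ratio `‖h‖ / ‖Λ² h‖` -/
theorem ratio (h : S4 k) : SP.nm h / SP.m2 h = Real.exp (-(l2 h / 2)) := by
  rw [nm_exp, m2_exp, ← Real.exp_sub]
  congr 1
  ring

/-- The attracting point. -/
noncomputable def bpt (h : S4 k) : YY k 3 := bp h.1

/-- The attracting line. -/
noncomputable def bln (h : S4 k) : LL k :=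
  ⟨(exists_line (sp_of h)).choose, (exists_line (sp_of h)).choose_spec.1⟩

theorem bln_atr (h : S4 k) :
    Atr (CL * (en h.1.1 / H337.NG.m2 h.1.1)) h.1.1 (bln h).1.1 :=
  (exists_line (sp_of h)).choose_spec.2

theorem sign_eqv {g h : S4 k} {c : k} (hc : g.1.1 = c • h.1.1) : Eqv g.1 h.1 := ⟨c, hc⟩

/-- scalars act trivially on the lines -/
theorem smul_LL_eqv {g h : S4 k} (e : Eqv g.1 h.1) (l : LL k) : g • l = h • l := by
  obtain ⟨c, hc⟩ := e
  have hc0 := scalar_ne hc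
  refine Subtype.ext ?_
  rw [smul_LL, smul_LL]
  refine H100.Gr.eq_of_le ?_
  rw [smul_gr, smul_gr, hc]
  rintro _ ⟨v, hv, rfl⟩
  refine ⟨c • v, Submodule.smul_mem _ c hv, ?_⟩
  rw [mulVecLin_apply, mulVecLin_apply, mulVec_smul, smul_mulVec]

/-- The attracting point is attracting. -/
theorem att1_of {h : S4 k} {T : ℝ} (hT : 0 < T) (hg : Real.log T ≤ l1 h) {A : Set (YY k 3)}
    (hA : bpt h ∈ A) : SP.Att1 T A h := attN_of (by norm_num) hT hg hA

/-- The attracting line is attracting. -/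
theorem att2_of {h : S4 k} {T : ℝ} (hT : 0 < T) (hg : Real.log (2 * CL * T) ≤ l2 h)
    {A : Set (LL k)} (hA : bln h ∈ A) : SP.Att2 T A h := by
  obtain ⟨M, hM, he⟩ := bln_atr h
  refine ⟨bln h, hA, M, hM, fun i j => ?_⟩
  have h1 := he (Pi.single j 1)
  have h2 : ‖h.1.1 i j - M i j‖ ≤ ‖h.1.1 *ᵥ Pi.single j 1 - M *ᵥ Pi.single j 1‖ := by
    have e : h.1.1 i j - M i j = (h.1.1 *ᵥ Pi.single j 1 - M *ᵥ Pi.single j 1) i := by
      rw [Pi.sub_apply, mulVec_single_one, mulVec_single_one]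
      rfl
    rw [e]
    exact norm_le_pi_norm _ i
  have h3 := norm_single (k := k) (n := 4) j
  have p1 := nm_pos h
  have p2 := m2_pos' h
  have hCL : 0 < CL := by unfold CL; positivity
  refine (h2.trans h1).trans ?_
  have h4 : CL * (SP.nm h / SP.m2 h) * ‖(Pi.single j (1 : k) : Fin 4 → k)‖ ≤
      CL * (SP.nm h / SP.m2 h) := by
    have : 0 ≤ CL * (SP.nm h / SP.m2 h) := mul_nonneg CL_nonneg (div_pos p1 p2).le
    calc _ ≤ CL * (SP.nm h / SP.m2 h) * 1 := mul_le_mul_of_nonneg_left h3 this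
      _ = _ := mul_one _
  refine h4.trans ?_
  rw [← mul_div_assoc, div_le_div_iff₀ p2 hT]
  have h5 : CL * T ≤ SP.m2 h := by
    have q1 : 2 * CL * T ≤ Real.exp (l2 h) :=
      (Real.log_le_iff_le_exp (mul_pos (mul_pos two_pos hCL) hT)).1 hg
    have q2 : Real.exp (l2 h) ≤ 2 * SP.m2 h := by
      have := l1_ge h
      calc Real.exp (l2 h) ≤ Real.exp (Real.log 2 + (l1 h + l2 h)) :=
            Real.exp_le_exp.2 (by linarith)
        _ = 2 * SP.m2 h := by rw [Real.exp_add, Real.exp_log (by norm_num), ← m2_exp]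
    linarith
  calc CL * SP.nm h * T = SP.nm h * (CL * T) := by ring
    _ ≤ SP.nm h * SP.m2 h := mul_le_mul_of_nonneg_left h5 p1.le

variable [ProperSpace k]

/-- **Stability of the attracting points.** -/
theorem stab_pt {F : Type*} [PseudoMetricSpace F] {f : YY k 3 → F} (hf : Continuous f)
    (s u : S4 k) {ε : ℝ} (hε : 0 < ε) : ∃ T : ℝ, ∀ x z : S4 k, Eqv z.1 (s * x * u).1 →
      T ≤ l1 x → dist (f (bpt z)) (f (s • bpt x)) < ε := by
  obtain ⟨T, hT⟩ := stab' (n := 4) (by norm_num) hf s.1 u.1 hε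
  exact ⟨T, fun x z hz hx => hT x.1 z.1 hz hx⟩

/-- **Stability of the attracting lines.** -/
theorem stab_ln {F : Type*} [PseudoMetricSpace F] {f : LL k → F} (hf : Continuous f)
    (s u : S4 k) {ε : ℝ} (hε : 0 < ε) : ∃ T : ℝ, ∀ x z : S4 k, Eqv z.1 (s * x * u).1 →
      T ≤ l2 x → dist (f (bln z)) (f (s • bln x)) < ε := by
  obtain ⟨η, hη, h⟩ := stab_plane (n := 4) (by norm_num) (i := fun l : LL k => l.1) val_cont
    Subtype.val_injective hf CL_nonneg s.1 u.1 hε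
  refine ⟨-2 * Real.log η, fun x z hz hx => ?_⟩
  refine h x.1 z.1 (bln x) (bln z) (s • bln x) hz (bln_atr x) (bln_atr z) rfl ?_
  have e : en x.1.1 / H337.NG.m2 x.1.1 = Real.exp (-(l2 x / 2)) := ratio x
  rw [e, ← Real.le_log_iff_exp_le hη]
  linarith

end one

section grp

variable {k : Type} [NontriviallyNormedField k] {Γ : Type} [Group Γ] {q : Γ → S4 k}

/-- the action on the points -/
@[reducible] noncomputable def actP (hq : SP.PH q) : MulAction Γ (YY k 3) := actQ hq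

theorem ph3 (hq : SP.PH q) (s x u : Γ) : Eqv (q (s * x * u)).1 (q s * q x * q u).1 :=
  (phom_of_ph hq).mul3 s x u

theorem ph_one (hq : SP.PH q) : Eqv (q 1).1 (1 : S4 k).1 := (phom_of_ph hq).one

theorem ph_inv (hq : SP.PH q) (x : Γ) : Eqv (q x⁻¹).1 ((q x)⁻¹).1 := (phom_of_ph hq).inv x

/-- The action of `Γ` on the lines. -/
@[reducible] noncomputable def actL (hq : SP.PH q) : MulAction Γ (LL k) where
  smul γ p := q γ • p
  one_smul p := (smul_LL_eqv (ph_one hq) p).trans (one_smul _ p)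
  mul_smul γ γ' p := (smul_LL_eqv (phom_of_ph hq γ γ') p).trans (mul_smul _ _ p)

/-- The fields of the geometry used by the engine: everything but the separation. -/
structure GeoW {Γ Y : Type} [Group Γ] [TopologicalSpace Y] [MulAction Γ Y] (G1 G2 : Γ → ℝ)
    (bp : Γ → Y) : Prop where
  cact : ∀ s : Γ, Continuous fun y : Y => s • y
  fin : ∀ r, (FF G1 G2 r).Finite
  gap : ∀ s u, ∃ C, ∀ x, |G1 (s * x * u) - G1 x| ≤ C ∧ |G2 (s * x * u) - G2 x| ≤ C
  stab : ∀ (s u : Γ) (f : C(Y, ℝ)) (ε : ℝ), 0 < ε → ∀ r, ∃ T, ∀ x, T ≤ G1 x → G2 x ≤ r →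
    |f (bp (s * x * u)) - f (s • bp x)| ≤ ε

theorem eqv_l {g h : S4 k} (e : Eqv g.1 h.1) : l1 g = l1 h ∧ l2 g = l2 h := by
  rw [l1_def, l1_def, l2_def, l2_def, nm_en, nm_en, m2_m2, m2_m2, e.en_eq, e.m2_eq]
  exact ⟨rfl, rfl⟩

theorem gap_l (hq : SP.PH q) (s u : Γ) : ∃ C, ∀ x, |l1 (q (s * x * u)) - l1 (q x)| ≤ C ∧
    |l2 (q (s * x * u)) - l2 (q x)| ≤ C := by
  obtain ⟨C, hC⟩ := H789.Sp.gap_bd (q s).1 (q u).1
  refine ⟨C, fun x => ?_⟩
  obtain ⟨e1, e2⟩ := eqv_l (ph3 hq s x u)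
  rw [e1, e2]
  exact hC (q x).1

theorem fin_l (fin : ∀ C : ℝ, {γ | SP.nm (q γ) ≤ C}.Finite) (r : ℝ) :
    {γ | l1 (q γ) ≤ r ∧ l2 (q γ) ≤ r}.Finite := H789.Sp.fin (fun γ => (q γ).1) fin r

/-- **[P-TGT]** points: gauges `(l1, l2)`. -/
theorem geoW_pt [ProperSpace k] (hq : SP.PH q) (fin : ∀ C : ℝ, {γ | SP.nm (q γ) ≤ C}.Finite) :
    @GeoW Γ (YY k 3) _ _ (actP hq) (fun γ => l1 (q γ)) (fun γ => l2 (q γ))
      (fun γ => bpt (q γ)) := by
  let _ := actP hq
  refine ⟨fun s => ?_, fun r => fin_l fin r, fun s u => gap_l hq s u, fun s u f ε hε r => ?_⟩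
  · exact continuous_const_smul (q s).1
  · obtain ⟨T, hT⟩ := stab_pt f.continuous (q s) (q u) hε
    refine ⟨T, fun x hx _ => ?_⟩
    have h1 := hT (q x) (q (s * x * u)) (ph3 hq s x u) hx
    rw [Real.dist_eq] at h1
    exact h1.le

/-- **[P-TGT]** lines: gauges `(l2, l1)`. -/
theorem geoW_ln [ProperSpace k] (hq : SP.PH q) (fin : ∀ C : ℝ, {γ | SP.nm (q γ) ≤ C}.Finite) :
    @GeoW Γ (LL k) _ _ (actL hq) (fun γ => l2 (q γ)) (fun γ => l1 (q γ))
      (fun γ => bln (q γ)) := by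
  let _ := actL hq
  refine ⟨fun s => ?_, fun r => ?_, fun s u => ?_, fun s u f ε hε r => ?_⟩
  · exact continuous_const_smul (q s)
  · refine (fin_l fin r).subset fun γ hγ => ⟨hγ.2, hγ.1⟩
  · obtain ⟨C, hC⟩ := gap_l hq s u
    exact ⟨C, fun x => ⟨(hC x).2, (hC x).1⟩⟩
  · obtain ⟨T, hT⟩ := stab_ln f.continuous (q s) (q u) hε
    refine ⟨T, fun x hx _ => ?_⟩
    have h1 := hT (q x) (q (s * x * u)) (ph3 hq s x u) hx
    rw [Real.dist_eq] at h1
    exact h1.le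

omit [Group Γ] in
/-- **The cones, points.** -/
theorem domCut_pt (q : Γ → S4 k) :
    CN.DomCut (SP.NA1 q) (fun γ => l1 (q γ)) (fun γ => l2 (q γ)) (fun γ => bpt (q γ)) := by
  intro r
  refine ⟨Real.exp (r / 2), fun T hT => ⟨max (Real.log T) r, fun A γ hγ => ?_⟩⟩
  obtain ⟨h1, h2⟩ := hγ
  by_cases h3 : l2 (q γ) ≤ r
  · by_cases h4 : Real.log T ≤ l1 (q γ)
    · left
      refine ⟨(nw1_iff (Real.exp_pos _)).2 ?_, att1_of hT h4 h2⟩
      rw [Real.log_exp]
      linarith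
    · right; left
      push Not at h4
      exact ⟨h4.le.trans (le_max_left _ _), h3.trans (le_max_right _ _)⟩
  · right; right
    push Not at h3
    exact ⟨lt_of_lt_of_le h3 h1, h3⟩

omit [Group Γ] in
/-- **The cones, lines.** -/
theorem domCut_ln (q : Γ → S4 k) :
    CN.DomCut (SP.NA2 q) (fun γ => l2 (q γ)) (fun γ => l1 (q γ)) (fun γ => bln (q γ)) := by
  intro r
  refine ⟨Real.exp r, fun T hT => ⟨max (Real.log (2 * CL * T)) r, fun A γ hγ => ?_⟩⟩
  obtain ⟨h1, h2⟩ := hγ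
  by_cases h3 : l1 (q γ) ≤ r
  · by_cases h4 : Real.log (2 * CL * T) ≤ l2 (q γ)
    · left
      refine ⟨(nw2_iff (Real.exp_pos _)).2 ?_, att2_of hT h4 h2⟩
      rw [Real.log_exp]
      exact h3
    · right; left
      push Not at h4
      exact ⟨h4.le.trans (le_max_left _ _), h3.trans (le_max_right _ _)⟩
  · right; right
    push Not at h3
    exact ⟨lt_of_lt_of_le h3 h1, h3⟩

/-- **Uniform discreteness.** -/
theorem ud_of_fin (hq : SP.PH q) (fin : ∀ C : ℝ, {γ | SP.nm (q γ) ≤ C}.Finite) : SP.UD q :=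
  ud_sn (q := fun γ => (q γ).1) (N := 3) hq (ρ := fun _ => 0) siz_zero
    (fun R => (fin R).subset fun γ hγ => hγ.1) (Z := Set.univ) (r := 0) fun γ _ => le_rfl

/-- the inverse has the same gaps -/
theorem gap_inv_l : ∃ C : ℝ, 0 ≤ C ∧ ∀ g : S4 k, |l1 g⁻¹ - l1 g| ≤ C ∧ |l2 g⁻¹ - l2 g| ≤ C := by
  have hJ : (-J4 k) * J4 k = 1 := by rw [Matrix.neg_mul, SP4.J4_sq, neg_neg]
  obtain ⟨C, h0, hC⟩ := H789.Sp.gap_inv hJ
  exact ⟨C, h0, fun g => hC g.1 (SP4.mem_S4'.1 g.2)⟩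

end grp

end Vale.Agent.P092.H899.T
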