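import Mathlib.Algebra.Lie.Classical
import Mathlib.Algebra.Lie.Semisimple.Basic
import Mathlib.Tactic.LinearCombination

/-!
P092 (helper899): the Lie algebra `sl_n(K)`, `n ≥ 2`, is simple over every field of characteristic `0`.
-/

set_option linter.all false

open Matrix LieAlgebra LieAlgebra.SpecialLinear

namespace Vale.Agent.P092.H899.Sl

variable {K : Type*} [Field K] {n : Type*} [Fintype n] [DecidableEq n]

theorem br_trans {i j l : n} (hij : i ≠ j) (hjl : j ≠ l) (hil : i ≠ l) :
    ⁅single i j hij (1 : K), single j l hjl (1 : K)⁆ = single i l hil (1 : K) := by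
  refine Subtype.ext ?_
  rw [sl_bracket, val_single, val_single, val_single, Matrix.single_mul_single_same,
    Matrix.single_mul_single_of_ne _ _ _ _ hil.symm, sub_zero, one_mul]

theorem br_op {i j : n} (hij : i ≠ j) :
    ⁅single i j hij (1 : K), single j i hij.symm (1 : K)⁆ = singleSubSingle i j (1 : K) := by
  refine Subtype.ext ?_
  rw [sl_bracket, val_single, val_single, val_singleSubSingle, Matrix.single_mul_single_same,
    Matrix.single_mul_single_same, one_mul]

theorem br_h {i j : n} (hij : i ≠ j) :
    ⁅singleSubSingle i j (1 : K), single j i hij.symm (1 : K)⁆ =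
      (-2 : K) • single j i hij.symm (1 : K) := by
  refine Subtype.ext ?_
  show _ = (-2 : K) • (single j i hij.symm (1 : K)).val
  rw [sl_bracket, val_single, val_singleSubSingle, sub_mul, mul_sub,
    Matrix.single_mul_single_same, Matrix.single_mul_single_same,
    Matrix.single_mul_single_of_ne _ _ _ _ hij, Matrix.single_mul_single_of_ne _ _ _ _ hij,
    one_mul, Matrix.smul_single, smul_eq_mul]
  ext a b
  simp only [Matrix.sub_apply, Matrix.single_apply, Matrix.zero_apply]
  split_ifs <;> ring

variable (I : LieIdeal K (sl n K))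

theorem mem_op [CharZero K] {i j : n} (hij : i ≠ j) (h : single i j hij (1 : K) ∈ I) :
    single j i hij.symm (1 : K) ∈ I := by
  have h1 : singleSubSingle i j (1 : K) ∈ I := by
    rw [← br_op hij]
    exact lie_mem_left K (sl n K) I _ _ h
  have h2 : (-2 : K) • single j i hij.symm (1 : K) ∈ I := by
    rw [← br_h hij]
    exact lie_mem_left K (sl n K) I _ _ h1
  have h3 := I.smul_mem (-2 : K)⁻¹ h2
  rwa [smul_smul, inv_mul_cancel₀ (by norm_num), one_smul] at h3

theorem mem_right {i j l : n} (hij : i ≠ j) (hjl : j ≠ l) (hil : i ≠ l)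
    (h : single i j hij (1 : K) ∈ I) : single i l hil (1 : K) ∈ I := by
  rw [← br_trans hij hjl hil]
  exact lie_mem_left K (sl n K) I _ _ h

theorem mem_left {i j k : n} (hij : i ≠ j) (hki : k ≠ i) (hkj : k ≠ j)
    (h : single i j hij (1 : K) ∈ I) : single k j hkj (1 : K) ∈ I := by
  rw [← br_trans hki hij hkj]
  exact lie_mem_right K (sl n K) I _ _ h

theorem mem_all [CharZero K] {i j : n} (hij : i ≠ j) (h : single i j hij (1 : K) ∈ I) {k l : n}
    (hkl : k ≠ l) : single k l hkl (1 : K) ∈ I := by
  have h' := mem_op I hij h
  by_cases h1 : l = i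
  · subst h1
    by_cases h2 : k = j
    · subst h2
      exact h'
    · exact mem_left I hij.symm h2 hkl h'
  by_cases h2 : l = j
  · subst h2
    by_cases h3 : k = i
    · subst h3
      exact h
    · exact mem_left I hij h3 hkl h
  have h3 := mem_right I hij (Ne.symm h2) (Ne.symm h1) h
  by_cases h4 : k = i
  · subst h4
    exact h3
  exact mem_left I (Ne.symm h1) h4 hkl h3

theorem mem_single [CharZero K] (hI : I ≠ ⊥) :
    ∃ (i j : n) (hij : i ≠ j), single i j hij (1 : K) ∈ I := by
  obtain ⟨X, hX, hX0⟩ : ∃ X ∈ I, X ≠ 0 := by
    by_contra hcon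
    push Not at hcon
    exact hI ((LieSubmodule.eq_bot_iff _).2 hcon)
  by_cases hoff : ∃ i j, i ≠ j ∧ X.1 j i ≠ 0
  · obtain ⟨i, j, hij, hne⟩ := hoff
    refine ⟨i, j, hij, ?_⟩
    have h1 : ⁅single i j hij (1 : K), ⁅single i j hij (1 : K), X⁆⁆ ∈ I :=
      lie_mem_right K (sl n K) I _ _ (lie_mem_right K (sl n K) I _ _ hX)
    have h2 : ⁅single i j hij (1 : K), ⁅single i j hij (1 : K), X⁆⁆ =
        (-2 * X.1 j i) • single i j hij (1 : K) := by
      refine Subtype.ext ?_
      show _ = (-2 * X.1 j i) • (single i j hij (1 : K)).val
      rw [sl_bracket, sl_bracket, val_single]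
      have e1 : Matrix.single i j (1 : K) * Matrix.single i j (1 : K) = 0 :=
        Matrix.single_mul_single_of_ne _ _ _ _ hij.symm _
      have e2 : Matrix.single i j (1 : K) * X.1 * Matrix.single i j (1 : K) =
          Matrix.single i j (X.1 j i) := by
        rw [Matrix.single_mul_mul_single, one_mul, mul_one]
      have e3 : Matrix.single i j (1 : K) * (Matrix.single i j (1 : K) * X.1 -
          X.1 * Matrix.single i j (1 : K)) - (Matrix.single i j (1 : K) * X.1 -
          X.1 * Matrix.single i j (1 : K)) * Matrix.single i j (1 : K) =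
          (Matrix.single i j (1 : K) * Matrix.single i j (1 : K)) * X.1 -
          (2 : K) • (Matrix.single i j (1 : K) * X.1 * Matrix.single i j (1 : K)) +
          X.1 * (Matrix.single i j (1 : K) * Matrix.single i j (1 : K)) := by
        rw [two_smul]
        noncomm_ring
      rw [e3, e1, e2, zero_mul, mul_zero, zero_sub, add_zero, Matrix.smul_single, Matrix.smul_single]
      ext a b
      simp only [Matrix.neg_apply, Matrix.single_apply, smul_eq_mul]
      split_ifs <;> ring
    rw [h2] at h1
    have hc : (-2 * X.1 j i) ≠ 0 := mul_ne_zero (by norm_num) hne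
    have h3 := I.smul_mem (-2 * X.1 j i)⁻¹ h1
    rwa [smul_smul, inv_mul_cancel₀ hc, one_smul] at h3
  · push Not at hoff
    have hd : ∃ i j, i ≠ j ∧ X.1 i i ≠ X.1 j j := by
      by_contra hcon
      push Not at hcon
      apply hX0
      have htr : X.1.trace = 0 := X.2
      have hall : ∀ i, X.1 i i = 0 := by
        intro i
        have h1 : ∀ j, X.1 j j = X.1 i i := by
          intro j
          by_cases h : j = i
          · rw [h]
          · exact hcon j i h
        have h2 : X.1.trace = (Fintype.card n : K) * X.1 i i := by
          rw [Matrix.trace]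
          simp only [Matrix.diag_apply]
          rw [Finset.sum_congr rfl fun j _ => h1 j, Finset.sum_const, Finset.card_univ,
            nsmul_eq_mul]
        rw [h2] at htr
        have hcard : (Fintype.card n : K) ≠ 0 := by
          have : 0 < Fintype.card n := Fintype.card_pos_iff.2 ⟨i⟩
          exact_mod_cast this.ne'
        exact (mul_eq_zero.1 htr).resolve_left hcard
      refine Subtype.ext ?_
      ext a b
      show X.1 a b = 0
      by_cases h : a = b
      · subst h
        exact hall a
      · exact hoff b a (Ne.symm h)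
    obtain ⟨i, j, hij, hne⟩ := hd
    refine ⟨i, j, hij, ?_⟩
    have h1 : ⁅X, single i j hij (1 : K)⁆ ∈ I := lie_mem_left K (sl n K) I _ _ hX
    have h2 : ⁅X, single i j hij (1 : K)⁆ = (X.1 i i - X.1 j j) • single i j hij (1 : K) := by
      refine Subtype.ext ?_
      show _ = (X.1 i i - X.1 j j) • (single i j hij (1 : K)).val
      rw [sl_bracket, val_single]
      ext a b
      rw [Matrix.sub_apply, Matrix.smul_apply, smul_eq_mul]
      by_cases ha : a = i
      · subst ha
        by_cases hb : b = j
        · subst hb
          rw [Matrix.mul_single_apply_same, Matrix.single_mul_apply_same, Matrix.single_apply_same]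
          ring
        · rw [Matrix.mul_single_apply_of_ne _ _ _ _ _ hb, Matrix.single_mul_apply_same,
            Matrix.single_apply_of_ne]
          · rw [hoff b j (fun h => hb h)]
            ring
          · rintro ⟨-, h⟩
            exact hb h.symm
      · rw [Matrix.single_mul_apply_of_ne _ _ _ _ _ ha, Matrix.single_apply_of_ne]
        · by_cases hb : b = j
          · subst hb
            rw [Matrix.mul_single_apply_same, hoff i a (Ne.symm ha)]
            ring
          · rw [Matrix.mul_single_apply_of_ne _ _ _ _ _ hb]
            ring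
        · rintro ⟨h, -⟩
          exact ha h.symm
    rw [h2] at h1
    have hc : X.1 i i - X.1 j j ≠ 0 := sub_ne_zero.2 hne
    have h3 := I.smul_mem (X.1 i i - X.1 j j)⁻¹ h1
    rwa [smul_smul, inv_mul_cancel₀ hc, one_smul] at h3

/-- **`sl_n(K)` is simple.** -/
theorem isSimple_sl [CharZero K] (hn : 1 < Fintype.card n) : LieAlgebra.IsSimple K (sl n K) := by
  refine ⟨fun I => ?_, sl_non_abelian n K hn⟩
  by_cases hI : I = ⊥
  · exact Or.inl hI
  refine Or.inr ?_
  obtain ⟨i, j, hij, h⟩ := mem_single I hI
  have hall : ∀ {k l : n} (hkl : k ≠ l), single k l hkl (1 : K) ∈ I := fun hkl => mem_all I hij h hkl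
  have hd : ∀ a b : n, singleSubSingle a b (1 : K) ∈ I := by
    intro a b
    by_cases hab : a = b
    · subst hab
      have : singleSubSingle a a (1 : K) = (0 : sl n K) := by
        refine Subtype.ext ?_
        rw [val_singleSubSingle, sub_self]
        rfl
      rw [this]
      exact I.zero_mem
    · rw [← br_op hab]
      exact lie_mem_left K (sl n K) I _ _ (hall hab)
  rw [eq_top_iff]
  intro X _
  have key : X = ∑ a, ∑ b, if hab : a ≠ b then X.1 a b • single a b hab (1 : K) else
      X.1 a a • singleSubSingle a i (1 : K) := by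
    refine Subtype.ext ?_
    have hval : ∀ (f : n → n → sl n K), (∑ a, ∑ b, f a b).1 = ∑ a, ∑ b, (f a b).1 := by
      intro f
      let φ : sl n K →+ Matrix n n K := { toFun := fun x => x.1, map_zero' := rfl,
                                          map_add' := fun _ _ => rfl }
      have := map_sum φ (fun a => ∑ b, f a b) Finset.univ
      refine this.trans (Finset.sum_congr rfl fun a _ => ?_)
      exact map_sum φ (fun b => f a b) Finset.univ
    rw [hval]
    have hterm : ∀ a b, (if hab : a ≠ b then X.1 a b • single a b hab (1 : K) else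
        X.1 a a • singleSubSingle a i (1 : K)).1 = Matrix.single a b (X.1 a b) -
        (if a = b then Matrix.single i i (X.1 a a) else 0) := by
      intro a b
      by_cases hab : a = b
      · subst hab
        rw [dif_neg (by simp), if_pos rfl]
        show X.1 a a • (singleSubSingle a i (1 : K)).val = _
        rw [val_singleSubSingle, smul_sub, Matrix.smul_single, Matrix.smul_single, smul_eq_mul,
          mul_one]
      · rw [dif_pos hab, if_neg hab, sub_zero]
        show X.1 a b • (single a b hab (1 : K)).val = _
        rw [val_single, Matrix.smul_single, smul_eq_mul, mul_one]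
    simp only [hterm, Finset.sum_sub_distrib]
    have e1 : ∑ a, ∑ b, Matrix.single a b (X.1 a b) = X.1 := (Matrix.matrix_eq_sum_single X.1).symm
    have e2 : ∑ a, ∑ b, (if a = b then Matrix.single i i (X.1 a a) else (0 : Matrix n n K)) = 0 := by
      simp only [Finset.sum_ite_eq, Finset.mem_univ, if_true]
      have htr : X.1.trace = 0 := X.2
      ext a b
      rw [Matrix.sum_apply]
      simp only [Matrix.single_apply, Matrix.zero_apply]
      by_cases hc : i = a ∧ i = b
      · simp only [if_pos hc]
        exact htr
      · simp only [if_neg hc, Finset.sum_const_zero]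
    rw [e1, e2, sub_zero]
  rw [key]
  refine I.sum_mem fun a _ => I.sum_mem fun b _ => ?_
  by_cases hab : a = b
  · rw [dif_neg (by simpa using hab)]
    exact I.smul_mem _ (hd a i)
  · rw [dif_pos hab]
    exact I.smul_mem _ (hall hab)

end Vale.Agent.P092.H899.Sl
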