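import Vale.Agent.P092.H899.Ad8
import Vale.Agent.P092.H899.SlSimple
import Mathlib.LinearAlgebra.Matrix.BilinearForm
import Mathlib.Algebra.Lie.Killing

/-!
P092, project RE-ADJ, block [AD-8], part 2 (helper899): structure constants of a simple real Lie algebra;
the class `IsAdj` contains the identity component of the automorphism group of `L` as soon as some
`ad x` has a real eigenvalue `≠ 0`; in particular for `L = sl_m(ℝ)`, `m ≥ 2`.
-/

set_option linter.all false

open Matrix Filter Topology

namespace Vale.Agent.P092.H899.Ad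

open Vale.Agent.P092.H793.Re (Mat SLn RS Lie)
open Vale.Agent.P092.H259.Ad

variable {n : ℕ} {L : Type} [LieRing L] [LieAlgebra ℝ L] (b : Module.Basis (Fin n) ℝ L)

/-- the structure constants of `L` in the basis `b` -/
noncomputable def sc : Ten n := fun i j l => b.repr ⁅b i, b j⁆ l

/-- the coordinates -/
noncomputable def co (x : L) : Fin n → ℝ := fun l => b.repr x l

theorem co_eq (x : L) : co b x = b.equivFun x := rfl

theorem co_inj {x y : L} (h : co b x = co b y) : x = y := b.equivFun.injective h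

theorem sum_co (x : L) : ∑ i, co b x i • b i = x := b.sum_repr x

theorem co_lie (x y : L) : co b ⁅x, y⁆ = br (sc b) (co b x) (co b y) := by
  funext l
  have h : ⁅x, y⁆ = ∑ i, ∑ j, (co b x i * co b y j) • ⁅b i, b j⁆ := by
    conv_lhs => rw [← sum_co b x, ← sum_co b y]
    rw [sum_lie]
    refine Finset.sum_congr rfl fun i _ => ?_
    rw [lie_sum]
    refine Finset.sum_congr rfl fun j _ => ?_
    rw [smul_lie, lie_smul, smul_smul]
  unfold br sc
  rw [co_eq, h, map_sum, Finset.sum_apply]
  refine Finset.sum_congr rfl fun i _ => ?_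
  rw [map_sum, Finset.sum_apply]
  refine Finset.sum_congr rfl fun j _ => ?_
  rw [map_smul, Pi.smul_apply, smul_eq_mul]
  show co b x i * co b y j * (b.repr ⁅b i, b j⁆ l) = _
  ring

theorem exists_co (v : Fin n → ℝ) : ∃ x : L, co b x = v :=
  ⟨b.equivFun.symm v, b.equivFun.apply_symm_apply v⟩

theorem sc_lie : IsLie (sc b) := by
  refine ⟨fun v w => ?_, fun u v w => ?_⟩
  · obtain ⟨x, rfl⟩ := exists_co b v
    obtain ⟨y, rfl⟩ := exists_co b w
    rw [← co_lie, ← co_lie, ← lie_skew, co_eq, map_neg]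
    rfl
  · obtain ⟨x, rfl⟩ := exists_co b u
    obtain ⟨y, rfl⟩ := exists_co b v
    obtain ⟨z, rfl⟩ := exists_co b w
    simp only [← co_lie]
    rw [leibniz_lie, co_eq, map_add]
    rfl

theorem adm_sc (x : L) : adm (sc b) (co b x) = LinearMap.toMatrix b b (LieAlgebra.ad ℝ L x) := by
  refine Matrix.ext_of_mulVec_single fun j => ?_
  rw [H381.Ad.adm_mulVec, mulVec_single_one]
  have h : (Pi.single j 1 : Fin n → ℝ) = co b (b j) := by
    funext l
    show _ = b.repr (b j) l
    rw [b.repr_self, Finsupp.single_apply, Pi.single_apply]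
    simp only [eq_comm]
  rw [h, ← co_lie]
  funext l
  rw [Matrix.col_apply, LinearMap.toMatrix_apply]
  rfl

theorem sc_nd [LieAlgebra.IsKilling ℝ L] : Nd (sc b) := by
  have : Module.Finite ℝ L := Module.Finite.of_basis b
  have h1 : (killingForm ℝ L).Nondegenerate := LieAlgebra.IsKilling.killingForm_nondegenerate ℝ L
  have h2 := (LinearMap.BilinForm.nondegenerate_iff_det_ne_zero b).1 h1
  unfold Nd
  convert h2 using 2
  ext i j
  rw [LinearMap.BilinForm.toMatrix_apply, killingForm_apply_apply,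
    LinearMap.trace_eq_matrix_trace ℝ b, LinearMap.toMatrix_comp b b b, ← adm_sc, ← adm_sc]
  have h : ∀ j, (Pi.single j 1 : Fin n → ℝ) = co b (b j) := by
    intro j
    funext l
    show _ = b.repr (b j) l
    rw [b.repr_self, Finsupp.single_apply, Pi.single_apply]
    simp only [eq_comm]
  rw [← h, ← h]
  rfl

theorem toMatrix_mulVec (f : L →ₗ[ℝ] L) (x : L) :
    LinearMap.toMatrix b b f *ᵥ co b x = co b (f x) := by
  have := LinearMap.toMatrix_mulVec_repr b b f x
  exact this

/-- the automorphisms of `L` and of its structure constants -/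
theorem mem_aut (g : SLn n) : g ∈ aut (sc b) ↔
    ∃ φ : L ≃ₗ⁅ℝ⁆ L, LinearMap.toMatrix b b (φ : L →ₗ[ℝ] L) = g.1 := by
  constructor
  · intro hg
    let f : L →ₗ[ℝ] L := Matrix.toLin b b g.1
    let f' : L →ₗ[ℝ] L := Matrix.toLin b b (g⁻¹).1
    have e1 : g.1 * (g⁻¹).1 = 1 := congrArg Subtype.val (mul_inv_cancel g)
    have e2 : (g⁻¹).1 * g.1 = 1 := congrArg Subtype.val (inv_mul_cancel g)
    have hf : LinearMap.toMatrix b b f = g.1 := LinearMap.toMatrix_toLin b b g.1
    have h1 : ∀ x, f (f' x) = x := by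
      intro x
      have : f ∘ₗ f' = LinearMap.id := by
        rw [← Matrix.toLin_mul b b b, e1, Matrix.toLin_one]
      exact congrArg (fun F : L →ₗ[ℝ] L => F x) this
    have h2 : ∀ x, f' (f x) = x := by
      intro x
      have : f' ∘ₗ f = LinearMap.id := by
        rw [← Matrix.toLin_mul b b b, e2, Matrix.toLin_one]
      exact congrArg (fun F : L →ₗ[ℝ] L => F x) this
    have hl : ∀ x y, f ⁅x, y⁆ = ⁅f x, f y⁆ := by
      intro x y
      apply co_inj b
      rw [← toMatrix_mulVec, hf, co_lie, co_lie, ← toMatrix_mulVec, ← toMatrix_mulVec, hf]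
      exact hg _ _
    let φ : L ≃ₗ⁅ℝ⁆ L :=
      { toFun := f
        map_add' := f.map_add
        map_smul' := f.map_smul
        map_lie' := fun {x y} => hl x y
        invFun := f'
        left_inv := h2
        right_inv := h1 }
    refine ⟨φ, ?_⟩
    have : (φ : L →ₗ[ℝ] L) = f := rfl
    rw [this, hf]
  · rintro ⟨φ, hφ⟩ v w
    obtain ⟨x, rfl⟩ := exists_co b v
    obtain ⟨y, rfl⟩ := exists_co b w
    rw [← hφ, ← co_lie, toMatrix_mulVec, toMatrix_mulVec, toMatrix_mulVec, ← co_lie]
    congr 1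
    exact φ.map_lie x y

/-- **[AD-8]**: the identity component of the automorphism group of a simple real Lie algebra in which
some `ad x` has a real eigenvalue `≠ 0` is in the class. -/
theorem isAdj_of [LieAlgebra.IsSimple ℝ L] {x y : L} {t : ℝ} (ht : t ≠ 0) (hy : y ≠ 0)
    (h : ⁅x, y⁆ = t • y) : IsAdj (Aut0 (sc b)) := by
  have : Module.Finite ℝ L := Module.Finite.of_basis b
  refine ⟨?_, L, _, _, inferInstance, n, b, aut (sc b), mem_aut b, ⟨ContinuousMulEquiv.refl _⟩⟩
  refine noncomp (sc_lie b) (sc_nd b) (x := co b x) (y := co b y) ht (fun h0 => hy ?_) ?_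
  · apply co_inj b
    rw [h0, co_eq, map_zero]
  · rw [← co_lie, h, co_eq, map_smul]
    rfl

/-- the identity component of the automorphism group of `sl_m(ℝ)` is in the class -/
theorem isAdj_sl {m : ℕ} (hm : 2 ≤ m) :
    IsAdj (Aut0 (sc (Module.finBasis ℝ (LieAlgebra.SpecialLinear.sl (Fin m) ℝ)))) := by
  have hc : 1 < Fintype.card (Fin m) := by rw [Fintype.card_fin]; exact hm
  haveI := Sl.isSimple_sl (K := ℝ) hc
  have h01 : (⟨0, by omega⟩ : Fin m) ≠ ⟨1, by omega⟩ := by
    intro h
    have := congrArg Fin.val h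
    simp at this
  refine isAdj_of _ (x := LieAlgebra.SpecialLinear.singleSubSingle ⟨1, by omega⟩ ⟨0, by omega⟩ (1 : ℝ))
    (y := LieAlgebra.SpecialLinear.single ⟨0, by omega⟩ ⟨1, by omega⟩ h01 (1 : ℝ)) (t := -2)
    (by norm_num) ?_ (Sl.br_h h01.symm)
  intro h
  have h1 := congrArg (fun X => X.1 ⟨0, by omega⟩ ⟨1, by omega⟩) h
  simp only [LieAlgebra.SpecialLinear.val_single, Matrix.single_apply_same] at h1
  exact one_ne_zero h1

end Vale.Agent.P092.H899.Ad
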