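import Vale.Agent.P092.H899.O6

/-!
P092 (helper899), [CLASS-O]: the isometry group of a symmetric form is generated by reflections.
-/

set_option linter.all false

open Matrix

namespace Vale.Agent.P092.H899.Ort

section

variable {n : Type} [Fintype n] [DecidableEq n] {k : Type} [Field k]

/-- The reflection of an anisotropic vector. -/
def refl (K : Matrix n n k) (a : n → k) : Matrix n n k :=
  1 - (2 * (bf K a a)⁻¹) • vecMulVec a (K *ᵥ a)

theorem refl_mulVec {K : Matrix n n k} (hK : Kᵀ = K) (a x : n → k) :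
    refl K a *ᵥ x = x - (2 * (bf K a a)⁻¹ * bf K x a) • a := by
  rw [refl, sub_mulVec, one_mulVec, smul_mulVec, vecMulVec_mulVec, op_smul_eq_smul, smul_smul]
  have h1 : (K *ᵥ a) ⬝ᵥ x = bf K x a := by rw [bf_apply, dotProduct_comm]
  rw [h1]

theorem refl_mul_self {K : Matrix n n k} (hK : Kᵀ = K) {a : n → k} (ha : bf K a a ≠ 0) :
    refl K a * refl K a = 1 := by
  have h1 : ∀ x, (refl K a * refl K a) *ᵥ x = (1 : Matrix n n k) *ᵥ x := by
    intro x
    rw [← mulVec_mulVec, refl_mulVec hK, refl_mulVec hK, one_mulVec]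
    simp only [map_sub, map_smul, LinearMap.sub_apply, LinearMap.smul_apply, smul_eq_mul]
    match_scalars
    · ring
    · field_simp
      ring
  ext i j
  have h2 := congrFun (h1 (Pi.single j 1)) i
  simpa using h2

theorem refl_iso {K : Matrix n n k} (hK : Kᵀ = K) {a : n → k} (ha : bf K a a ≠ 0) :
    (refl K a)ᵀ * K * refl K a = K := by
  refine bf_ext fun x y => ?_
  rw [← bf_mul, refl_mulVec hK, refl_mulVec hK]
  simp only [map_sub, map_smul, LinearMap.sub_apply, LinearMap.smul_apply, smul_eq_mul,
    bf_sym hK a y]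
  field_simp
  ring

/-- An orthogonal basis of anisotropic vectors. -/
theorem exists_obasis {K : Matrix n n k} (hK : Kᵀ = K) (hd : IsUnit K.det) (h2 : (2 : k) ≠ 0) :
    ∃ (m : ℕ) (w : ℕ → n → k), (∀ j, j < m → bf K (w j) (w j) ≠ 0) ∧
      (∀ i j, i < m → j < m → i ≠ j → bf K (w i) (w j) = 0) ∧
      ∀ (A B : Matrix n n k), (∀ j, j < m → A *ᵥ w j = B *ᵥ w j) → A = B := by
  haveI : Invertible (2 : k) := invertibleOfNonzero h2
  have hB : LinearMap.IsSymm (bf K) := ⟨fun x y => bf_sym hK _ _⟩
  obtain ⟨v, hv⟩ := LinearMap.BilinForm.exists_orthogonal_basis (B := bf K) hB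
  have hv' : ∀ i j, i ≠ j → bf K (v i) (v j) = 0 := fun i j hij =>
    LinearMap.isOrthoᵢ_def.1 hv i j hij
  refine ⟨Module.finrank k (n → k), fun j => if hj : j < Module.finrank k (n → k) then v ⟨j, hj⟩
    else 0, ?_, ?_, ?_⟩
  · intro j hj h0
    simp only [dif_pos hj] at h0
    obtain ⟨y, hy⟩ := bf_nd hd _ (v.ne_zero ⟨j, hj⟩)
    have h1 : bf K (v ⟨j, hj⟩) y = 0 := by
      rw [← v.sum_repr y, map_sum]
      refine Finset.sum_eq_zero fun i _ => ?_
      rw [map_smul]
      by_cases hi : i = ⟨j, hj⟩
      · rw [hi, h0, smul_zero]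
      · rw [hv' _ _ (Ne.symm hi), smul_zero]
    rw [h1] at hy
    exact zero_ne_one hy
  · intro i j hi hj hij
    simp only [dif_pos hi, dif_pos hj]
    exact hv' _ _ (fun h => hij (Fin.mk.inj_iff.1 h))
  · intro A B hAB
    have h4 : mulVecLin A = mulVecLin B := by
      refine v.ext fun i => ?_
      have := hAB i.1 i.2
      simp only [dif_pos i.2] at this
      exact this
    ext i j
    have h2 := congrFun (LinearMap.congr_fun h4 (Pi.single j 1)) i
    simpa using h2

/-- **The isometry group is generated by reflections.** -/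
theorem refl_ind {K : Matrix n n k} (hK : Kᵀ = K) (hd : IsUnit K.det) (h2 : (2 : k) ≠ 0)
    (P : Matrix n n k → Prop) (h1 : P 1) (hmul : ∀ A B, P A → P B → P (A * B))
    (hr : ∀ a, bf K a a ≠ 0 → P (refl K a)) (A : Matrix n n k) (hA : Aᵀ * K * A = K) : P A := by
  obtain ⟨m, w, w1, w2, w3⟩ := exists_obasis hK hd h2
  have cancel : ∀ (a : n → k) (A : Matrix n n k), bf K a a ≠ 0 → P (refl K a * A) → P A := by
    intro a A ha hP
    have h3 : A = refl K a * (refl K a * A) := by
      rw [← Matrix.mul_assoc, refl_mul_self hK ha, Matrix.one_mul]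
    rw [h3]
    exact hmul _ _ (hr a ha) hP
  have key : ∀ r j, j + r = m → ∀ A : Matrix n n k, Aᵀ * K * A = K →
      (∀ s, s < j → A *ᵥ w s = w s) → P A := by
    intro r
    induction r with
    | zero =>
      intro j hj A hA hw
      have h3 : A = 1 := w3 A 1 fun s hs => by
        rw [one_mulVec]
        exact hw s (by omega)
      rw [h3]
      exact h1
    | succ r ih =>
      intro j hj A hA hw
      have hjm : j < m := by omega
      have hiso : ∀ x y, bf K (A *ᵥ x) (A *ᵥ y) = bf K x y := bf_iso hA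
      have hperp : ∀ s, s < j → bf K (w s) (A *ᵥ w j) = 0 := by
        intro s hs
        have := hiso (w s) (w j)
        rw [hw s hs, w2 s j (by omega) hjm (by omega)] at this
        exact this
      have hAj : bf K (A *ᵥ w j) (A *ᵥ w j) = bf K (w j) (w j) := hiso _ _
      have mul_iso : ∀ a, bf K a a ≠ 0 → ∀ B : Matrix n n k, Bᵀ * K * B = K →
          (refl K a * B)ᵀ * K * (refl K a * B) = K := by
        intro a ha B hB
        rw [transpose_mul]
        calc Bᵀ * (refl K a)ᵀ * K * (refl K a * B) = Bᵀ * ((refl K a)ᵀ * K * refl K a) * B := by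
              simp only [Matrix.mul_assoc]
          _ = K := by rw [refl_iso hK ha, hB]
      have fixs : ∀ a, (∀ s, s < j → bf K (w s) a = 0) → ∀ s, s < j → refl K a *ᵥ w s = w s := by
        intro a ha s hs
        rw [refl_mulVec hK, ha s hs, mul_zero, zero_smul, sub_zero]
      by_cases hc : bf K (A *ᵥ w j - w j) (A *ᵥ w j - w j) = 0
      · -- use the sum
        have hc' : bf K (A *ᵥ w j + w j) (A *ᵥ w j + w j) ≠ 0 := by
          have e1 : bf K (A *ᵥ w j + w j) (A *ᵥ w j + w j) = 2 * (2 * bf K (w j) (w j)) := by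
            simp only [map_add, map_sub, LinearMap.add_apply, LinearMap.sub_apply, hAj,
              bf_sym hK (A *ᵥ w j) (w j)] at hc ⊢
            linear_combination -hc
          rw [e1]
          exact mul_ne_zero h2 (mul_ne_zero h2 (w1 j hjm))
        refine cancel _ _ hc' (cancel (w j) _ (w1 j hjm) ?_)
        refine ih (j + 1) (by omega) _ (mul_iso _ (w1 j hjm) _ (mul_iso _ hc' _ hA)) ?_
        intro s hs
        rcases Nat.lt_succ_iff_lt_or_eq.1 hs with hs | hs
        · rw [← mulVec_mulVec, ← mulVec_mulVec, hw s hs, fixs _ (fun s hs => by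
            rw [map_add, hperp s hs, w2 s j (by omega) hjm (by omega), add_zero]) s hs,
            fixs _ (fun s hs => w2 s j (by omega) hjm (by omega)) s hs]
        · subst hs
          have e2 : refl K (A *ᵥ w s + w s) *ᵥ (A *ᵥ w s) = -w s := by
            rw [refl_mulVec hK]
            have e3 : bf K (A *ᵥ w s + w s) (A *ᵥ w s + w s) =
                2 * bf K (A *ᵥ w s) (A *ᵥ w s + w s) := by
              simp only [map_add, LinearMap.add_apply, hAj, bf_sym hK (A *ᵥ w s) (w s)]
              ring
            have e4 : 2 * (bf K (A *ᵥ w s + w s) (A *ᵥ w s + w s))⁻¹ *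
                bf K (A *ᵥ w s) (A *ᵥ w s + w s) = 1 := by
              rw [mul_right_comm, ← e3]
              exact mul_inv_cancel₀ hc'
            rw [e4, one_smul]
            abel
          have e5 : refl K (w s) *ᵥ (-w s) = w s := by
            rw [refl_mulVec hK, map_neg, LinearMap.neg_apply]
            have e6 : 2 * (bf K (w s) (w s))⁻¹ * -bf K (w s) (w s) = -2 := by
              have := w1 s hjm
              field_simp
            rw [e6]
            module
          rw [← mulVec_mulVec, ← mulVec_mulVec, e2, e5]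
      · refine cancel _ _ hc ?_
        refine ih (j + 1) (by omega) _ (mul_iso _ hc _ hA) ?_
        intro s hs
        rcases Nat.lt_succ_iff_lt_or_eq.1 hs with hs | hs
        · rw [← mulVec_mulVec, hw s hs, fixs _ (fun s hs => by
            rw [map_sub, hperp s hs, w2 s j (by omega) hjm (by omega), sub_zero]) s hs]
        · subst hs
          rw [← mulVec_mulVec, refl_mulVec hK]
          have e3 : bf K (A *ᵥ w s - w s) (A *ᵥ w s - w s) =
              2 * bf K (A *ᵥ w s) (A *ᵥ w s - w s) := by
            simp only [map_sub, LinearMap.sub_apply, hAj, bf_sym hK (A *ᵥ w s) (w s)]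
            ring
          have e4 : 2 * (bf K (A *ᵥ w s - w s) (A *ᵥ w s - w s))⁻¹ *
              bf K (A *ᵥ w s) (A *ᵥ w s - w s) = 1 := by
            rw [mul_right_comm, ← e3]
            exact mul_inv_cancel₀ hc
          rw [e4, one_smul]
          abel
  exact key m 0 (by omega) A hA fun s hs => absurd hs (Nat.not_lt_zero s)

/-- Isometries normalise the group of the Siegel transformations. -/
theorem conj_psiM {K : Matrix n n k} (hK : Kᵀ = K) {A A' : Matrix n n k} (hA : Aᵀ * K * A = K)
    (hAA : A * A' = 1) {u w : n → k} : A * psiM K u w * A' = psiM K (A *ᵥ u) (A *ᵥ w) := by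
  have hA'A : A' * A = 1 := mul_eq_one_comm.1 hAA
  have hiso : ∀ x y, bf K (A *ᵥ x) (A *ᵥ y) = bf K x y := bf_iso hA
  have h1 : ∀ x, (A * psiM K u w * A') *ᵥ x = psiM K (A *ᵥ u) (A *ᵥ w) *ᵥ x := by
    intro x
    have hx : x = A *ᵥ (A' *ᵥ x) := by rw [mulVec_mulVec, hAA, one_mulVec]
    rw [← mulVec_mulVec, ← mulVec_mulVec, psiM_mulVec hK, psiM_mulVec hK]
    conv_rhs => rw [hx]
    rw [hiso, hiso, hiso]
    rw [mulVec_sub, mulVec_add, mulVec_smul, mulVec_smul]
  ext i j
  have h2 := congrFun (h1 (Pi.single j 1)) i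
  simpa using h2

end

end Vale.Agent.P092.H899.Ort
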