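import Vale.Agent.P092.H259.Ad.Defs

/-!
P092, project RE-ADJ, block [AD-3] (helper899): brackets of minimal norm exist.  The set of the brackets
isomorphic to a given one with nondegenerate Killing form by matrices of determinant `± 1` is closed.
-/

set_option linter.all false

open Matrix Filter Topology

namespace Vale.Agent.P092.H899.Ad

open Vale.Agent.P092.H793.Re (Mat SLn RS Lie)
open Vale.Agent.P092.H259.Ad

variable {n : ℕ}

theorem br_eq (c : Ten n) (x y : Fin n → ℝ) : br c x y = adm c x *ᵥ y := by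
  ext l
  simp only [br, adm, mulVec, dotProduct, of_apply, Finset.sum_mul]
  rw [Finset.sum_comm]

theorem adm_add (c : Ten n) (x y : Fin n → ℝ) : adm c (x + y) = adm c x + adm c y := by
  ext l j
  simp [adm, mul_add, Finset.sum_add_distrib]

theorem adm_sum (c : Ten n) (x : Fin n → ℝ) :
    adm c x = ∑ i, x i • adm c (Pi.single i 1) := by
  ext l j
  rw [Matrix.sum_apply]
  show ∑ i, c i j l * x i = _
  refine Finset.sum_congr rfl fun i _ => ?_
  rw [Matrix.smul_apply, adm, of_apply, Finset.sum_eq_single i]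
  · simp [mul_comm]
  · intro b _ hb
    rw [Pi.single_eq_of_ne hb, mul_zero]
  · simp

/-- the Killing form as a trace -/
theorem tr_adm (c : Ten n) (x y : Fin n → ℝ) :
    (adm c x * adm c y).trace = x ⬝ᵥ (kil c *ᵥ y) := by
  rw [adm_sum c x, adm_sum c y, Finset.sum_mul, Matrix.trace_sum]
  simp only [dotProduct, mulVec, kil, of_apply]
  refine Finset.sum_congr rfl fun i _ => ?_
  rw [Finset.mul_sum, Matrix.trace_sum, Finset.mul_sum]
  refine Finset.sum_congr rfl fun j _ => ?_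
  rw [smul_mul_smul_comm, Matrix.trace_smul, smul_eq_mul]
  ring

theorem iso_one (c : Ten n) : Iso 1 c c := fun x y => by simp

theorem Iso.comp {g h : Mat n} {c c' c'' : Ten n} (h1 : Iso g c c') (h2 : Iso h c' c'') :
    Iso (h * g) c c'' := fun x y => by
  rw [← mulVec_mulVec, ← mulVec_mulVec, ← mulVec_mulVec, h1, h2]

theorem inv_cancel {g : Mat n} (hg : g.det ≠ 0) : g⁻¹ * g = 1 ∧ g * g⁻¹ = 1 :=
  ⟨nonsing_inv_mul _ (isUnit_iff_ne_zero.2 hg), mul_nonsing_inv _ (isUnit_iff_ne_zero.2 hg)⟩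

theorem Iso.inv {g : Mat n} {c c' : Ten n} (hg : g.det ≠ 0) (h : Iso g c c') : Iso g⁻¹ c' c := by
  obtain ⟨h1, h2⟩ := inv_cancel hg
  intro x y
  have e : ∀ z, g *ᵥ (g⁻¹ *ᵥ z) = z := fun z => by rw [mulVec_mulVec, h2, one_mulVec]
  have e' : ∀ z, g⁻¹ *ᵥ (g *ᵥ z) = z := fun z => by rw [mulVec_mulVec, h1, one_mulVec]
  have := h (g⁻¹ *ᵥ x) (g⁻¹ *ᵥ y)
  rw [e, e] at this
  rw [← this, e']

theorem Iso.lie {g : Mat n} {c c' : Ten n} (hg : g.det ≠ 0) (h : Iso g c c') (hc : IsLie c) :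
    IsLie c' := by
  obtain ⟨h1, h2⟩ := inv_cancel hg
  have e : ∀ z, g *ᵥ (g⁻¹ *ᵥ z) = z := fun z => by rw [mulVec_mulVec, h2, one_mulVec]
  have k : ∀ x y, br c' x y = g *ᵥ br c (g⁻¹ *ᵥ x) (g⁻¹ *ᵥ y) := fun x y => by rw [h, e, e]
  have e' : ∀ z, g⁻¹ *ᵥ (g *ᵥ z) = z := fun z => by rw [mulVec_mulVec, h1, one_mulVec]
  refine ⟨fun x y => ?_, fun x y z => ?_⟩
  · rw [k, k, hc.anti, mulVec_neg]
  · simp only [k, e']
    rw [hc.jac, mulVec_add]

theorem Iso.adm {g : Mat n} {c c' : Ten n} (h : Iso g c c') (x : Fin n → ℝ) :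
    g * adm c x = H259.Ad.adm c' (g *ᵥ x) * g := by
  refine Matrix.ext_of_mulVec_single fun j => ?_
  have := h x (Pi.single j 1)
  rw [br_eq, br_eq, mulVec_mulVec, mulVec_mulVec] at this
  exact this

/-- the Killing form is natural -/
theorem Iso.kil {g : Mat n} {c c' : Ten n} (hg : g.det ≠ 0) (h : Iso g c c') :
    kil c = gᵀ * H259.Ad.kil c' * g := by
  obtain ⟨h1, h2⟩ := inv_cancel hg
  have key : ∀ x y, x ⬝ᵥ (H259.Ad.kil c *ᵥ y) = x ⬝ᵥ ((gᵀ * H259.Ad.kil c' * g) *ᵥ y) := by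
    intro x y
    have a : ∀ x, H259.Ad.adm c x = g⁻¹ * H259.Ad.adm c' (g *ᵥ x) * g := fun x => by
      rw [Matrix.mul_assoc, ← Iso.adm h x, ← Matrix.mul_assoc, h1, Matrix.one_mul]
    rw [← tr_adm, a x, a y]
    have : g⁻¹ * H259.Ad.adm c' (g *ᵥ x) * g * (g⁻¹ * H259.Ad.adm c' (g *ᵥ y) * g) =
        g⁻¹ * (H259.Ad.adm c' (g *ᵥ x) * H259.Ad.adm c' (g *ᵥ y) * g) := by
      calc _ = g⁻¹ * H259.Ad.adm c' (g *ᵥ x) * (g * g⁻¹) * H259.Ad.adm c' (g *ᵥ y) * g := by
            simp only [Matrix.mul_assoc]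
        _ = _ := by rw [h2, Matrix.mul_one]; simp only [Matrix.mul_assoc]
    rw [this, Matrix.trace_mul_comm, Matrix.mul_assoc, h2, Matrix.mul_one, tr_adm,
      ← mulVec_mulVec, ← mulVec_mulVec, dotProduct_mulVec x gᵀ, vecMul_transpose]
  ext i j
  have := key (Pi.single i 1) (Pi.single j 1)
  simpa using this

theorem Iso.det_kil {g : Mat n} {c c' : Ten n} (hg : g.det ≠ 0) (h : Iso g c c') :
    (H259.Ad.kil c).det = g.det ^ 2 * (H259.Ad.kil c').det := by
  rw [Iso.kil hg h, det_mul, det_mul, det_transpose]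
  ring

theorem cont_br (x y : Fin n → ℝ) : Continuous fun c : Ten n => br c x y := by
  unfold br
  fun_prop

theorem cont_adm (x : Fin n → ℝ) : Continuous fun c : Ten n => H259.Ad.adm c x := by
  unfold H259.Ad.adm
  refine continuous_matrix fun i j => ?_
  simp only [of_apply]
  fun_prop

theorem cont_kil : Continuous fun c : Ten n => H259.Ad.kil c := by
  unfold H259.Ad.kil
  refine continuous_matrix fun i j => ?_
  simp only [of_apply]
  exact ((cont_adm _).matrix_mul (cont_adm _)).matrix_trace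

theorem closed_lie : IsClosed {c : Ten n | IsLie c} := by
  have : {c : Ten n | IsLie c} = {c | (∀ x y, br c x y = -br c y x)} ∩
      {c | ∀ x y z, br c x (br c y z) = br c (br c x y) z + br c y (br c x z)} := by
    ext c
    exact ⟨fun h => ⟨h.anti, h.jac⟩, fun h => ⟨h.1, h.2⟩⟩
  rw [this]
  have hb : ∀ f g : Ten n → Fin n → ℝ, Continuous f → Continuous g →
      Continuous fun c => br c (f c) (g c) := by
    intro f g hf hg
    unfold br
    fun_prop
  refine IsClosed.inter ?_ ?_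
  · simp only [Set.setOf_forall]
    exact isClosed_iInter fun x => isClosed_iInter fun y =>
      isClosed_eq (cont_br x y) (cont_br y x).neg
  · simp only [Set.setOf_forall]
    exact isClosed_iInter fun x => isClosed_iInter fun y => isClosed_iInter fun z =>
      isClosed_eq (hb _ _ continuous_const (cont_br y z))
        ((hb _ _ (cont_br x y) continuous_const).add (hb _ _ continuous_const (cont_br x z)))

/-- the brackets isomorphic to `c` by a matrix of determinant `± 1` -/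
def Orb (c : Ten n) : Set (Ten n) := {c' | ∃ g : Mat n, |g.det| = 1 ∧ Iso g c c'}

theorem ne_of_abs {t : ℝ} (h : |t| = 1) : t ≠ 0 := by
  rintro rfl
  simp at h

theorem orb_lie {c c' : Ten n} (hc : IsLie c) (h : c' ∈ Orb c) : IsLie c' := by
  obtain ⟨g, hg, h⟩ := h
  exact Iso.lie (ne_of_abs hg) h hc

theorem orb_kil {c c' : Ten n} (h : c' ∈ Orb c) : (kil c').det = (kil c).det := by
  obtain ⟨g, hg, h⟩ := h
  rw [Iso.det_kil (ne_of_abs hg) h, ← sq_abs, hg]
  ring

/-- the orbit is closed -/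
theorem orb_closed (hR : RigB) {c : Ten n} (hc : IsLie c) (hn : Nd c) : IsClosed (Orb c) := by
  refine isClosed_of_closure_subset fun l hl => ?_
  have hlie : IsLie l := closure_minimal (fun x hx => orb_lie hc hx) closed_lie hl
  have hdet : (kil l).det = (kil c).det := by
    have : IsClosed {x : Ten n | (kil x).det = (kil c).det} :=
      isClosed_eq cont_kil.matrix_det continuous_const
    exact closure_minimal (fun x hx => orb_kil hx) this hl
  have hnd : Nd l := by
    unfold Nd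
    rw [hdet]
    exact hn
  obtain ⟨c', hc', h⟩ := ((mem_closure_iff_frequently.1 hl).and_eventually (hR l hlie hnd)).exists
  obtain ⟨h', hh', hi⟩ := h (orb_lie hc hc')
  obtain ⟨g, hg, hgi⟩ := hc'
  have hcomp : Iso (h'⁻¹ * g) c l := Iso.comp hgi (Iso.inv hh' hi)
  have hne : (h'⁻¹ * g).det ≠ 0 := by
    rw [det_mul]
    refine mul_ne_zero ?_ (ne_of_abs hg)
    rw [det_nonsing_inv, Ring.inverse_eq_inv']
    exact inv_ne_zero hh'
  refine ⟨_, ?_, hcomp⟩
  have := Iso.det_kil hne hcomp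
  rw [hdet] at this
  have h2 : (h'⁻¹ * g).det ^ 2 = 1 := by
    have : (kil c).det * ((h'⁻¹ * g).det ^ 2 - 1) = 0 := by linarith
    rcases mul_eq_zero.1 this with h | h
    · exact absurd h hn
    · linarith
  rcases sq_eq_one_iff.1 h2 with h3 | h3 <;> rw [h3] <;> simp

theorem cont_hs : Continuous fun c : Ten n => hs c := by
  unfold hs
  fun_prop

theorem norm_le_hs (c : Ten n) : ‖c‖ ≤ Real.sqrt (hs c) := by
  refine (pi_norm_le_iff_of_nonneg (Real.sqrt_nonneg _)).2 fun i =>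
    (pi_norm_le_iff_of_nonneg (Real.sqrt_nonneg _)).2 fun j =>
    (pi_norm_le_iff_of_nonneg (Real.sqrt_nonneg _)).2 fun l => ?_
  rw [Real.norm_eq_abs, ← Real.sqrt_sq_eq_abs]
  refine Real.sqrt_le_sqrt ?_
  unfold hs
  calc c i j l ^ 2 ≤ ∑ l, c i j l ^ 2 :=
        Finset.single_le_sum (f := fun l => c i j l ^ 2) (fun _ _ => sq_nonneg _) (Finset.mem_univ l)
    _ ≤ ∑ j, ∑ l, c i j l ^ 2 :=
        Finset.single_le_sum (f := fun j => ∑ l, c i j l ^ 2)
          (fun _ _ => Finset.sum_nonneg fun _ _ => sq_nonneg _) (Finset.mem_univ j)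
    _ ≤ _ := Finset.single_le_sum (f := fun i => ∑ j, ∑ l, c i j l ^ 2)
          (fun _ _ => Finset.sum_nonneg fun _ _ => Finset.sum_nonneg fun _ _ => sq_nonneg _)
          (Finset.mem_univ i)

/-- **[AD-3] MinB** -/
theorem minB (hR : RigB) : MinB := by
  intro n c hc hn
  have hcl := orb_closed hR hc hn
  have hc0 : c ∈ Orb c := ⟨1, by simp, iso_one c⟩
  have hK : IsCompact (Orb c ∩ {x | hs x ≤ hs c}) := by
    refine Metric.isCompact_of_isClosed_isBounded
      (hcl.inter (isClosed_le cont_hs continuous_const)) ?_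
    refine (Metric.isBounded_closedBall (x := (0 : Ten n)) (r := Real.sqrt (hs c))).subset ?_
    intro x hx
    rw [mem_closedBall_zero_iff]
    exact (norm_le_hs x).trans (Real.sqrt_le_sqrt hx.2)
  obtain ⟨c₀, h₀, hmin⟩ := hK.exists_isMinOn ⟨c, hc0, le_refl (hs c)⟩ cont_hs.continuousOn
  obtain ⟨g, hg, hi⟩ := h₀.1
  refine ⟨g, c₀, hg, hi, orb_lie hc h₀.1, ?_, ?_⟩
  · unfold Nd
    rw [orb_kil h₀.1]
    exact hn
  · intro h c' hh hi'
    by_contra hlt
    rw [not_le] at hlt
    have hmem : c' ∈ Orb c := ⟨h * g, by rw [det_mul, abs_mul, hg, hh, mul_one], Iso.comp hi hi'⟩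
    have := hmin (a := c') ⟨hmem, (hlt.le.trans h₀.2)⟩
    exact absurd this (not_le.2 hlt)

end Vale.Agent.P092.H899.Ad
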