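import Vale.Agent.P092.H338.Ad5
import Mathlib.Analysis.SpecialFunctions.ExpDeriv

/-!
P092, project RE-ADJ, block [AD-8], part 1 (helper899): the identity component of the automorphism group
of a bracket is not compact as soon as some `ad x` has a real eigenvalue `≠ 0`.
-/

set_option linter.all false

open Matrix Filter Topology

namespace Vale.Agent.P092.H899.Ad

open Vale.Agent.P092.H793.Re (Mat SLn RS Lie)
open Vale.Agent.P092.H259.Ad

attribute [local instance] Matrix.linftyOpNormedRing Matrix.linftyOpNormedAlgebra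

variable {n : ℕ}

/-- the exponential of a matrix on an eigenvector -/
theorem exp_eig {X : Mat n} {y : Fin n → ℝ} {t : ℝ} (h : X *ᵥ y = t • y) (s : ℝ) :
    NormedSpace.exp (s • X) *ᵥ y = Real.exp (s * t) • y := by
  let F : ℝ → Fin n → ℝ := fun s => Real.exp (-(s * t)) • (NormedSpace.exp (s • X) *ᵥ y)
  have hF : ∀ s, HasDerivAt F 0 s := by
    intro s
    have h1 : HasDerivAt (fun s : ℝ => Real.exp (-(s * t))) (Real.exp (-(s * t)) * (-t)) s := by
      have h2 : HasDerivAt (fun s : ℝ => -(s * t)) (-t) s := by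
        have := ((hasDerivAt_id s).mul_const t).fun_neg
        rw [one_mul] at this
        exact this
      exact h2.exp
    have h3 : HasDerivAt (fun s : ℝ => NormedSpace.exp (s • X) *ᵥ y)
        (NormedSpace.exp (s • X) *ᵥ (X *ᵥ y)) s := by
      have h4 := H338.Ad.hasDerivAt_mulVec (A := fun s : ℝ => NormedSpace.exp (s • X))
        (A' := NormedSpace.exp (s • X) * X) (v := fun _ => y) (v' := 0) (t := s) ?_
        (hasDerivAt_const s y)
      · refine h4.congr_deriv ?_
        rw [mulVec_zero, add_zero, mulVec_mulVec]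
      · exact hasDerivAt_exp_smul_const (𝕂 := ℝ) X s
    have h5 := h1.smul h3
    refine h5.congr_deriv ?_
    rw [h, mulVec_smul, smul_smul, ← add_smul]
    have : Real.exp (-(s * t)) * t + Real.exp (-(s * t)) * -t = 0 := by ring
    rw [this, zero_smul]
  have hconst : F s = F 0 :=
    is_const_of_deriv_eq_zero (fun s => (hF s).differentiableAt) (fun s => (hF s).deriv) s 0
  have h0 : F 0 = y := by
    simp only [F]
    rw [zero_mul, neg_zero, Real.exp_zero, zero_smul, NormedSpace.exp_zero, one_mulVec, one_smul]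
  have h1 := congrArg (fun z => Real.exp (s * t) • z) (hconst.trans h0)
  simp only [F] at h1
  rw [smul_smul, ← Real.exp_add, add_neg_cancel, Real.exp_zero, one_smul] at h1
  exact h1

/-- **[AD-8], the criterion** -/
theorem noncomp {c : Ten n} (hc : IsLie c) (hN : Nd c) {x y : Fin n → ℝ} {t : ℝ} (ht : t ≠ 0)
    (hy : y ≠ 0) (h : br c x y = t • y) : ¬ CompactSpace (Aut0 c) := by
  intro hcomp
  have hX : adm c x *ᵥ y = t • y := by
    rw [← h]
    exact H381.Ad.adm_mulVec c x y
  have hl : Lie (rho c) (adm c x) := (H338.Ad.lie_iff_adm hc hN).2 ⟨x, rfl⟩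
  have hcont : Continuous fun g : Aut0 c => ‖(rho c g).1 *ᵥ y‖ := by
    have h1 : Continuous (rho c) := (H338.Ad.rho_emb c).continuous
    exact ((continuous_subtype_val.comp h1).matrix_mulVec continuous_const).norm
  obtain ⟨C, hC⟩ := (isCompact_range hcont).bddAbove
  have hpos : 0 < ‖y‖ := norm_pos_iff.2 hy
  have hb : ∀ s : ℝ, Real.exp (s * t) * ‖y‖ ≤ C := by
    intro s
    obtain ⟨g, hg⟩ := hl s
    have h1 : ‖(rho c g).1 *ᵥ y‖ ≤ C := hC ⟨g, rfl⟩
    rw [hg, exp_eig hX, norm_smul, Real.norm_eq_abs, abs_of_pos (Real.exp_pos _)] at h1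
    exact h1
  have h2 := hb ((C / ‖y‖) / t)
  rw [div_mul_cancel₀ _ ht] at h2
  have h3 : C / ‖y‖ + 1 ≤ Real.exp (C / ‖y‖) := Real.add_one_le_exp _
  have h4 : (C / ‖y‖ + 1) * ‖y‖ ≤ C := (mul_le_mul_of_nonneg_right h3 hpos.le).trans h2
  rw [add_mul, div_mul_cancel₀ _ hpos.ne'] at h4
  linarith

end Vale.Agent.P092.H899.Ad
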