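import Vale.Agent.P092.H35.Rp.ClsQ
import Vale.Agent.P092.H542.Rp.Gr
import Vale.Agent.P092.H899.SlSimple
import Mathlib.NumberTheory.Padics.ProperSpace
import Mathlib.Algebra.Lie.OfAssociative
import Mathlib.Algebra.Lie.Nilpotent

/-!
P092, project RP, non-vacuity (helper899): the full automorphism group of every simple Lie algebra of
finite dimension with a nonzero ad-nilpotent element is in the class `IsLie`; in particular
`Aut(sl_m(k))`, `m ≥ 2`, for every field `k` of characteristic `0`, and `IsPad` contains `Aut(sl_m(ℚ_p))`.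
-/

set_option linter.all false

open Filter Topology Module

namespace Vale.Agent.P092.H899.Ad

open Vale.Agent.P092.H213.Rp Vale.Agent.P092.H35.Rp

section aut

variable (k L : Type) [Field k] [LieRing L] [LieAlgebra k L]

/-- the group of all automorphisms of `L` -/
def AutL : Subgroup (Module.End k L)ˣ where
  carrier := {g | ∀ x y : L, (g : Module.End k L) ⁅x, y⁆ =
    ⁅(g : Module.End k L) x, (g : Module.End k L) y⁆}
  one_mem' := fun x y => rfl
  mul_mem' := fun {g h} hg hh x y => by
    show (g : Module.End k L) ((h : Module.End k L) ⁅x, y⁆) = _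
    rw [hh, hg]
    rfl
  inv_mem' := fun {g} hg x y => by
    have h1 : ∀ z, (g : Module.End k L) (((g⁻¹ : (Module.End k L)ˣ) : Module.End k L) z) = z :=
      fun z => congrArg (fun F : Module.End k L => F z) (Units.mul_inv g)
    have h2 : ∀ z, ((g⁻¹ : (Module.End k L)ˣ) : Module.End k L) ((g : Module.End k L) z) = z :=
      fun z => congrArg (fun F : Module.End k L => F z) (Units.inv_mul g)
    have h3 := hg (((g⁻¹ : (Module.End k L)ˣ) : Module.End k L) x)
      (((g⁻¹ : (Module.End k L)ˣ) : Module.End k L) y)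
    rw [h1, h1] at h3
    rw [← h3, h2]

variable {k L}
variable [TopologicalSpace k] {n : ℕ} (b : Basis (Fin n) k L)

/-- the topology of the matrix coefficients -/
@[reducible] noncomputable def topA : TopologicalSpace (AutL k L) :=
  TopologicalSpace.induced
    (fun (g : AutL k L) (i j : Fin n) => b.repr ((g.1 : Module.End k L) (b j)) i) inferInstance

/-- the full automorphism group is in the class -/
theorem isLie_aut [CharZero k] [LieAlgebra.IsSimple k L] (hx : ∃ x : L, x ≠ 0 ∧ Nil k x) :
    letI := topA b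
    IsLie k (AutL k L) := by
  letI := topA b
  haveI : Module.Finite k L := Module.Finite.of_basis b
  refine ⟨L, _, _, n, b, (Units.coeHom _).comp (AutL k L).subtype, inferInstance, ?_, fun g => g.2,
    ?_, ⟨⟨rfl⟩, ?_⟩⟩
  · obtain ⟨x, hx0, hn⟩ := hx
    exact ⟨x, hx0, _, (isExp_iff x _).2 ⟨hn, rfl⟩⟩
  · intro x ψ h
    obtain ⟨hn, rfl⟩ := (isExp_iff x ψ).1 h
    let u : (Module.End k L)ˣ :=
      ⟨eu k x, eu k (-x), H542.Rp.eu_mul_neg hn, H542.Rp.eu_neg_mul hn⟩
    exact ⟨⟨u, fun y z => H542.Rp.eu_lie hn y z⟩, rfl⟩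
  · intro g h hgh
    refine Subtype.ext (Units.ext (b.ext fun j => ?_))
    refine b.repr.injective (Finsupp.ext fun i => ?_)
    exact congrFun (congrFun hgh i) j

end aut

section sl

variable (k : Type) [Field k] [CharZero k] {m : ℕ}

attribute [local instance 100] LieRing.ofAssociativeRing

theorem nil_single {i j : Fin m} (h : i ≠ j) :
    Nil k (LieAlgebra.SpecialLinear.single i j h (1 : k)) := by
  refine LieAlgebra.isNilpotent_ad_of_isNilpotent ⟨2, ?_⟩
  rw [pow_two]
  exact Matrix.single_mul_single_of_ne _ _ _ _ h.symm _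

/-- `Aut(sl_m(k))`, `m ≥ 2`, is in the class -/
theorem isLie_sl [TopologicalSpace k] (hm : 2 ≤ m) :
    letI := topA (Module.finBasis k (LieAlgebra.SpecialLinear.sl (Fin m) k))
    IsLie k (AutL k (LieAlgebra.SpecialLinear.sl (Fin m) k)) := by
  have hc : 1 < Fintype.card (Fin m) := by rw [Fintype.card_fin]; exact hm
  haveI := Sl.isSimple_sl (K := k) hc
  have h01 : (⟨0, by omega⟩ : Fin m) ≠ ⟨1, by omega⟩ := by
    intro h
    have := congrArg Fin.val h
    simp at this
  refine isLie_aut _ ⟨_, ?_, nil_single k h01⟩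
  intro h
  have h1 := congrArg (fun X => X.1 ⟨0, by omega⟩ ⟨1, by omega⟩) h
  simp only [LieAlgebra.SpecialLinear.val_single, Matrix.single_apply_same] at h1
  exact one_ne_zero h1

end sl

/-- `Aut(sl_m(ℚ_p))`, `m ≥ 2`, is in the class `IsPad` -/
theorem isPad_sl (p : ℕ) [Fact p.Prime] {m : ℕ} (hm : 2 ≤ m) :
    letI := topA (Module.finBasis ℚ_[p] (LieAlgebra.SpecialLinear.sl (Fin m) ℚ_[p]))
    IsPad (AutL ℚ_[p] (LieAlgebra.SpecialLinear.sl (Fin m) ℚ_[p])) :=
  ⟨ℚ_[p], inferInstance, inferInstance, inferInstance, inferInstance, isLie_sl ℚ_[p] hm⟩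

end Vale.Agent.P092.H899.Ad
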