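import Vale.Agent.P092.H899.G1
import Vale.Agent.P092.H370.Po4

/-!
P092 (helper899), block [TGT-G], part 2: a subspace on which the form is small is near to a
singular subspace (compactness of the Grassmannian).
-/

set_option linter.all false

open Matrix Topology Module Set Filter

namespace Vale.Agent.P092.H899.G

open Vale.Agent.P092.H100.Gr (Gr Fr sp sp_surj ch exists_ch ch_compact)
open Vale.Agent.P092.H899.T (Nr)
open Vale.Agent.P092.H370.Po
open Vale.Agent.P092.H714.Cl

section near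

variable {k : Type} [NontriviallyNormedField k] {ι : Type} [Fintype ι]

theorem nr_of_ch {d : ℕ} {I : Fin d → ι} {v v' : Fr k ι d} (hv : v.1 ∈ ch (k := k) I) {η : ℝ}
    (h : ∀ b, ‖v.1 b - v'.1 b‖ ≤ η) : Nr (d * η) (sp v).1 (sp v').1 := by
  intro w hw
  obtain ⟨c, hc⟩ := (Submodule.mem_span_range_iff_exists_fun k).1
    (show w ∈ Submodule.span k (range v.1) from hw)
  have hcw : ∀ a, ‖c a‖ ≤ ‖w‖ := by
    intro a
    have e : w (I a) = c a := by
      rw [← hc, Finset.sum_apply, Finset.sum_eq_single a]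
      · rw [Pi.smul_apply, hv.1, Matrix.one_apply_eq, smul_eq_mul, mul_one]
      · intro b _ hb
        rw [Pi.smul_apply, hv.1, Matrix.one_apply_ne hb, smul_eq_mul, mul_zero]
      · intro h
        exact absurd (Finset.mem_univ a) h
    rw [← e]
    exact norm_le_pi_norm w _
  refine ⟨∑ b, c b • v'.1 b, Submodule.sum_mem _ fun b _ => Submodule.smul_mem _ _
    (Submodule.subset_span ⟨b, rfl⟩), ?_⟩
  rw [← hc, ← Finset.sum_sub_distrib]
  refine (norm_sum_le _ _).trans ?_
  calc ∑ b, ‖c b • v.1 b - c b • v'.1 b‖ ≤ ∑ _b : Fin d, ‖w‖ * η := by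
        refine Finset.sum_le_sum fun b _ => ?_
        rw [← smul_sub, norm_smul]
        exact mul_le_mul (hcw b) (h b) (norm_nonneg _) (norm_nonneg _)
    _ = d * η * ‖∑ i, c i • v.1 i‖ := by
        rw [Finset.sum_const, Finset.card_univ, Fintype.card_fin, nsmul_eq_mul, hc]
        ring

theorem cont_of_isom {σ : k →+* k} (hσ : ∀ x, ‖σ x‖ = ‖x‖) : Continuous σ :=
  (Isometry.of_dist_eq fun x y => by
    rw [dist_eq_norm, dist_eq_norm, ← map_sub, hσ] : Isometry σ).continuous

theorem hf_cont {σ : k →+* k} (hσ : Continuous σ) (J : Matrix ι ι k) :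
    Continuous fun p : (ι → k) × (ι → k) => hf σ J p.1 p.2 := by
  unfold hf dotProduct mulVec dotProduct
  refine continuous_finset_sum _ fun i _ => ?_
  refine ((continuous_apply i).comp continuous_fst).mul ?_
  refine continuous_finset_sum _ fun j _ => ?_
  exact continuous_const.mul (hσ.comp ((continuous_apply j).comp continuous_snd))

theorem hf_bd {σ : k →+* k} (hσ : ∀ x, ‖σ x‖ = ‖x‖) (J : Matrix ι ι k) :
    ∃ B : ℝ, 0 ≤ B ∧ ∀ x y : ι → k, ‖hf σ J x y‖ ≤ B * (‖x‖ * ‖y‖) := by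
  refine ⟨∑ i, ∑ j, ‖J i j‖, by positivity, fun x y => ?_⟩
  unfold hf dotProduct mulVec dotProduct
  refine (norm_sum_le _ _).trans ?_
  rw [Finset.sum_mul]
  refine Finset.sum_le_sum fun i _ => ?_
  rw [norm_mul, Finset.sum_mul]
  calc ‖x i‖ * ‖∑ j, J i j * σ (y j)‖ ≤ ‖x‖ * ∑ j, ‖J i j‖ * ‖y‖ := by
        refine mul_le_mul (norm_le_pi_norm x i) ((norm_sum_le _ _).trans ?_) (norm_nonneg _)
          (norm_nonneg _)
        refine Finset.sum_le_sum fun j _ => ?_
        rw [norm_mul, hσ]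
        exact mul_le_mul_of_nonneg_left (norm_le_pi_norm y j) (norm_nonneg _)
    _ = _ := by
        rw [Finset.mul_sum]
        refine Finset.sum_congr rfl fun j _ => ?_
        ring

theorem exists_low {α : Type} [Finite α] {f : α → ℝ} (hf : ∀ a, 0 < f a) :
    ∃ η : ℝ, 0 < η ∧ ∀ a, η ≤ f a := by
  rcases isEmpty_or_nonempty α with h | h
  · exact ⟨1, one_pos, fun a => (h.false a).elim⟩
  · obtain ⟨a, ha⟩ := Finite.exists_min f
    exact ⟨f a, hf a, ha⟩

variable [ProperSpace k] [DecidableEq ι]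

/-- **A subspace on which the form is small is near to a singular subspace.** -/
theorem near_sing {σ : k →+* k} (hσ : ∀ x, ‖σ x‖ = ‖x‖) (J : Matrix ι ι k) (d : ℕ) {δ : ℝ}
    (hδ : 0 < δ) : ∃ η : ℝ, 0 < η ∧ ∀ L : Gr k ι d,
      (∀ v ∈ L.1, ∀ w ∈ L.1, ‖hf σ J v w‖ ≤ η * (‖v‖ * ‖w‖)) → ∃ X : SGr σ J d, Nr δ L.1 X.S := by
  have hσc := cont_of_isom hσ
  obtain ⟨δ', hδ'⟩ : ∃ δ' : ℝ, δ' = δ / (d + 1) := ⟨_, rfl⟩
  have hδ'0 : 0 < δ' := by rw [hδ']; positivity
  -- one chart
  have key : ∀ I : Fin d → ι, ∃ η : ℝ, 0 < η ∧ ∀ v ∈ ch (k := k) I,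
      (∀ a b, ‖hf σ J (v a) (v b)‖ ≤ η) → ∃ v' ∈ ch (k := k) I,
        (∀ a b, hf σ J (v' a) (v' b) = 0) ∧ ∀ b, ‖v b - v' b‖ ≤ δ' := by
    intro I
    obtain ⟨Z, hZ⟩ : ∃ Z : Set (Fin d → ι → k), Z = {v | v ∈ ch (k := k) I ∧
      ∀ a b, hf σ J (v a) (v b) = 0} := ⟨_, rfl⟩
    obtain ⟨C, hC⟩ : ∃ C : Set (Fin d → ι → k), C = {v | v ∈ ch (k := k) I ∧
      ∀ v' ∈ Z, δ' ≤ dist v v'} := ⟨_, rfl⟩
    obtain ⟨s, hs⟩ : ∃ s : (Fin d → ι → k) → ℝ, s = fun v => ∑ a, ∑ b, ‖hf σ J (v a) (v b)‖ :=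
      ⟨_, rfl⟩
    have hsc : Continuous s := by
      rw [hs]
      refine continuous_finset_sum _ fun a _ => continuous_finset_sum _ fun b _ => ?_
      have h2 : Continuous fun v : Fin d → ι → k => (v a, v b) :=
        (continuous_apply a).prodMk (continuous_apply b)
      exact ((hf_cont hσc J).comp h2).norm
    have hCc : IsCompact C := by
      have h1 : IsClosed {v : Fin d → ι → k | ∀ v' ∈ Z, δ' ≤ dist v v'} := by
        have e : {v : Fin d → ι → k | ∀ v' ∈ Z, δ' ≤ dist v v'} =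
            ⋂ v' ∈ Z, {v | δ' ≤ dist v v'} := by
          ext v
          simp
        rw [e]
        exact isClosed_biInter fun v' _ =>
          isClosed_le continuous_const (continuous_id.dist continuous_const)
      have e : C = ch (k := k) I ∩ {v : Fin d → ι → k | ∀ v' ∈ Z, δ' ≤ dist v v'} := by
        rw [hC]
        rfl
      rw [e]
      exact (ch_compact I).inter_right h1
    have hpos : ∀ v ∈ C, 0 < s v := by
      intro v hv
      have h0 : 0 ≤ s v := by rw [hs]; positivity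
      refine lt_of_le_of_ne h0 fun h => ?_
      rw [hC] at hv
      have hz : v ∈ Z := by
        rw [hZ]
        refine ⟨hv.1, fun a b => ?_⟩
        rw [hs] at h
        have h1 := (Finset.sum_eq_zero_iff_of_nonneg (fun a _ => by positivity)).1 h.symm a
          (Finset.mem_univ a)
        have h2 := (Finset.sum_eq_zero_iff_of_nonneg (fun b _ => norm_nonneg _)).1 h1 b
          (Finset.mem_univ b)
        exact norm_eq_zero.1 h2
      have := hv.2 v hz
      rw [dist_self] at this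
      linarith
    obtain ⟨η, hη, hηC⟩ : ∃ η : ℝ, 0 < η ∧ ∀ v ∈ C, η ≤ s v := by
      rcases C.eq_empty_or_nonempty with h | h
      · exact ⟨1, one_pos, fun v hv => absurd hv (by rw [h]; exact notMem_empty v)⟩
      · obtain ⟨v, hv, hmin⟩ := hCc.exists_isMinOn h hsc.continuousOn
        exact ⟨s v, hpos v hv, fun v' hv' => hmin hv'⟩
    refine ⟨η / (d * d + 1), by positivity, fun v hv hsm => ?_⟩
    have hlt : s v < η := by
      rw [hs]
      calc ∑ a, ∑ b, ‖hf σ J (v a) (v b)‖ ≤ ∑ _a : Fin d, ∑ _b : Fin d, η / (d * d + 1) :=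
            Finset.sum_le_sum fun a _ => Finset.sum_le_sum fun b _ => hsm a b
        _ = (d * d) * (η / (d * d + 1)) := by
            simp only [Finset.sum_const, Finset.card_univ, Fintype.card_fin, nsmul_eq_mul]
            ring
        _ < η := by
            rw [mul_div_assoc', div_lt_iff₀ (by positivity)]
            nlinarith
    have hvC : v ∉ C := fun h => absurd (hηC v h) (not_le.2 hlt)
    rw [hC] at hvC
    have h1 : ∃ v' ∈ Z, dist v v' < δ' := by
      by_contra hcon
      push Not at hcon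
      exact hvC ⟨hv, hcon⟩
    obtain ⟨v', hv', hd⟩ := h1
    rw [hZ] at hv'
    refine ⟨v', hv'.1, hv'.2, fun b => ?_⟩
    rw [← dist_eq_norm]
    exact (dist_le_pi_dist v v' b).trans hd.le
  choose η hη hηI using key
  obtain ⟨η₀, hη₀, hle⟩ := exists_low hη
  refine ⟨η₀, hη₀, fun L hL => ?_⟩
  obtain ⟨I, v, hv, rfl⟩ := exists_ch L
  have hv1 : ∀ a, ‖v.1 a‖ ≤ 1 := fun a => by
    rw [pi_norm_le_iff_of_nonneg zero_le_one]
    exact hv.2 a
  obtain ⟨v', hv', hs', hn'⟩ := hηI I v.1 hv fun a b => by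
    refine (hL _ (Submodule.subset_span ⟨a, rfl⟩) _ (Submodule.subset_span ⟨b, rfl⟩)).trans ?_
    have h1 := hv1 a
    have h2 := hv1 b
    have h3 := norm_nonneg (v.1 a)
    have h4 := norm_nonneg (v.1 b)
    calc η₀ * (‖v.1 a‖ * ‖v.1 b‖) ≤ η₀ * (1 * 1) := by gcongr
      _ ≤ η I := by rw [mul_one, mul_one]; exact hle I
  have hli : LinearIndependent k v' := H100.Gr.li_of_mn (I := I) (by
    rw [H100.Gr.ch_mn hv']
    exact one_ne_zero)
  have hsing : Sing σ J (Submodule.span k (range v')) := by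
    intro x hx y hy
    obtain ⟨c, rfl⟩ := (Submodule.mem_span_range_iff_exists_fun k).1 hx
    obtain ⟨c', rfl⟩ := (Submodule.mem_span_range_iff_exists_fun k).1 hy
    have h1 : ∀ (s : Finset (Fin d)) (y : ι → k), (∀ a, hf σ J (v' a) y = 0) →
        hf σ J (∑ i ∈ s, c i • v' i) y = 0 := by
      intro s y hy
      induction s using Finset.induction_on with
      | empty => rw [Finset.sum_empty, hf_zero_left]
      | insert a s ha ih =>
        rw [Finset.sum_insert ha, hf_add_left, ih, hf_smul_left, hy, mul_zero, add_zero]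
    have h2 : ∀ (s : Finset (Fin d)) (a : Fin d), hf σ J (v' a) (∑ i ∈ s, c' i • v' i) = 0 := by
      intro s a
      induction s using Finset.induction_on with
      | empty => rw [Finset.sum_empty, hf_zero_right]
      | insert b s hb ih =>
        rw [Finset.sum_insert hb, hf_add_right, ih, hf_smul_right, hs', mul_zero, add_zero]
    exact h1 _ _ fun a => h2 _ a
  refine ⟨SGr.mk' (Submodule.span k (range v')) hsing
    ((finrank_span_eq_card hli).trans (Fintype.card_fin d)), ?_⟩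
  have hn : Nr (d * δ') (sp v).1 (sp ⟨v', hli⟩).1 := nr_of_ch hv hn'
  refine hn.mono ?_
  rw [hδ', mul_div_assoc', div_le_iff₀ (by positivity)]
  nlinarith

end near

end Vale.Agent.P092.H899.G
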