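import Vale.Agent.P092.H899.G2
import Vale.Agent.P092.H933.Cart

/-!
P092 (helper899), block [TGT-G], part 3: bounded Cartan decompositions for any index type; the
attracting singular subspace of an isometry.
-/

set_option linter.all false

open Matrix Topology Module Set Filter

namespace Vale.Agent.P092.H899.G

open Vale.Agent.P092.H100.Gr (Gr Fr sp sp_surj ch exists_ch ch_compact)
open Vale.Agent.P092.H899.T (Nr)
open Vale.Agent.P092.H370.Po
open Vale.Agent.P092.H714.Cl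
open Vale.Agent.P092.H933 (LocK BCart gsys_gl)

section dec

variable {k : Type} [NontriviallyNormedField k] {ι : Type} [Fintype ι] {N : ℕ}

theorem nv {m n : Type} [Fintype m] [Fintype n] {A : Matrix m n k} {C : ℝ} (hC : 0 ≤ C)
    (h : ∀ i j, ‖A i j‖ ≤ C) (v : n → k) : ‖A *ᵥ v‖ ≤ Fintype.card n * C * ‖v‖ := by
  rw [pi_norm_le_iff_of_nonneg (by positivity)]
  intro i
  refine (norm_sum_le _ _).trans ?_
  calc ∑ j, ‖A i j * v j‖ ≤ ∑ _j : n, C * ‖v‖ := by
        refine Finset.sum_le_sum fun j _ => ?_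
        rw [norm_mul]
        exact mul_le_mul (h i j) (norm_le_pi_norm v j) (norm_nonneg _) hC
    _ = _ := by rw [Finset.sum_const, Finset.card_univ, nsmul_eq_mul]; ring

variable [DecidableEq ι]

/-- A bounded Cartan decomposition `z = κ diag(a) κ'`, any index type. -/
structure DecI (C : ℝ) (z : Matrix ι ι k) (κ : Matrix ι (Fin N) k) (κi : Matrix (Fin N) ι k)
    (κ' : Matrix (Fin N) ι k) (κi' : Matrix ι (Fin N) k) (a : Fin N → k) : Prop where
  mul : κi * κ = 1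
  mul' : κ' * κi' = 1
  comm : κ * κi = 1
  comm' : κi' * κ' = 1
  le : ∀ i j, ‖κ i j‖ ≤ C
  lei : ∀ i j, ‖κi i j‖ ≤ C
  le' : ∀ i j, ‖κ' i j‖ ≤ C
  lei' : ∀ i j, ‖κi' i j‖ ≤ C
  eq : z = κ * Matrix.diagonal a * κ'
  ne : ∀ i, a i ≠ 0
  anti : Antitone fun i => ‖a i‖

theorem exists_decI [ProperSpace k] (hk : LocK k) [Nonempty ι] :
    ∃ C : ℝ, 1 ≤ C ∧ ∀ z : Matrix ι ι k, z.det = 1 →
      ∃ (κ : Matrix ι (Fin (Fintype.card ι)) k) (κi κ' : Matrix (Fin (Fintype.card ι)) ι k)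
        (κi' : Matrix ι (Fin (Fintype.card ι)) k) (a : Fin (Fintype.card ι) → k),
        DecI C z κ κi κ' κi' a := by
  obtain ⟨e⟩ : Nonempty (ι ≃ Fin (Fintype.card ι)) := ⟨Fintype.equivFin ι⟩
  obtain ⟨gp, w, c, C, hc, hs, hw, hcar⟩ := gsys_gl hk (Fintype.card_pos (α := ι))
    (m := fun g : SpecialLinearGroup (Fin (Fintype.card ι)) k => g.1) (fun g h => rfl)
    (fun g => by rw [g.2, norm_one])
  refine ⟨max C 1, le_max_right _ _, fun z hz => ?_⟩
  have hdet : (z.submatrix e.symm e.symm).det = 1 := by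
    rw [det_submatrix_equiv_self, hz]
  obtain ⟨κ, κi, κ', κi', a, h1, h2, h3, h4, h5, h6, -⟩ := hcar ⟨z.submatrix e.symm e.symm, hdet⟩
  have h1' : κi * κ = 1 := mul_eq_one_comm.1 h1
  have h2' : κi' * κ' = 1 := mul_eq_one_comm.1 h2
  refine ⟨κ.submatrix e id, κi.submatrix id e, κ'.submatrix id e, κi'.submatrix e id, a,
    ⟨?_, ?_, ?_, ?_, fun i j => ?_, fun i j => ?_, fun i j => ?_, fun i j => ?_, ?_, h4, h5⟩⟩
  · ext i j
    rw [← h1', Matrix.mul_apply, Matrix.mul_apply]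
    exact Equiv.sum_comp e fun l => κi i l * κ l j
  · ext i j
    rw [← h2, Matrix.mul_apply, Matrix.mul_apply]
    exact Equiv.sum_comp e fun l => κ' i l * κi' l j
  · ext i j
    have e1 : (κ.submatrix e id * κi.submatrix id e) i j = (κ * κi) (e i) (e j) := by
      rw [Matrix.mul_apply, Matrix.mul_apply]
      rfl
    rw [e1, h1, Matrix.one_apply, Matrix.one_apply]
    simp only [e.injective.eq_iff]
  · ext i j
    have e1 : (κi'.submatrix e id * κ'.submatrix id e) i j = (κi' * κ') (e i) (e j) := by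
      rw [Matrix.mul_apply, Matrix.mul_apply]
      rfl
    rw [e1, h2', Matrix.one_apply, Matrix.one_apply]
    simp only [e.injective.eq_iff]
  · exact (h3 _ _).1.trans (le_max_left _ _)
  · exact (h3 _ _).2.1.trans (le_max_left _ _)
  · exact (h3 _ _).2.2.1.trans (le_max_left _ _)
  · exact (h3 _ _).2.2.2.trans (le_max_left _ _)
  · ext i j
    have e1 : z i j = (z.submatrix e.symm e.symm) (e i) (e j) := by
      rw [submatrix_apply, Equiv.symm_apply_apply, Equiv.symm_apply_apply]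
    have e2 : (κ.submatrix e id * Matrix.diagonal a * κ'.submatrix id e) i j =
        (κ * Matrix.diagonal a * κ') (e i) (e j) := by
      rw [Matrix.mul_apply, Matrix.mul_apply]
      refine Finset.sum_congr rfl fun l _ => ?_
      rw [mul_diagonal, mul_diagonal]
      rfl
    rw [e1, e2]
    exact congrFun (congrFun h6 _) _

namespace DecI

variable {C : ℝ} {z : Matrix ι ι k} {κ : Matrix ι (Fin N) k} {κi κ' : Matrix (Fin N) ι k}
  {κi' : Matrix ι (Fin N) k} {a : Fin N → k}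

/-- the norm of the diagonal part from below -/
theorem diag_low (a : Fin N → k) (y : Fin N → k) {d : ℕ} (hd : 1 ≤ d) (hdN : d ≤ N)
    (ha : Antitone fun i => ‖a i‖) (hy : ∀ i : Fin N, d ≤ (i : ℕ) → y i = 0) :
    ‖a ⟨d - 1, by omega⟩‖ * ‖y‖ ≤ ‖Matrix.diagonal a *ᵥ y‖ := by
  have h1 : ∀ i, ‖a ⟨d - 1, by omega⟩‖ * ‖y i‖ ≤ ‖Matrix.diagonal a *ᵥ y‖ := by
    intro i
    by_cases hi : d ≤ (i : ℕ)
    · rw [hy i hi, norm_zero, mul_zero]
      exact norm_nonneg _
    · have h2 : ‖a ⟨d - 1, by omega⟩‖ ≤ ‖a i‖ := ha (Fin.le_def.2 (by simp only; omega))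
      have h3 : (Matrix.diagonal a *ᵥ y) i = a i * y i := mulVec_diagonal a y i
      calc ‖a ⟨d - 1, by omega⟩‖ * ‖y i‖ ≤ ‖a i‖ * ‖y i‖ :=
            mul_le_mul_of_nonneg_right h2 (norm_nonneg _)
        _ = ‖(Matrix.diagonal a *ᵥ y) i‖ := by rw [h3, norm_mul]
        _ ≤ _ := norm_le_pi_norm _ i
  have h2 : Nonempty (Fin N) := ⟨⟨d - 1, by omega⟩⟩
  obtain ⟨i, hi⟩ := Finite.exists_max fun i => ‖y i‖
  have h3 : ‖y‖ ≤ ‖y i‖ := (pi_norm_le_iff_of_nonneg (norm_nonneg _)).2 hi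
  exact (mul_le_mul_of_nonneg_left h3 (norm_nonneg _)).trans (h1 i)

/-- the norm of a diagonal matrix -/
theorem diag_up {b : Fin N → k} {s : ℝ} (hs : 0 ≤ s) (hb : ∀ i, ‖b i‖ ≤ s) (y : Fin N → k) :
    ‖Matrix.diagonal b *ᵥ y‖ ≤ s * ‖y‖ := by
  rw [pi_norm_le_iff_of_nonneg (by positivity)]
  intro i
  rw [mulVec_diagonal, norm_mul]
  exact mul_le_mul (hb i) (norm_le_pi_norm y i) (norm_nonneg _) hs

/-- the expanded subspace -/
theorem exists_V (h : DecI C z κ κi κ' κi' a) (hC : 0 ≤ C) {K : ℝ} (hK1 : 1 ≤ K)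
    (hK : K = (N + Fintype.card ι) * C) {d : ℕ} (hd : 1 ≤ d) (hdN : d ≤ N) :
    ∃ V : Submodule k (ι → k), finrank k V = d ∧
      (∀ v ∈ V, ‖a ⟨d - 1, by omega⟩‖ / K ^ 2 * ‖v‖ ≤ ‖z *ᵥ v‖) ∧
      ∃ A : Matrix ι ι k, (∀ v, A *ᵥ v ∈ V.map z.mulVecLin) ∧
        (∀ v, ‖A *ᵥ v‖ ≤ K ^ 2 * ‖a ⟨0, by omega⟩‖ * ‖v‖) ∧
        ∀ s : ℝ, (∀ i : Fin N, d ≤ (i : ℕ) → ‖a i‖ ≤ s) → 0 ≤ s →
          ∀ v, ‖z *ᵥ v - A *ᵥ v‖ ≤ K ^ 2 * s * ‖v‖ := by
  have hK0 : 0 < K := by linarith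
  have hcN : (N : ℝ) * C ≤ K := by
    rw [hK]
    have : 0 ≤ (Fintype.card ι : ℝ) * C := by positivity
    linarith
  have hcι : (Fintype.card ι : ℝ) * C ≤ K := by
    rw [hK]
    have : 0 ≤ (N : ℝ) * C := by positivity
    linarith
  have bκ : ∀ y, ‖κ *ᵥ y‖ ≤ K * ‖y‖ := fun y => (nv hC h.le y).trans
    (mul_le_mul_of_nonneg_right (by rw [Fintype.card_fin]; exact hcN) (norm_nonneg _))
  have bκi' : ∀ y, ‖κi' *ᵥ y‖ ≤ K * ‖y‖ := fun y => (nv hC h.lei' y).trans
    (mul_le_mul_of_nonneg_right (by rw [Fintype.card_fin]; exact hcN) (norm_nonneg _))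
  have bκi : ∀ y, ‖κi *ᵥ y‖ ≤ K * ‖y‖ := fun y => (nv hC h.lei y).trans
    (mul_le_mul_of_nonneg_right hcι (norm_nonneg _))
  have bκ' : ∀ y, ‖κ' *ᵥ y‖ ≤ K * ‖y‖ := fun y => (nv hC h.le' y).trans
    (mul_le_mul_of_nonneg_right hcι (norm_nonneg _))
  -- the coordinate subspace
  let P : Submodule k (Fin N → k) :=
    { carrier := {y | ∀ i : Fin N, d ≤ (i : ℕ) → y i = 0}
      zero_mem' := fun i _ => rfl
      add_mem' := fun {x y} hx hy i hi => by rw [Pi.add_apply, hx i hi, hy i hi, add_zero]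
      smul_mem' := fun c x hx i hi => by rw [Pi.smul_apply, hx i hi, smul_zero] }
  have hPd : finrank k P = d := by
    let f : P ≃ₗ[k] (Fin d → k) :=
      { toFun := fun y i => y.1 (Fin.castLE hdN i)
        map_add' := fun x y => rfl
        map_smul' := fun c x => rfl
        invFun := fun x => ⟨fun i => if hi : (i : ℕ) < d then x ⟨i, hi⟩ else 0, fun i hi =>
          dif_neg (not_lt.2 hi)⟩
        left_inv := fun y => by
          refine Subtype.ext (funext fun i => ?_)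
          by_cases hi : (i : ℕ) < d
          · simp only [dif_pos hi]
            rfl
          · simp only [dif_neg hi]
            exact (y.2 i (not_lt.1 hi)).symm
        right_inv := fun x => by
          funext i
          have hi : ((Fin.castLE hdN i : Fin N) : ℕ) < d := i.2
          simp only [dif_pos hi]
          rfl }
    rw [LinearEquiv.finrank_eq f, Module.finrank_fin_fun]
  have hinj : Function.Injective κi'.mulVecLin := by
    intro v w hvw
    have h' : κi' *ᵥ v = κi' *ᵥ w := hvw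
    have := congrArg (fun y => κ' *ᵥ y) h'
    simpa only [mulVec_mulVec, h.mul', one_mulVec] using this
  have hz : ∀ y, z *ᵥ (κi' *ᵥ y) = κ *ᵥ (Matrix.diagonal a *ᵥ y) := by
    intro y
    rw [h.eq, mulVec_mulVec, Matrix.mul_assoc, h.mul', Matrix.mul_one, mulVec_mulVec]
  refine ⟨P.map κi'.mulVecLin, ?_, ?_, κ * Matrix.diagonal (fun i : Fin N => if (i : ℕ) < d then a i else 0) * κ',
    ?_, ?_, ?_⟩
  · rw [← hPd]
    exact (LinearEquiv.finrank_eq (Submodule.equivMapOfInjective _ hinj P)).symm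
  · rintro _ ⟨y, hy, rfl⟩
    rw [mulVecLin_apply, hz]
    have a1 := diag_low a y hd hdN h.anti hy
    have a2 := bκi' y
    have a3 : ‖Matrix.diagonal a *ᵥ y‖ ≤ K * ‖κ *ᵥ (Matrix.diagonal a *ᵥ y)‖ := by
      have h5 := bκi (κ *ᵥ (Matrix.diagonal a *ᵥ y))
      have e5 : κi *ᵥ (κ *ᵥ (Matrix.diagonal a *ᵥ y)) = Matrix.diagonal a *ᵥ y := by
        rw [mulVec_mulVec (Matrix.diagonal a *ᵥ y) κi κ, h.mul, one_mulVec]
      rwa [e5] at h5
    rw [div_mul_eq_mul_div, div_le_iff₀ (by positivity)]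
    calc ‖a ⟨d - 1, by omega⟩‖ * ‖κi' *ᵥ y‖ ≤ ‖a ⟨d - 1, by omega⟩‖ * (K * ‖y‖) := by gcongr
      _ = K * (‖a ⟨d - 1, by omega⟩‖ * ‖y‖) := by ring
      _ ≤ K * (K * ‖κ *ᵥ (Matrix.diagonal a *ᵥ y)‖) := mul_le_mul_of_nonneg_left (a1.trans a3) hK0.le
      _ = _ := by ring
  · intro v
    obtain ⟨y, hy⟩ : ∃ y : Fin N → k, y = fun i : Fin N => if (i : ℕ) < d then (κ' *ᵥ v) i else 0 :=
      ⟨_, rfl⟩
    have hyP : y ∈ P := fun i hi => by rw [hy]; exact if_neg (not_lt.2 hi)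
    refine ⟨κi' *ᵥ y, ⟨y, hyP, rfl⟩, ?_⟩
    rw [mulVecLin_apply, hz, Matrix.mul_assoc, ← mulVec_mulVec, ← mulVec_mulVec]
    congr 1
    funext i
    rw [mulVec_diagonal, mulVec_diagonal, hy]
    by_cases hi : (i : ℕ) < d
    · simp only [if_pos hi]
    · simp only [if_neg hi, mul_zero, zero_mul]
  · intro v
    rw [Matrix.mul_assoc, ← mulVec_mulVec, ← mulVec_mulVec]
    have a1 := bκ (Matrix.diagonal (fun i : Fin N => if (i : ℕ) < d then a i else 0) *ᵥ (κ' *ᵥ v))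
    have a2 := diag_up (b := fun i : Fin N => if (i : ℕ) < d then a i else 0)
      (norm_nonneg (a ⟨0, by omega⟩)) (fun i => by
        by_cases hi : (i : ℕ) < d
        · simp only [if_pos hi]
          exact h.anti (Fin.le_def.2 (Nat.zero_le _))
        · simp only [if_neg hi, norm_zero]
          exact norm_nonneg _) (κ' *ᵥ v)
    have a3 := bκ' v
    calc _ ≤ K * _ := a1
      _ ≤ K * (‖a ⟨0, by omega⟩‖ * (K * ‖v‖)) :=
          mul_le_mul_of_nonneg_left (a2.trans (mul_le_mul_of_nonneg_left a3 (norm_nonneg _))) hK0.le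
      _ = _ := by ring
  · intro s hs hs0 v
    have e1 : z *ᵥ v - (κ * Matrix.diagonal (fun i : Fin N => if (i : ℕ) < d then a i else 0) * κ') *ᵥ v =
        κ *ᵥ (Matrix.diagonal (fun i : Fin N => if (i : ℕ) < d then 0 else a i) *ᵥ (κ' *ᵥ v)) := by
      have e2 : Matrix.diagonal a - Matrix.diagonal (fun i : Fin N => if (i : ℕ) < d then a i else 0) =
          Matrix.diagonal (fun i : Fin N => if (i : ℕ) < d then 0 else a i) := by
        rw [diagonal_sub]
        congr 1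
        funext i
        by_cases hi : (i : ℕ) < d
        · simp only [if_pos hi, sub_self]
        · simp only [if_neg hi, sub_zero]
      rw [← sub_mulVec, h.eq, Matrix.mul_assoc, Matrix.mul_assoc, ← Matrix.mul_sub,
        ← Matrix.sub_mul, e2, ← mulVec_mulVec, ← mulVec_mulVec]
    rw [e1]
    have a1 := bκ (Matrix.diagonal (fun i : Fin N => if (i : ℕ) < d then 0 else a i) *ᵥ (κ' *ᵥ v))
    have a2 := diag_up (b := fun i : Fin N => if (i : ℕ) < d then 0 else a i) hs0 (fun i => by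
        by_cases hi : (i : ℕ) < d
        · simp only [if_pos hi, norm_zero]
          exact hs0
        · simp only [if_neg hi]
          exact hs i (not_lt.1 hi)) (κ' *ᵥ v)
    have a3 := bκ' v
    calc _ ≤ K * _ := a1
      _ ≤ K * (s * (K * ‖v‖)) :=
          mul_le_mul_of_nonneg_left (a2.trans (mul_le_mul_of_nonneg_left a3 hs0)) hK0.le
      _ = _ := by ring

end DecI

end dec

end Vale.Agent.P092.H899.G
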