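import Vale.Agent.P092.H899.G3

/-!
P092 (helper899), block [TGT-G], part 4: the attracting singular subspace of an isometry near a
wall, types 1 and `r`.
-/

set_option linter.all false

open Matrix Topology Module Set Filter

namespace Vale.Agent.P092.H899.G

open Vale.Agent.P092.H100.Gr (Gr Fr sp sp_surj ch exists_ch ch_compact)
open Vale.Agent.P092.H899.T (Nr)
open Vale.Agent.P092.H370.Po
open Vale.Agent.P092.H714.Cl
open Vale.Agent.P092.H933 (LocK BCart gsys_gl)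

section dec

variable {k : Type} [NontriviallyNormedField k] {ι : Type} [Fintype ι] {N : ℕ} [DecidableEq ι]

/-- isometries, acting on columns -/
def Pres (σ : k →+* k) (J : Matrix ι ι k) (z : Matrix ι ι k) : Prop :=
  ∀ x y, hf σ J (z *ᵥ x) (z *ᵥ y) = hf σ J x y

/-- `z` expands some `d`-dimensional subspace by `c` -/
def Xp (c : ℝ) (d : ℕ) (z : Matrix ι ι k) : Prop :=
  ∃ V : Submodule k (ι → k), finrank k V = d ∧ ∀ v ∈ V, c * ‖v‖ ≤ ‖z *ᵥ v‖

/-- the `2 × 2` minors -/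
def mi2 {m n : Type} (A : Matrix m n k) (i i' : m) (j j' : n) : k :=
  A i j * A i' j' - A i j' * A i' j

theorem mi2_mul {m n p : Type} [Fintype n] (A : Matrix m n k) (B : Matrix n p k) (i i' : m)
    (j j' : p) : mi2 (A * B) i i' j j' = ∑ l, ∑ l', A i l * A i' l' * mi2 B l l' j j' := by
  unfold mi2
  rw [Matrix.mul_apply, Matrix.mul_apply, Matrix.mul_apply, Matrix.mul_apply,
    Finset.sum_mul_sum, Finset.sum_mul_sum, ← Finset.sum_sub_distrib]
  refine Finset.sum_congr rfl fun l _ => ?_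
  rw [← Finset.sum_sub_distrib]
  refine Finset.sum_congr rfl fun l' _ => ?_
  ring

theorem mi2_transpose {m n : Type} (A : Matrix m n k) (i i' : m) (j j' : n) :
    mi2 Aᵀ j j' i i' = mi2 A i i' j j' := by
  unfold mi2
  rw [transpose_apply, transpose_apply, transpose_apply, transpose_apply]
  ring

theorem mi2_left {m n p : Type} [Fintype n] {A : Matrix m n k} {B : Matrix n p k} {C M : ℝ}
    (hC : 0 ≤ C) (hA : ∀ i j, ‖A i j‖ ≤ C) (hB : ∀ i i' j j', ‖mi2 B i i' j j'‖ ≤ M)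
    (i i' : m) (j j' : p) : ‖mi2 (A * B) i i' j j'‖ ≤ (Fintype.card n * C) ^ 2 * M := by
  rw [mi2_mul]
  calc ‖∑ l, ∑ l', A i l * A i' l' * mi2 B l l' j j'‖ ≤ ∑ _l : n, ∑ _l' : n, C * C * M := by
        refine (norm_sum_le _ _).trans (Finset.sum_le_sum fun l _ =>
          (norm_sum_le _ _).trans (Finset.sum_le_sum fun l' _ => ?_))
        rw [norm_mul, norm_mul]
        exact mul_le_mul (mul_le_mul (hA _ _) (hA _ _) (norm_nonneg _) hC) (hB _ _ _ _)
          (norm_nonneg _) (by positivity)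
    _ = _ := by
        simp only [Finset.sum_const, Finset.card_univ, nsmul_eq_mul]
        ring

theorem mi2_right {m n p : Type} [Fintype n] {A : Matrix m n k} {B : Matrix n p k} {C M : ℝ}
    (hC : 0 ≤ C) (hB : ∀ i j, ‖B i j‖ ≤ C) (hA : ∀ i i' j j', ‖mi2 A i i' j j'‖ ≤ M)
    (i i' : m) (j j' : p) : ‖mi2 (A * B) i i' j j'‖ ≤ (Fintype.card n * C) ^ 2 * M := by
  have h := mi2_left (A := Bᵀ) (B := Aᵀ) hC (fun i j => hB _ _)
    (fun i i' j j' => by rw [mi2_transpose]; exact hA _ _ _ _) j j' i i'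
  rwa [← transpose_mul, mi2_transpose] at h

namespace DecI

variable {C : ℝ} {z : Matrix ι ι k} {κ : Matrix ι (Fin N) k} {κi κ' : Matrix (Fin N) ι k}
  {κi' : Matrix ι (Fin N) k} {a : Fin N → k}

theorem inj (h : DecI C z κ κi κ' κi' a) : Function.Injective z.mulVecLin := by
  have h1 : (κi' * Matrix.diagonal (fun i => (a i)⁻¹) * κi) * z = 1 := by
    rw [h.eq]
    calc κi' * Matrix.diagonal (fun i => (a i)⁻¹) * κi * (κ * Matrix.diagonal a * κ')
        = κi' * Matrix.diagonal (fun i => (a i)⁻¹) * (κi * κ) * Matrix.diagonal a * κ' := by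
          simp only [Matrix.mul_assoc]
      _ = κi' * (Matrix.diagonal (fun i => (a i)⁻¹) * Matrix.diagonal a) * κ' := by
          rw [h.mul, Matrix.mul_one]; simp only [Matrix.mul_assoc]
      _ = 1 := by
          rw [diagonal_mul_diagonal]
          have : (fun i => (a i)⁻¹ * a i) = fun _ => 1 := by
            funext i; exact inv_mul_cancel₀ (h.ne i)
          rw [this, diagonal_one, Matrix.mul_one, h.comm']
  intro v w hvw
  have h' : z *ᵥ v = z *ᵥ w := hvw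
  have := congrArg (fun y => (κi' * Matrix.diagonal (fun i => (a i)⁻¹) * κi) *ᵥ y) h'
  simpa only [mulVec_mulVec, h1, one_mulVec] using this

theorem diag_eq (h : DecI C z κ κi κ' κi' a) : Matrix.diagonal a = κi * z * κi' := by
  rw [h.eq]
  calc Matrix.diagonal a = (κi * κ) * Matrix.diagonal a * (κ' * κi') := by
        rw [h.mul, h.mul', Matrix.one_mul, Matrix.mul_one]
    _ = _ := by simp only [Matrix.mul_assoc]

/-- the first diagonal entry and the entries of `z` -/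
theorem a_le (h : DecI C z κ κi κ' κi' a) (hC : 0 ≤ C) {B : ℝ} (hB : 0 ≤ B)
    (hz : ∀ i j, ‖z i j‖ ≤ B) (i : Fin N) :
    ‖a i‖ ≤ (Fintype.card ι * C) ^ 2 * B := by
  have e : a i = (κi * z * κi') i i := by rw [← h.diag_eq, diagonal_apply_eq]
  rw [e, Matrix.mul_apply]
  calc ‖∑ l, (κi * z) i l * κi' l i‖ ≤ ∑ _l : ι, (Fintype.card ι * (C * B)) * C := by
        refine (norm_sum_le _ _).trans (Finset.sum_le_sum fun l _ => ?_)
        rw [norm_mul]
        refine mul_le_mul ?_ (h.lei' _ _) (norm_nonneg _) (by positivity)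
        rw [Matrix.mul_apply]
        calc ‖∑ m, κi i m * z m l‖ ≤ ∑ _m : ι, C * B := by
              refine (norm_sum_le _ _).trans (Finset.sum_le_sum fun m _ => ?_)
              rw [norm_mul]
              exact mul_le_mul (h.lei _ _) (hz _ _) (norm_nonneg _) hC
          _ = _ := by simp only [Finset.sum_const, Finset.card_univ, nsmul_eq_mul]
    _ = _ := by
        simp only [Finset.sum_const, Finset.card_univ, nsmul_eq_mul]
        ring

theorem z_le (h : DecI C z κ κi κ' κi' a) (hC : 0 ≤ C) (hN : 0 < N) (i j : ι) :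
    ‖z i j‖ ≤ N * C ^ 2 * ‖a ⟨0, hN⟩‖ := by
  have e : z i j = ∑ l, κ i l * a l * κ' l j := by
    conv_lhs => rw [h.eq]
    rw [Matrix.mul_apply]
    refine Finset.sum_congr rfl fun l _ => ?_
    rw [mul_diagonal]
  rw [e]
  calc ‖∑ l, κ i l * a l * κ' l j‖ ≤ ∑ _l : Fin N, C * ‖a ⟨0, hN⟩‖ * C := by
        refine (norm_sum_le _ _).trans (Finset.sum_le_sum fun l _ => ?_)
        rw [norm_mul, norm_mul]
        refine mul_le_mul (mul_le_mul (h.le _ _) (h.anti (Fin.le_def.2 (Nat.zero_le _)))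
          (norm_nonneg _) hC) (h.le' _ _) (norm_nonneg _) (by positivity)
    _ = _ := by
        simp only [Finset.sum_const, Finset.card_univ, Fintype.card_fin, nsmul_eq_mul]
        ring

/-- the first two diagonal entries and the minors of `z` -/
theorem a2_le (h : DecI C z κ κi κ' κi' a) (hC : 0 ≤ C) (hN : 1 < N) {M : ℝ}
    (hz : ∀ i i' j j', ‖mi2 z i i' j j'‖ ≤ M) :
    ‖a ⟨0, by omega⟩‖ * ‖a ⟨1, hN⟩‖ ≤ (Fintype.card ι * C) ^ 2 *
      ((Fintype.card ι * C) ^ 2 * M) := by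
  have h1 := mi2_right (A := κi * z) (B := κi') hC h.lei' (mi2_left hC h.lei hz)
    ⟨0, by omega⟩ ⟨1, hN⟩ ⟨0, by omega⟩ ⟨1, hN⟩
  rw [← h.diag_eq] at h1
  have e : mi2 (Matrix.diagonal a) (⟨0, by omega⟩ : Fin N) ⟨1, hN⟩ ⟨0, by omega⟩ ⟨1, hN⟩ =
      a ⟨0, by omega⟩ * a ⟨1, hN⟩ := by
    unfold mi2
    have hne : (⟨0, by omega⟩ : Fin N) ≠ ⟨1, hN⟩ := fun he => by
      have := congrArg Fin.val he
      exact absurd this (by norm_num)
    rw [diagonal_apply_eq, diagonal_apply_eq, diagonal_apply_ne _ hne, diagonal_apply_ne _ hne.symm,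
      zero_mul, sub_zero]
  rw [e, norm_mul] at h1
  exact h1

/-- min-max -/
theorem xp_le (h : DecI C z κ κi κ' κi' a) (hC : 0 ≤ C) {d : ℕ} (hd : 1 ≤ d) (hdN : d ≤ N)
    {c : ℝ} (hX : Xp c d z) :
    c ≤ (N * C) * (‖a ⟨d - 1, by omega⟩‖ * (Fintype.card ι * C)) := by
  obtain ⟨V, hV, hc⟩ := hX
  let f : V →ₗ[k] (Fin (d - 1) → k) :=
    { toFun := fun v i => (κ' *ᵥ v.1) (Fin.castLE (by omega) i)
      map_add' := fun v w => by
        funext i
        change (κ' *ᵥ (v.1 + w.1)) _ = _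
        rw [mulVec_add]
        rfl
      map_smul' := fun t v => by
        funext i
        change (κ' *ᵥ (t • v.1)) _ = _
        rw [mulVec_smul]
        rfl }
  have hker : LinearMap.ker f ≠ ⊥ := by
    refine LinearMap.ker_ne_bot_of_finrank_lt ?_
    rw [Module.finrank_fin_fun, hV]
    omega
  obtain ⟨v, hv, hv0⟩ := Submodule.exists_mem_ne_zero_of_ne_bot hker
  have hvn : 0 < ‖v.1‖ := norm_pos_iff.2 fun he => hv0 (Subtype.ext he)
  have hy : ∀ i : Fin N, (i : ℕ) < d - 1 → (κ' *ᵥ v.1) i = 0 := by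
    intro i hi
    have := congrFun (LinearMap.mem_ker.1 hv) ⟨i, hi⟩
    exact this
  have h1 : ‖Matrix.diagonal a *ᵥ (κ' *ᵥ v.1)‖ ≤ ‖a ⟨d - 1, by omega⟩‖ * ‖κ' *ᵥ v.1‖ := by
    rw [pi_norm_le_iff_of_nonneg (by positivity)]
    intro i
    rw [mulVec_diagonal, norm_mul]
    by_cases hi : (i : ℕ) < d - 1
    · rw [hy i hi, norm_zero, mul_zero]
      positivity
    · exact mul_le_mul (h.anti (Fin.le_def.2 (by simp only; omega))) (norm_le_pi_norm _ i)
        (norm_nonneg _) (norm_nonneg _)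
  have h2 := nv hC h.le (Matrix.diagonal a *ᵥ (κ' *ᵥ v.1))
  have h3 := nv hC h.le' v.1
  rw [Fintype.card_fin] at h2
  have e : z *ᵥ v.1 = κ *ᵥ (Matrix.diagonal a *ᵥ (κ' *ᵥ v.1)) := by
    rw [mulVec_mulVec, mulVec_mulVec, ← h.eq]
  have h4 := hc v.1 v.2
  rw [e] at h4
  refine le_of_mul_le_mul_right ?_ hvn
  calc c * ‖v.1‖ ≤ _ := h4
    _ ≤ _ := h2
    _ ≤ N * C * (‖a ⟨d - 1, by omega⟩‖ * (Fintype.card ι * C * ‖v.1‖)) := by
        refine mul_le_mul_of_nonneg_left (h1.trans ?_) (by positivity)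
        exact mul_le_mul_of_nonneg_left h3 (norm_nonneg _)
    _ = _ := by ring

end DecI

variable [ProperSpace k]

/-- **The attracting singular subspace, in terms of the diagonal part.** -/
theorem exists_at_dec {σ : k →+* k} (hσ : ∀ x, ‖σ x‖ = ‖x‖) (J : Matrix ι ι k) {C : ℝ}
    (hC : 1 ≤ C) {d : ℕ} (hd : 1 ≤ d) (hdN : d ≤ N) (R : ℝ) {δ : ℝ} (hδ : 0 < δ) :
    ∃ T : ℝ, ∀ (z : Matrix ι ι k) (κ : Matrix ι (Fin N) k) (κi κ' : Matrix (Fin N) ι k)
      (κi' : Matrix ι (Fin N) k) (a : Fin N → k), DecI C z κ κi κ' κi' a → Pres σ J z →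
      ‖a ⟨0, by omega⟩‖ ≤ R * ‖a ⟨d - 1, by omega⟩‖ → (∀ i : Fin N, d ≤ (i : ℕ) → ‖a i‖ ≤ R) →
      T ≤ ‖a ⟨0, by omega⟩‖ → ∃ X : SGr σ J d, AtL δ d z X.S := by
  obtain ⟨B, hB, hBf⟩ := hf_bd hσ J
  obtain ⟨K, hK⟩ : ∃ K : ℝ, K = (N + Fintype.card ι) * C := ⟨_, rfl⟩
  have hN1 : (1 : ℝ) ≤ N := by
    have : 1 ≤ N := hd.trans hdN
    exact_mod_cast this
  have hK1 : 1 ≤ K := by
    rw [hK]
    have : (0 : ℝ) ≤ Fintype.card ι := Nat.cast_nonneg _
    nlinarith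
  obtain ⟨S, hS⟩ : ∃ S : ℝ, S = max R 1 := ⟨_, rfl⟩
  have hS1 : 1 ≤ S := hS ▸ le_max_right _ _
  have hRS : R ≤ S := hS ▸ le_max_left _ _
  obtain ⟨Q, hQ⟩ : ∃ Q : ℝ, Q = 2 * (Fintype.card ι * K ^ 4 * S + 1) := ⟨_, rfl⟩
  have hQ0 : 0 < Q := by rw [hQ]; positivity
  obtain ⟨η, hη, hsing⟩ := near_sing hσ J d (show 0 < δ / Q by positivity)
  obtain ⟨T, hT⟩ : ∃ T : ℝ, T = 1 + S * K ^ 2 * ((B + 1) / η + 1) + 2 * K ^ 4 * S ^ 2 / δ :=
    ⟨_, rfl⟩
  refine ⟨T, fun z κ κi κ' κi' a h hP h1 h2 h3 => ?_⟩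
  obtain ⟨V, hV, hVc, A, hA, hAn, hAz⟩ := h.exists_V (by linarith) hK1 hK hd hdN
  have hT1 : 1 ≤ T := by
    rw [hT]
    have : 0 ≤ S * K ^ 2 * ((B + 1) / η + 1) + 2 * K ^ 4 * S ^ 2 / δ := by positivity
    linarith
  have ha0 : 0 < ‖a ⟨0, by omega⟩‖ := by linarith
  have had : 0 < ‖a ⟨d - 1, by omega⟩‖ := norm_pos_iff.2 (h.ne _)
  obtain ⟨c, hc⟩ : ∃ c : ℝ, c = ‖a ⟨d - 1, by omega⟩‖ / K ^ 2 := ⟨_, rfl⟩
  have hc0 : 0 < c := by rw [hc]; positivity
  rw [← hc] at hVc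
  -- `c` is large
  have hcT : T ≤ S * K ^ 2 * c := by
    calc T ≤ ‖a ⟨0, by omega⟩‖ := h3
      _ ≤ R * ‖a ⟨d - 1, by omega⟩‖ := h1
      _ ≤ S * ‖a ⟨d - 1, by omega⟩‖ := by gcongr
      _ = S * K ^ 2 * c := by rw [hc]; field_simp
  have hc1 : (B + 1) / η + 1 ≤ c := by
    have e1 : S * K ^ 2 * ((B + 1) / η + 1) ≤ S * K ^ 2 * c := by
      refine le_trans ?_ hcT
      rw [hT]
      have : 0 ≤ 2 * K ^ 4 * S ^ 2 / δ := by positivity
      linarith
    exact le_of_mul_le_mul_left e1 (by positivity)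
  have hc2 : K ^ 2 * S ≤ δ / 2 * c := by
    have e1 : 2 * K ^ 4 * S ^ 2 / δ ≤ S * K ^ 2 * c := by
      refine le_trans ?_ hcT
      rw [hT]
      have : 0 ≤ S * K ^ 2 * ((B + 1) / η + 1) := by positivity
      linarith
    rw [div_le_iff₀ hδ] at e1
    have e2 : S * K ^ 2 * (2 * (K ^ 2 * S)) ≤ S * K ^ 2 * (δ * c) := by
      calc S * K ^ 2 * (2 * (K ^ 2 * S)) = 2 * K ^ 4 * S ^ 2 := by ring
        _ ≤ S * K ^ 2 * c * δ := e1
        _ = _ := by ring
    have e3 := le_of_mul_le_mul_left e2 (by positivity)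
    linarith
  -- the singular subspace
  have hLd : finrank k (V.map z.mulVecLin) = d := by
    rw [← hV]
    exact (LinearEquiv.finrank_eq (Submodule.equivMapOfInjective _ h.inj V)).symm
  obtain ⟨X, hX⟩ := hsing ⟨V.map z.mulVecLin, hLd⟩ (by
    rintro _ ⟨x, hx, rfl⟩ _ ⟨y, hy, rfl⟩
    rw [mulVecLin_apply, mulVecLin_apply, hP]
    have b1 := hVc x hx
    have b2 := hVc y hy
    have b3 : B ≤ η * c * c := by
      have e1 : 1 ≤ c := by
        have : 0 ≤ (B + 1) / η := by positivity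
        linarith
      have e2 : (B + 1) / η ≤ c := by linarith
      rw [div_le_iff₀ hη] at e2
      nlinarith
    calc ‖hf σ J x y‖ ≤ B * (‖x‖ * ‖y‖) := hBf x y
      _ ≤ η * c * c * (‖x‖ * ‖y‖) := by gcongr
      _ = η * ((c * ‖x‖) * (c * ‖y‖)) := by ring
      _ ≤ _ := by gcongr)
  have hcol : ∀ j : ι, ∃ w ∈ X.S, ‖A *ᵥ Pi.single j 1 - w‖ ≤ δ / Q * ‖A *ᵥ Pi.single j 1‖ :=
    fun j => hX _ (hA _)
  choose w hw hwn using hcol
  refine ⟨X, c, hc0, ⟨V, hV, hVc⟩, Matrix.of fun i j => w j i, fun v => ?_, fun v => ?_⟩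
  · have e : (Matrix.of fun i j => w j i) *ᵥ v = ∑ j, v j • w j := by
      funext i
      rw [Finset.sum_apply]
      refine Finset.sum_congr rfl fun j _ => ?_
      exact mul_comm (w j i) (v j)
    rw [e]
    exact Submodule.sum_mem _ fun j _ => Submodule.smul_mem _ _ (hw j)
  · have hsn : ∀ j : ι, ‖(Pi.single j (1 : k) : ι → k)‖ ≤ 1 := by
      intro j
      rw [pi_norm_le_iff_of_nonneg zero_le_one]
      intro i
      by_cases hi : i = j
      · rw [hi, Pi.single_eq_same, norm_one]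
      · rw [Pi.single_eq_of_ne hi, norm_zero]
        exact zero_le_one
    have e1 : ∀ i j, ‖(A - Matrix.of fun i j => w j i) i j‖ ≤
        δ / Q * (K ^ 2 * ‖a ⟨0, by omega⟩‖) := by
      intro i j
      have e2 : (A - Matrix.of fun i j => w j i) i j = (A *ᵥ Pi.single j 1 - w j) i := by
        rw [Matrix.sub_apply, Pi.sub_apply, mulVec_single_one]
        rfl
      rw [e2]
      refine (norm_le_pi_norm _ i).trans ((hwn j).trans ?_)
      refine mul_le_mul_of_nonneg_left ((hAn _).trans ?_) (by positivity)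
      have := mul_le_mul_of_nonneg_left (hsn j)
        (show 0 ≤ K ^ 2 * ‖a ⟨0, by omega⟩‖ by positivity)
      rwa [mul_one] at this
    have e3 := nv (by positivity) e1 v
    have e4 := hAz S (fun i hi => (h2 i hi).trans hRS) (by linarith) v
    have e5 : z *ᵥ v - (Matrix.of fun i j => w j i) *ᵥ v =
        (z *ᵥ v - A *ᵥ v) + (A - Matrix.of fun i j => w j i) *ᵥ v := by
      rw [sub_mulVec]
      abel
    have e6 : Fintype.card ι * (δ / Q * (K ^ 2 * ‖a ⟨0, by omega⟩‖)) ≤ δ / 2 * c := by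
      have f1 : ‖a ⟨0, by omega⟩‖ ≤ S * K ^ 2 * c := by
        calc ‖a ⟨0, by omega⟩‖ ≤ R * ‖a ⟨d - 1, by omega⟩‖ := h1
          _ ≤ S * ‖a ⟨d - 1, by omega⟩‖ := by gcongr
          _ = S * K ^ 2 * c := by rw [hc]; field_simp
      have f2 : Fintype.card ι * K ^ 4 * S * 2 ≤ Q := by
        rw [hQ]
        linarith
      calc Fintype.card ι * (δ / Q * (K ^ 2 * ‖a ⟨0, by omega⟩‖))
          ≤ Fintype.card ι * (δ / Q * (K ^ 2 * (S * K ^ 2 * c))) := by gcongr
        _ = (Fintype.card ι * K ^ 4 * S * 2) * (δ / 2 * c / Q) := by ring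
        _ ≤ Q * (δ / 2 * c / Q) := by gcongr
        _ = δ / 2 * c := by field_simp
    rw [e5]
    refine (norm_add_le _ _).trans ?_
    calc _ ≤ K ^ 2 * S * ‖v‖ + Fintype.card ι * (δ / Q * (K ^ 2 * ‖a ⟨0, by omega⟩‖)) * ‖v‖ :=
          add_le_add e4 e3
      _ ≤ δ / 2 * c * ‖v‖ + δ / 2 * c * ‖v‖ := by gcongr
      _ = δ * c * ‖v‖ := by ring

end dec

end Vale.Agent.P092.H899.G
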