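import Vale.Agent.P092.H899.G5

/-!
P092 (helper899), block [CL-TGT], part 6: choice of the attracting places, they are attracting,
stability.
-/

set_option linter.all false

open Matrix Topology Module Set Filter

namespace Vale.Agent.P092.H899.G

open Vale.Agent.P092.H100.Gr (Gr)
open Vale.Agent.P092.H899.T (Nr)
open Vale.Agent.P092.H370.Po
open Vale.Agent.P092.H303 (FormGroup)
open Vale.Agent.P092.H714.Cl
open Vale.Agent.P092.H933 (LocK)
open Vale.Agent.P092.CL (ta nmM NW1 NWr AttS scal)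

section mat

variable {k : Type} [NontriviallyNormedField k] {n : Type} [Fintype n] [DecidableEq n]

/-- Multiplication on both sides by invertible matrices of norm at most `C`, modulo units. -/
structure Mv (C : ℝ) (x z : Matrix n n k) : Prop where
  ex : ∃ (s si u ui : Matrix n n k) (t : k), si * s = 1 ∧ s * si = 1 ∧ u * ui = 1 ∧ ui * u = 1 ∧
    nmM s ≤ C ∧ nmM si ≤ C ∧ nmM u ≤ C ∧ nmM ui ≤ C ∧ ‖t‖ = 1 ∧ z = t • (s * x * u)

theorem Mv.symm {C : ℝ} {x z : Matrix n n k} (h : Mv C x z) : Mv C z x := by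
  obtain ⟨s, si, u, ui, t, h1, h2, h3, h4, h5, h6, h7, h8, ht, rfl⟩ := h.ex
  have ht0 : t ≠ 0 := norm_pos_iff.1 (by rw [ht]; exact one_pos)
  refine ⟨si, s, ui, u, t⁻¹, h2, h1, h4, h3, h6, h5, h8, h7, by rw [norm_inv, ht, inv_one], ?_⟩
  rw [Matrix.mul_smul, Matrix.smul_mul, smul_smul, inv_mul_cancel₀ ht0, one_smul]
  calc x = (si * s) * x * (u * ui) := by rw [h1, h3, Matrix.one_mul, Matrix.mul_one]
    _ = _ := by simp only [Matrix.mul_assoc]

theorem Mv.nm_le {C : ℝ} {x z : Matrix n n k} (h : Mv C x z) :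
    nmM z ≤ (Fintype.card n * C) ^ 2 * nmM x := by
  obtain ⟨s, si, u, ui, t, h1, h2, h3, h4, h5, h6, h7, h8, ht, rfl⟩ := h.ex
  have hC : 0 ≤ C := (nmM_nonneg _).trans h5
  rw [nmM_smul ht]
  have a1 := nmM_mul (s * x) u
  have a2 := nmM_mul s x
  have n1 := nmM_nonneg x
  have n2 := nmM_nonneg u
  calc nmM (s * x * u) ≤ Fintype.card n * (nmM (s * x) * nmM u) := a1
    _ ≤ Fintype.card n * ((Fintype.card n * (C * nmM x)) * C) := by
        refine mul_le_mul_of_nonneg_left (mul_le_mul (a2.trans ?_) h7 n2 (by positivity))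
          (Nat.cast_nonneg _)
        exact mul_le_mul_of_nonneg_left (mul_le_mul_of_nonneg_right h5 n1) (Nat.cast_nonneg _)
    _ = _ := by ring

theorem Mv.nw1 {C : ℝ} {x z : Matrix n n k} (h : Mv C x z) {R : ℝ} (hx : NW1 R x) :
    NW1 ((Fintype.card n * C) ^ 6 * |R|) z := by
  have hn := h.symm.nm_le
  obtain ⟨s, si, u, ui, t, h1, h2, h3, h4, h5, h6, h7, h8, ht, rfl⟩ := h.ex
  have hC : 0 ≤ C := (nmM_nonneg _).trans h5
  intro i i' j j'
  have e : ∀ A : Matrix n n k, A i j * A i' j' - A i' j * A i j' = mi2 A i i' j j' := fun A => by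
    unfold mi2
    ring
  rw [e]
  have e2 : mi2 (t • (s * x * u)) i i' j j' = (t * t) * mi2 (s * x * u) i i' j j' := by
    unfold mi2
    simp only [Matrix.smul_apply, smul_eq_mul]
    ring
  rw [e2, norm_mul, norm_mul, ht, one_mul, one_mul]
  have h9 : ∀ i i' j j', ‖mi2 x i i' j j'‖ ≤ |R| * nmM x := fun i i' j j' => by
    have e3 : mi2 x i i' j j' = x i j * x i' j' - x i' j * x i j' := by
      unfold mi2
      ring
    rw [e3]
    exact (hx i i' j j').trans (mul_le_mul_of_nonneg_right (le_abs_self R) (nmM_nonneg _))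
  have h10 := mi2_right (A := s * x) (B := u) hC (fun i j => (ent_le u i j).trans h7)
    (mi2_left hC (fun i j => (ent_le s i j).trans h5) h9) i i' j j'
  refine h10.trans ?_
  have hR := abs_nonneg R
  calc (Fintype.card n * C) ^ 2 * ((Fintype.card n * C) ^ 2 * (|R| * nmM x))
      ≤ (Fintype.card n * C) ^ 2 * ((Fintype.card n * C) ^ 2 *
        (|R| * ((Fintype.card n * C) ^ 2 * nmM (t • (s * x * u))))) := by gcongr
    _ = _ := by ring

theorem Mv.nwr {C : ℝ} {x z : Matrix n n k} (h : Mv C x z) {r : ℕ} {R : ℝ} (hx : NWr r R x) :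
    NWr r ((Fintype.card n * C) ^ 4 * |R|) z := by
  have hn := h.nm_le
  obtain ⟨s, si, u, ui, t, h1, h2, h3, h4, h5, h6, h7, h8, ht, rfl⟩ := h.ex
  have hC : 0 ≤ C := (nmM_nonneg _).trans h5
  obtain ⟨V, hV, hVn⟩ := hx
  have hui : Function.Injective ui.mulVecLin := by
    intro v w hvw
    have h' : ui *ᵥ v = ui *ᵥ w := hvw
    have := congrArg (fun y => u *ᵥ y) h'
    simpa only [mulVec_mulVec, h3, one_mulVec] using this
  refine ⟨V.map ui.mulVecLin, ?_, ?_⟩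
  · rw [← hV]
    exact (LinearEquiv.finrank_eq (Submodule.equivMapOfInjective _ hui V)).symm
  · rintro _ ⟨v, hv, rfl⟩
    rw [mulVecLin_apply]
    have e1 : (t • (s * x * u)) *ᵥ (ui *ᵥ v) = t • (s *ᵥ (x *ᵥ v)) := by
      rw [smul_mulVec, ← mulVec_mulVec, ← mulVec_mulVec]
      congr 3
      rw [mulVec_mulVec, h3, one_mulVec]
    rw [e1, norm_smul, ht, one_mul]
    have a1 := norm_mulVec_le hC (fun i j => (ent_le ui i j).trans h8) v
    have a2 : ‖x *ᵥ v‖ ≤ Fintype.card n * C * ‖s *ᵥ (x *ᵥ v)‖ := by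
      have h9 := norm_mulVec_le hC (fun i j => (ent_le si i j).trans h6) (s *ᵥ (x *ᵥ v))
      have e5 : si *ᵥ (s *ᵥ (x *ᵥ v)) = x *ᵥ v := by
        rw [mulVec_mulVec (x *ᵥ v) si s, h1, one_mulVec]
      rwa [e5] at h9
    have a3 := hVn v hv
    have a4 : R * ‖x *ᵥ v‖ ≤ |R| * ‖x *ᵥ v‖ :=
      mul_le_mul_of_nonneg_right (le_abs_self R) (norm_nonneg _)
    have hR := abs_nonneg R
    have n1 := nmM_nonneg (t • (s * x * u))
    have n2 := nmM_nonneg x
    calc nmM (t • (s * x * u)) * ‖ui *ᵥ v‖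
        ≤ ((Fintype.card n * C) ^ 2 * nmM x) * (Fintype.card n * C * ‖v‖) :=
          mul_le_mul hn a1 (norm_nonneg _) (by positivity)
      _ = (Fintype.card n * C) ^ 3 * (nmM x * ‖v‖) := by ring
      _ ≤ (Fintype.card n * C) ^ 3 * (|R| * ‖x *ᵥ v‖) :=
          mul_le_mul_of_nonneg_left (a3.trans a4) (by positivity)
      _ ≤ (Fintype.card n * C) ^ 3 * (|R| * (Fintype.card n * C * ‖s *ᵥ (x *ᵥ v)‖)) := by gcongr
      _ = _ := by ring

/-- the relation for three elements of the group, modulo scalars -/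
theorem exists_mv (s u : SpecialLinearGroup n k) : ∃ C : ℝ, 0 < C ∧ ∀ (x z : SpecialLinearGroup n k)
    (t : k), ‖t‖ = 1 → ta z = t • (ta s * ta x * ta u) → Mv C (ta x) (ta z) := by
  refine ⟨1 + nmM (ta s) + nmM (ta s⁻¹) + nmM (ta u) + nmM (ta u⁻¹), ?_, fun x z t ht hz => ?_⟩
  · have a1 := nmM_nonneg (ta s)
    have a2 := nmM_nonneg (ta s⁻¹)
    have a3 := nmM_nonneg (ta u)
    have a4 := nmM_nonneg (ta u⁻¹)
    linarith
  · have a1 := nmM_nonneg (ta s)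
    have a2 := nmM_nonneg (ta s⁻¹)
    have a3 := nmM_nonneg (ta u)
    have a4 := nmM_nonneg (ta u⁻¹)
    exact ⟨ta s, ta s⁻¹, ta u, ta u⁻¹, t, ta_inv s, ta_inv' s, ta_inv' u, ta_inv u, by linarith,
      by linarith, by linarith, by linarith, ht, hz⟩

theorem scal_norm [Nonempty n] {g : SpecialLinearGroup n k} {c : k} (hc : g.1 = c • 1) :
    ‖c‖ = 1 := by
  have h1 := g.2
  rw [hc, det_smul, det_one, mul_one] at h1
  have h2 : ‖c‖ ^ Fintype.card n = 1 := by rw [← norm_pow, h1, norm_one]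
  exact (pow_eq_one_iff_of_nonneg (norm_nonneg _) Fintype.card_ne_zero).1 h2

/-- scalars act by a unit -/
theorem ta_scal [Nonempty n] {g : SpecialLinearGroup n k} (hg : g ∈ scal k n) :
    ∃ t : k, ‖t‖ = 1 ∧ ∀ h : SpecialLinearGroup n k, ta (g * h) = t • ta h := by
  obtain ⟨c, hc⟩ : g⁻¹ ∈ scal k n := inv_mem hg
  refine ⟨c, scal_norm hc, fun h => ?_⟩
  rw [ta_mul]
  have e : ta g = c • 1 := by
    unfold ta
    rw [hc, transpose_smul, transpose_one]
  rw [e, smul_mul_assoc, Matrix.one_mul]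

end mat

section choice

variable {k : Type} [NontriviallyNormedField k] [ProperSpace k] {n : Type} [Fintype n]
  [DecidableEq n] {σ : k →+* k} {ε : k} {J : Matrix n n k}

/-- `bp` chooses attracting places of type `d` near the wall `NW`. -/
def IsBp {σ : k →+* k} {J : Matrix n n k} (d : ℕ) (NW : ℝ → Matrix n n k → Prop)
    (bp : FormGroup σ J → SGr σ J d) : Prop :=
  ∀ R δ : ℝ, 0 < δ → ∃ T : ℝ, ∀ g : FormGroup σ J, NW R (ta g.1) → T ≤ nmM (ta g.1) →
    AtL δ d (ta g.1) (bp g).S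

theorem exists_isBp {d : ℕ} {NW : ℝ → Matrix n n k → Prop} [Nonempty (SGr σ J d)]
    (h : ∀ R δ : ℝ, 0 < δ → ∃ T : ℝ, ∀ z : Matrix n n k, z.det = 1 → Pres σ J z → NW R z →
      T ≤ nmM z → ∃ X : SGr σ J d, AtL δ d z X.S) :
    ∃ bp : FormGroup σ J → SGr σ J d, IsBp d NW bp := by
  obtain ⟨bp, hbp⟩ := exists_bp (fun δ (g : FormGroup σ J) (X : SGr σ J d) =>
    AtL δ d (ta g.1) X.S) (fun δ δ' g y hle hy => hy.mono hle) fun g => nmM (ta g.1)
  refine ⟨bp, fun R δ hδ => ?_⟩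
  obtain ⟨T, hT⟩ := h R (δ / 2) (by positivity)
  refine ⟨max T (1 / δ), fun g hg hn => hbp δ hδ g ((le_max_right _ _).trans hn) ?_⟩
  exact hT _ (ta_det _) (pres_ta g.2) hg ((le_max_left _ _).trans hn)

/-- **The attracting place is attracting.** -/
theorem IsBp.att {d : ℕ} (hd : 1 ≤ d) {NW : ℝ → Matrix n n k → Prop}
    {bp : FormGroup σ J → SGr σ J d} (h : IsBp d NW bp) (R : ℝ) {T : ℝ} (hT : 0 < T) :
    ∃ S : ℝ, ∀ g : FormGroup σ J, NW R (ta g.1) → S ≤ nmM (ta g.1) → ∀ B : Set (SGr σ J d),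
      bp g ∈ B → AttS T B (ta g.1) := by
  obtain ⟨S, hS⟩ := h R (1 / (T * (Fintype.card n + 1))) (by positivity)
  refine ⟨S, fun g hg hn B hB => ?_⟩
  obtain ⟨M, hM, he⟩ := (hS g hg hn).approx (by positivity) hd (nmM_nonneg _) (ent_le _)
  refine ⟨bp g, hB, M, hM, fun i j => (he i j).trans ?_⟩
  have h1 := nmM_nonneg (ta g.1)
  rw [one_div, inv_mul_eq_div, div_le_div_iff₀ (by positivity) hT]
  nlinarith [mul_nonneg h1 hT.le]

/-- **Stability of the attracting places.** -/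
theorem IsBp.stab [Nonempty n] (hσ : ∀ x, ‖σ x‖ = ‖x‖) {d : ℕ} {NW : ℝ → Matrix n n k → Prop}
    (hNW : ∀ C R : ℝ, ∃ R' : ℝ, ∀ x z : Matrix n n k, Mv C x z → NW R x → NW R' z)
    {bp : FormGroup σ J → SGr σ J d} (h : IsBp d NW bp) {F : Type*} [PseudoMetricSpace F]
    {f : SGr σ J d → F} (hf : Continuous f) (s u : FormGroup σ J) (R : ℝ) {e : ℝ} (he : 0 < e) :
    ∃ T : ℝ, ∀ (x z : FormGroup σ J) (t : k), ‖t‖ = 1 →
      ta z.1 = t • (ta s.1 * ta x.1 * ta u.1) → NW R (ta x.1) → T ≤ nmM (ta x.1) →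
      dist (f (bp z)) (f (s • bp x)) < e := by
  haveI : Fact (Continuous σ) := ⟨cont_of_isom hσ⟩
  have hinj : Function.Injective fun X : SGr σ J d => X.1 := Subtype.val_injective
  obtain ⟨δ, hδ, hst⟩ := G.stab (i := fun X : SGr σ J d => X.1) SGr.val_cont hinj hf
    (ta_inv s.1) (ta_inv' u.1) he
  obtain ⟨C, hC, hmv⟩ := exists_mv s.1 u.1
  obtain ⟨R', hR'⟩ := hNW C R
  obtain ⟨T₁, hT₁⟩ := h R δ hδ
  obtain ⟨T₂, hT₂⟩ := h R' δ hδ
  refine ⟨max T₁ ((Fintype.card n * C) ^ 2 * T₂), fun x z t ht hz hx hn => ?_⟩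
  have hM := hmv x.1 z.1 t ht hz
  refine hst (ta x.1) (ta z.1) t (bp x) (bp z) (s • bp x) ht hz
    (hT₁ x hx ((le_max_left _ _).trans hn)) (hT₂ z (hR' _ _ hM hx) ?_) ?_
  · have h1 := hM.symm.nm_le
    have h4 : 0 < (Fintype.card n * C) ^ 2 := by
      have : (0 : ℝ) < Fintype.card n := by exact_mod_cast Fintype.card_pos
      positivity
    exact le_of_mul_le_mul_left (((le_max_right _ _).trans hn).trans h1) h4
  · exact smul_map s (bp x)

theorem exists_bp1 (hk : LocK k) (hσ : ∀ x, ‖σ x‖ = ‖x‖) (h2 : 2 ≤ Fintype.card n)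
    [Nonempty (SGr σ J 1)] : ∃ bp : FormGroup σ J → SGr σ J 1, IsBp 1 NW1 bp :=
  exists_isBp fun R _ hδ => exists_at1 hk hσ h2 R hδ

theorem exists_bpr (hk : LocK k) (hσ : ∀ x, ‖σ x‖ = ‖x‖) {r : ℕ} (hr : 1 ≤ r) (hW : WI σ J r)
    [Nonempty (SGr σ J r)] : ∃ bp : FormGroup σ J → SGr σ J r, IsBp r (NWr r) bp :=
  exists_isBp fun R _ hδ => exists_atr hk hσ hr hW R hδ

theorem nw1_mv (C R : ℝ) : ∃ R' : ℝ, ∀ x z : Matrix n n k, Mv C x z → NW1 R x → NW1 R' z :=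
  ⟨_, fun _ _ h hx => h.nw1 hx⟩

theorem nwr_mv (r : ℕ) (C R : ℝ) : ∃ R' : ℝ, ∀ x z : Matrix n n k, Mv C x z → NWr r R x →
    NWr r R' z :=
  ⟨_, fun _ _ h hx => h.nwr hx⟩

end choice

end Vale.Agent.P092.H899.G
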