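import Vale.Agent.P092.H899.G6
import Vale.Agent.P092.CL.ExDefs
import Vale.Agent.P092.H416.CLpt
import Vale.Agent.P092.H534.Ch.SysR

/-!
P092 (helper899), block [CL-TGT], part 7: the gauges of the classical groups in the letters of
`CL/ExDefs`: `GauOk`.
-/

set_option linter.all false

open Matrix Topology Module Set Filter

namespace Vale.Agent.P092.H899.G

open Vale.Agent.P092.H100.Gr (Gr)
open Vale.Agent.P092.H370.Po
open Vale.Agent.P092.H303 (FormGroup)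
open Vale.Agent.P092.H714.Cl
open Vale.Agent.P092.H933 (LocK)
open Vale.Agent.P092.CL (ta nmM NW1 NWr AttS scal Lt Gau GauOk)
open Vale.Agent.P092.H416.CL (rho)
open Vale.Agent.P092.H337.NG (en m2 mi SLn Eqv en_pos m2_pos en_le_m2 entry_le mi_le en_le_of
  m2_le_of)
open Vale.Agent.P092.H534.SpK (L1 L2 L_quasi)
open Vale.Agent.P092.H632.T2 (xp le_xp xp_half xp_pos xp_anti xp_le log_xp_eqv)
open Vale.Agent.P092.H534.Ch (log_xp_dec)

section mat

variable {k : Type} [NontriviallyNormedField k] {n : Type} [Fintype n] [DecidableEq n] {N : ℕ}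
  {σ : k →+* k} {J : Matrix n n k}

theorem rho_eq (e : n ≃ Fin (N + 1)) (g : FormGroup σ J) :
    (rho e σ J g).1 = (ta g.1).submatrix e.symm e.symm := rfl

theorem en_re (e : n ≃ Fin (N + 1)) (A : Matrix n n k) :
    en (A.submatrix e.symm e.symm) = nmM A := by
  refine le_antisymm (en_le_of (nmM_nonneg _) fun i j => ent_le A (e.symm i) (e.symm j))
    (nmM_le (H337.NG.en_nonneg _) fun i j => ?_)
  have := entry_le (A.submatrix e.symm e.symm) (e i) (e j)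
  rwa [submatrix_apply, Equiv.symm_apply_apply, Equiv.symm_apply_apply] at this

theorem en_rho (e : n ≃ Fin (N + 1)) (g : FormGroup σ J) :
    en (rho e σ J g).1 = nmM (ta g.1) := en_re e _

theorem nw1_of (e : n ≃ Fin (N + 1)) {A : Matrix n n k} {R : ℝ}
    (h : m2 (A.submatrix e.symm e.symm) ≤ R * en (A.submatrix e.symm e.symm)) : NW1 R A := by
  intro i i' j j'
  rw [en_re] at h
  refine le_trans ?_ h
  have h1 := mi_le (A.submatrix e.symm e.symm) (e i) (e i') (e j) (e j')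
  have h2 : mi (A.submatrix e.symm e.symm) (e i) (e i') (e j) (e j') =
      A i j * A i' j' - A i' j * A i j' := by
    unfold mi
    simp only [submatrix_apply, Equiv.symm_apply_apply]
  rwa [h2] at h1

theorem nwr_of (e : n ≃ Fin (N + 1)) {A : Matrix n n k} {r : ℕ} {R c : ℝ} (hR : 0 ≤ R)
    (h : T.Xp c r (A.submatrix e.symm e.symm)) (hc : nmM A ≤ R * c) : NWr r R A := by
  obtain ⟨V, hV, hVc⟩ := h
  let f : (Fin (N + 1) → k) ≃ₗ[k] (n → k) := LinearEquiv.funCongrLeft k k e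
  have hf : ∀ w, f w = fun i => w (e i) := fun w => rfl
  have hn : ∀ w, ‖f w‖ = ‖w‖ := by
    intro w
    refine le_antisymm ?_ ?_
    · rw [pi_norm_le_iff_of_nonneg (norm_nonneg _)]
      intro i
      exact norm_le_pi_norm w (e i)
    · rw [pi_norm_le_iff_of_nonneg (norm_nonneg _)]
      intro i
      have h5 := norm_le_pi_norm (f w) (e.symm i)
      have h6 : (f w) (e.symm i) = w i := by
        rw [hf]
        exact congrArg w (e.apply_symm_apply i)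
      rwa [h6] at h5
  have hA : ∀ w, A *ᵥ f w = f ((A.submatrix e.symm e.symm) *ᵥ w) := by
    intro w
    funext i
    rw [hf, hf]
    change ∑ j, A i j * w (e j) = ∑ l, A (e.symm (e i)) (e.symm l) * w l
    rw [Equiv.symm_apply_apply, ← Equiv.sum_comp e]
    refine Finset.sum_congr rfl fun j _ => ?_
    rw [Equiv.symm_apply_apply]
  refine ⟨V.map f.toLinearMap, (LinearEquiv.finrank_map_eq f V).trans hV, ?_⟩
  rintro _ ⟨w, hw, rfl⟩
  have h1 := hVc w hw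
  change nmM A * ‖f w‖ ≤ R * ‖A *ᵥ f w‖
  rw [hA, hn, hn]
  calc nmM A * ‖w‖ ≤ R * c * ‖w‖ := mul_le_mul_of_nonneg_right hc (norm_nonneg _)
    _ = R * (c * ‖w‖) := by ring
    _ ≤ R * ‖(A.submatrix e.symm e.symm) *ᵥ w‖ := mul_le_mul_of_nonneg_left h1 hR

theorem eqv_of_scal (e : n ≃ Fin (N + 1)) {z : FormGroup σ J} (hz : z.1 ∈ scal k n)
    (y : FormGroup σ J) : Eqv (rho e σ J (z * y)) (rho e σ J y) := by
  have : Nonempty n := ⟨e.symm 0⟩
  obtain ⟨t, -, ht⟩ := ta_scal hz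
  refine ⟨t, ?_⟩
  rw [rho_eq, rho_eq]
  have e1 : ta (z * y).1 = t • ta y.1 := ht y.1
  rw [e1]
  rfl

/-- the inverse is not much larger -/
theorem nm_inv (hσ : ∀ x, ‖σ x‖ = ‖x‖) {J' : Matrix n n k} (hJ : J * J' = 1) {g : FormGroup σ J} :
    nmM (ta g.1⁻¹) ≤ (Fintype.card n ^ 2 * (nmM J * nmM J')) * nmM (ta g.1) := by
  have h1 : (g.1⁻¹).1 * g.1.1 = 1 := congrArg Subtype.val (inv_mul_cancel g.1)
  have h2 : (g.1⁻¹).1 * J * ((g.1⁻¹).1.map σ)ᵀ = J := (inv_mem g.2 : g.1⁻¹ ∈ FormGroup σ J)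
  have h3 : g.1.1 = J * ((g.1⁻¹).1.map σ)ᵀ * J' := by
    have h4 : (g.1⁻¹).1 * (J * ((g.1⁻¹).1.map σ)ᵀ * J') = 1 := by
      rw [← Matrix.mul_assoc, ← Matrix.mul_assoc, h2, hJ]
    have h5 : g.1.1 * (g.1⁻¹).1 = 1 := mul_eq_one_comm.1 h1
    calc g.1.1 = g.1.1 * ((g.1⁻¹).1 * (J * ((g.1⁻¹).1.map σ)ᵀ * J')) := by
          rw [h4, Matrix.mul_one]
      _ = (g.1.1 * (g.1⁻¹).1) * (J * ((g.1⁻¹).1.map σ)ᵀ * J') := by
          simp only [Matrix.mul_assoc]
      _ = _ := by rw [h5, Matrix.one_mul]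
  have e1 : nmM (ta g.1⁻¹) ≤ nmM g.1.1 := by
    refine nmM_le (nmM_nonneg _) fun i j => ?_
    have : ta g.1⁻¹ i j = g.1.1 j i := by
      change ((g.1⁻¹)⁻¹).1ᵀ i j = _
      rw [inv_inv]
      rfl
    rw [this]
    exact ent_le _ _ _
  have e2 : nmM ((g.1⁻¹).1.map σ)ᵀ ≤ nmM (ta g.1) := by
    refine nmM_le (nmM_nonneg _) fun i j => ?_
    rw [transpose_apply, map_apply, hσ]
    exact ent_le (ta g.1) i j
  have a1 := nmM_mul (J * ((g.1⁻¹).1.map σ)ᵀ) J'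
  have a2 := nmM_mul J ((g.1⁻¹).1.map σ)ᵀ
  rw [← h3] at a1
  have n1 := nmM_nonneg J
  have n2 := nmM_nonneg J'
  refine e1.trans (a1.trans ?_)
  calc Fintype.card n * (nmM (J * ((g.1⁻¹).1.map σ)ᵀ) * nmM J')
      ≤ Fintype.card n * ((Fintype.card n * (nmM J * nmM (ta g.1))) * nmM J') := by
        refine mul_le_mul_of_nonneg_left (mul_le_mul_of_nonneg_right (a2.trans ?_) n2)
          (Nat.cast_nonneg _)
        exact mul_le_mul_of_nonneg_left (mul_le_mul_of_nonneg_left e2 n1) (Nat.cast_nonneg _)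
    _ = _ := by ring

/-- the first gauge is at most `2 log nm` -/
theorem L1_le (hσ : ∀ x, ‖σ x‖ = ‖x‖) {J' : Matrix n n k} (hJ : J * J' = 1)
    (e : n ≃ Fin (N + 1)) (hN : 1 ≤ N) :
    ∃ K : ℝ, ∀ g : FormGroup σ J, L1 (rho e σ J g) ≤ 2 * Real.log (nmM (ta g.1)) + K := by
  obtain ⟨C, hC⟩ : ∃ C : ℝ, C = (Fintype.card n ^ 2 * (nmM J * nmM J')) := ⟨_, rfl⟩
  refine ⟨Real.log ((N + 1) * C), fun g => ?_⟩
  have h1 := en_le_m2 (show 2 ≤ N + 1 by omega) (rho e σ J g)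
  have h2 : en ((rho e σ J g)⁻¹).1 ≤ C * nmM (ta g.1) := by
    rw [← map_inv, en_rho]
    have := nm_inv hσ hJ (g := g)
    rwa [← hC] at this
  have p1 := en_pos (show 0 < N + 1 by omega) (rho e σ J g)
  have p2 := m2_pos (show 2 ≤ N + 1 by omega) (rho e σ J g)
  have p3 : 0 < nmM (ta g.1) := by rw [← en_rho e]; exact p1
  have hC0 : 0 < C := by
    have p4 := en_pos (show 0 < N + 1 by omega) (rho e σ J g)⁻¹
    by_contra hcon
    push Not at hcon
    have := mul_nonpos_of_nonpos_of_nonneg hcon p3.le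
    linarith
  have h3 : en (rho e σ J g).1 ≤ ((N + 1) * C) * m2 (rho e σ J g).1 * nmM (ta g.1) := by
    push_cast at h1
    calc en (rho e σ J g).1 ≤ (N + 1) * (m2 (rho e σ J g).1 * en ((rho e σ J g)⁻¹).1) := h1
      _ ≤ (N + 1) * (m2 (rho e σ J g).1 * (C * nmM (ta g.1))) := by gcongr
      _ = _ := by ring
  have h4 : 1 ≤ ((N + 1) * C) * m2 (rho e σ J g).1 := by
    rw [en_rho] at h3
    by_contra hcon
    push Not at hcon
    nlinarith
  have h5 := Real.log_le_log one_pos h4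
  rw [Real.log_one, Real.log_mul (by positivity) p2.ne'] at h5
  unfold L1
  rw [en_rho]
  linarith

/-- `xp r` is at most `m2 / en` -/
theorem fin_aux [ProperSpace k] (hk : LocK k) (e : n ≃ Fin (N + 1)) {r : ℕ} (hr : 2 ≤ r)
    (hrN : r ≤ N + 1) : ∃ K : ℝ, ∀ g : SLn k (N + 1),
      2 * Real.log (xp r g.1) ≤ L2 g + K := by
  obtain ⟨gp, w, c, C, hc, hs, hw, hcar⟩ := H933.gsys_gl hk (show 0 < N + 1 by omega)
    (m := fun g : SpecialLinearGroup (Fin (N + 1)) k => g.1) (fun g h => rfl)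
    (fun g => by rw [g.2, norm_one])
  obtain ⟨C', hC'⟩ : ∃ C' : ℝ, C' = max C 1 := ⟨_, rfl⟩
  have hC1 : 1 ≤ C' := hC' ▸ le_max_right _ _
  have hCC : C ≤ C' := hC' ▸ le_max_left _ _
  have hC0 : 0 < C' := by linarith
  refine ⟨2 * (2 * Real.log (((N + 1 : ℕ) : ℝ) * C')) +
    (Real.log (((N + 1 : ℕ) : ℝ) ^ 2 * C' ^ 2 * (((N + 1 : ℕ) : ℝ) ^ 2 * C' ^ 2)) * 2 +
      2 * Real.log (((N + 1 : ℕ) : ℝ) * C' ^ 2)), fun g => ?_⟩
  obtain ⟨κ, κi, κ', κi', a, h1, h2, h3, h4, h5, h6, -⟩ := hcar g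
  have hD : H515.Dec C' g.1 κ κi κ' κi' a := ⟨h1, h2, fun i j => (h3 i j).1.trans hCC,
    fun i j => (h3 i j).2.1.trans hCC, fun i j => (h3 i j).2.2.1.trans hCC,
    fun i j => (h3 i j).2.2.2.trans hCC, h6, h4, h5⟩
  have x1 := (abs_le.1 (log_xp_dec hC0 hD (d := 1) (by omega))).2
  have x2 : Real.log (xp r g.1) ≤ Real.log (xp 2 g.1) :=
    Real.log_le_log (xp_pos (by omega) hrN g) (xp_anti (by omega) hr hrN g.1)
  have x3 := H534.Ch.log_en_dec hC0 hD (by omega) (en_pos (by omega) g)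
  -- the minors
  have hI : DecI C' g.1 κ κi κ' κi' a := ⟨mul_eq_one_comm.1 h1, h2, h1, mul_eq_one_comm.1 h2,
    hD.le, hD.lei, hD.le', hD.lei', h6, h4, h5⟩
  have m1 := hI.a2_le hC0.le (show 1 < N + 1 by omega) (M := m2 g.1) (fun i i' j j' => by
    have e2 : mi2 g.1 i i' j j' = mi g.1 i i' j j' := by
      unfold mi2 mi
      ring
    rw [e2]
    exact mi_le _ _ _ _ _)
  rw [Fintype.card_fin] at m1
  have pa0 : 0 < ‖a ⟨0, by omega⟩‖ := norm_pos_iff.2 (h4 _)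
  have pa1 : 0 < ‖a ⟨1, by omega⟩‖ := norm_pos_iff.2 (h4 _)
  have pm := m2_pos (show 2 ≤ N + 1 by omega) g
  have pN : (0 : ℝ) < ((N + 1 : ℕ) : ℝ) := by positivity
  have m2' : ‖a ⟨0, by omega⟩‖ * ‖a ⟨1, by omega⟩‖ ≤
      (((N + 1 : ℕ) : ℝ) ^ 2 * C' ^ 2 * (((N + 1 : ℕ) : ℝ) ^ 2 * C' ^ 2)) * m2 g.1 := by
    refine m1.trans (le_of_eq ?_)
    ring
  have m3 := Real.log_le_log (by positivity) m2'
  rw [Real.log_mul pa0.ne' pa1.ne', Real.log_mul (by positivity) pm.ne'] at m3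
  unfold L2
  linarith

end mat

end Vale.Agent.P092.H899.G
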