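import Mathlib

/-!
P092 (helper899), [CLASS-O]: the group generated by the Siegel (Eichler) transformations of a
nondegenerate symmetric bilinear form with isotropic vectors, characteristic not two: algebra.
-/

set_option linter.all false

namespace Vale.Agent.P092.H899.Ort

/-- A group `G` of isometries of `(V, B)` generated by the Siegel transformations `psi u w`,
`u` isotropic, `w` orthogonal to `u`. -/
structure Sys (k V G : Type*) [Field k] [AddCommGroup V] [Module k V] [Group G] where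
  B : V →ₗ[k] V →ₗ[k] k
  ρ : G →* Module.End k V
  psi : V → V → G
  sym : ∀ x y, B x y = B y x
  nd : ∀ x, x ≠ 0 → ∃ y, B x y = 1
  two : (2 : k) ≠ 0
  inj : ∀ g h, (∀ x, ρ g x = ρ h x) → g = h
  iso : ∀ g x y, B (ρ g x) (ρ g y) = B x y
  hpsi : ∀ u w, B u u = 0 → B u w = 0 → ∀ x,
    ρ (psi u w) x = x + B x u • w - (B x w + 2⁻¹ * B w w * B x u) • u
  gen : ∀ S : Subgroup G, (∀ u w, B u u = 0 → B u w = 0 → psi u w ∈ S) → S = ⊤
  h3 : ∀ e f, B e e = 0 → B f f = 0 → B e f = 1 → ∃ w, B e w = 0 ∧ B f w = 0 ∧ B w w ≠ 0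
  h5 : ∀ x v, x ≠ 0 → B x x = 0 → B v v = 0 → B x v = 0 → (∀ c : k, v ≠ c • x) →
    ∃ w, B x w = 0 ∧ B v w = 0 ∧ B w w ≠ 0
  ex : ∃ e, e ≠ 0 ∧ B e e = 0

variable {k V G : Type*} [Field k] [AddCommGroup V] [Module k V] [Group G] (S : Sys k V G)

namespace Sys

theorem mul_apply (g h : G) (x : V) : S.ρ (g * h) x = S.ρ g (S.ρ h x) := by
  rw [map_mul]; rfl

theorem one_apply (x : V) : S.ρ 1 x = x := by
  rw [map_one]; rfl

theorem inv_apply (g : G) (x : V) : S.ρ g⁻¹ (S.ρ g x) = x := by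
  rw [← S.mul_apply, inv_mul_cancel, S.one_apply]

theorem apply_inv (g : G) (x : V) : S.ρ g (S.ρ g⁻¹ x) = x := by
  rw [← S.mul_apply, mul_inv_cancel, S.one_apply]

theorem apply_ne (g : G) {x : V} (hx : x ≠ 0) : S.ρ g x ≠ 0 := fun h => hx (by
  rw [← S.inv_apply g x, h, map_zero])

theorem iso_right (g : G) (x y : V) : S.B x (S.ρ g y) = S.B (S.ρ g⁻¹ x) y := by
  rw [← S.iso g (S.ρ g⁻¹ x) y, S.apply_inv]

theorem iso_left (g : G) (x y : V) : S.B (S.ρ g x) y = S.B x (S.ρ g⁻¹ y) := by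
  rw [← S.iso g x (S.ρ g⁻¹ y), S.apply_inv]

/-- Polarisation of the self product of a linear combination. -/
theorem eq_zero_of (x : V) (h : ∀ y, S.B x y = 0) : x = 0 := by
  by_contra hx
  obtain ⟨y, hy⟩ := S.nd x hx
  rw [h] at hy
  exact zero_ne_one hy

theorem psi_mul {u w w' : V} (hu : S.B u u = 0) (h : S.B u w = 0) (h' : S.B u w' = 0) :
    S.psi u w * S.psi u w' = S.psi u (w + w') := by
  have h2 := S.two
  refine S.inj _ _ fun x => ?_
  have hs := S.sym
  rw [S.mul_apply, S.hpsi u w' hu h', S.hpsi u w hu h, S.hpsi u (w + w') hu (by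
    rw [map_add, h, h', add_zero])]
  simp only [map_add, map_sub, map_smul, LinearMap.add_apply, LinearMap.sub_apply,
    LinearMap.smul_apply, smul_eq_mul, hu, h, h', hs w u, hs w' u, hs w' w]
  match_scalars <;> field_simp <;> ring

theorem psi_zero {u : V} (hu : S.B u u = 0) : S.psi u 0 = 1 := by
  refine S.inj _ _ fun x => ?_
  rw [S.hpsi u 0 hu (map_zero _), S.one_apply]
  simp

theorem psi_inv {u w : V} (hu : S.B u u = 0) (h : S.B u w = 0) :
    (S.psi u w)⁻¹ = S.psi u (-w) := by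
  rw [inv_eq_iff_mul_eq_one, S.psi_mul hu h (by rw [map_neg, h, neg_zero]), add_neg_cancel,
    S.psi_zero hu]

theorem psi_conj (g : G) {u w : V} (hu : S.B u u = 0) (h : S.B u w = 0) :
    g * S.psi u w * g⁻¹ = S.psi (S.ρ g u) (S.ρ g w) := by
  refine S.inj _ _ fun x => ?_
  rw [S.mul_apply, S.mul_apply, S.hpsi u w hu h, S.hpsi _ _ (by rw [S.iso, hu])
    (by rw [S.iso, h]), S.iso]
  simp only [map_add, map_sub, map_smul, S.apply_inv, S.iso_right]

theorem psi_smul (c : k) {u w : V} (hu : S.B u u = 0) (h : S.B u w = 0) :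
    S.psi (c • u) w = S.psi u (c • w) := by
  refine S.inj _ _ fun x => ?_
  rw [S.hpsi (c • u) w (by simp [hu]) (by simp [h]), S.hpsi u (c • w) hu (by simp [h])]
  simp only [map_smul, LinearMap.smul_apply, smul_eq_mul]
  match_scalars <;> ring

theorem psi_add_self (c : k) {u w : V} (hu : S.B u u = 0) (h : S.B u w = 0) :
    S.psi u (w + c • u) = S.psi u w := by
  refine S.inj _ _ fun x => ?_
  rw [S.hpsi u (w + c • u) hu (by simp [h, hu]), S.hpsi u w hu h]
  simp only [map_add, map_smul, LinearMap.add_apply, LinearMap.smul_apply, smul_eq_mul, hu, h,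
    S.sym w u]
  match_scalars <;> ring

theorem psi_fix {u w : V} (hu : S.B u u = 0) (h : S.B u w = 0) : S.ρ (S.psi u w) u = u := by
  rw [S.hpsi u w hu h]
  simp [hu, h]

theorem psi_fix_of {u w x : V} (hu : S.B u u = 0) (h : S.B u w = 0) (h1 : S.B x u = 0)
    (h2 : S.B x w = 0) : S.ρ (S.psi u w) x = x := by
  rw [S.hpsi u w hu h]
  simp [h1, h2]

/-- Transitivity. -/
theorem psi_trans {f x y : V} (hf : S.B f f = 0) (hx : S.B x x = 0) (hy : S.B y y = 0)
    (h1 : S.B x f = 1) (h2 : S.B y f = 1) :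
    S.B f (y - x) = 0 ∧ S.ρ (S.psi f (y - x)) x = y := by
  have h2' := S.two
  have h0 : S.B f (y - x) = 0 := by
    rw [map_sub, S.sym f y, S.sym f x, h1, h2, sub_self]
  refine ⟨h0, ?_⟩
  rw [S.hpsi f _ hf h0]
  simp only [map_sub, LinearMap.sub_apply, hx, hy, h1, S.sym y x]
  match_scalars <;> field_simp <;> ring

/-- Hyperbolic pairs. -/
structure Hyp (e f : V) : Prop where
  ee : S.B e e = 0
  ff : S.B f f = 0
  ef : S.B e f = 1

variable {S}

theorem Hyp.fe {e f : V} (h : S.Hyp e f) : S.B f e = 1 := by rw [S.sym, h.ef]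

theorem Hyp.symm {e f : V} (h : S.Hyp e f) : S.Hyp f e := ⟨h.ff, h.ee, h.fe⟩

theorem Hyp.map {e f : V} (h : S.Hyp e f) (g : G) : S.Hyp (S.ρ g e) (S.ρ g f) :=
  ⟨by rw [S.iso, h.ee], by rw [S.iso, h.ff], by rw [S.iso, h.ef]⟩

theorem Hyp.ne {e f : V} (h : S.Hyp e f) : e ≠ 0 := by
  rintro rfl
  have := h.ef
  rw [map_zero, LinearMap.zero_apply] at this
  exact zero_ne_one this

variable (S)

theorem exists_hyp {e : V} (he : e ≠ 0) (h : S.B e e = 0) : ∃ f, S.Hyp e f := by
  have h2 := S.two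
  obtain ⟨y, hy⟩ := S.nd e he
  refine ⟨y - (2⁻¹ * S.B y y) • e, h, ?_, ?_⟩
  · simp only [map_sub, map_smul, LinearMap.sub_apply, LinearMap.smul_apply, smul_eq_mul, h, hy,
      S.sym y e]
    field_simp
    ring
  · simp only [map_sub, map_smul, smul_eq_mul, h, hy]
    ring

/-- The decomposition of a vector. -/
def pr (e f x : V) : V := x - S.B x f • e - S.B x e • f

theorem pr_e {e f : V} (h : S.Hyp e f) (x : V) : S.B (S.pr e f x) e = 0 := by
  simp only [pr, map_sub, map_smul, LinearMap.sub_apply, LinearMap.smul_apply, smul_eq_mul, h.ee,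
    h.fe]
  ring

theorem pr_f {e f : V} (h : S.Hyp e f) (x : V) : S.B (S.pr e f x) f = 0 := by
  simp only [pr, map_sub, map_smul, LinearMap.sub_apply, LinearMap.smul_apply, smul_eq_mul, h.ef,
    h.ff]
  ring

theorem pr_eq (e f x : V) : x = S.pr e f x + S.B x f • e + S.B x e • f := by
  simp only [pr]
  abel

/-- Two isotropic vectors have a common isotropic vector orthogonal to none of them. -/
theorem exists_common {x y : V} (hx : x ≠ 0) (hy : y ≠ 0) (hxx : S.B x x = 0) (hyy : S.B y y = 0) :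
    ∃ z, S.B z z = 0 ∧ S.B x z ≠ 0 ∧ S.B y z ≠ 0 := by
  have h2 := S.two
  by_cases hxy : S.B x y = 0
  · obtain ⟨z₁, h1⟩ := S.exists_hyp hx hxx
    obtain ⟨z₂, h2'⟩ := S.exists_hyp hy hyy
    by_cases a : S.B y z₁ = 0
    · by_cases b : S.B x z₂ = 0
      · refine ⟨z₁ + z₂ - S.B z₁ z₂ • x, ?_, ?_, ?_⟩
        · have e1 : S.B z₁ x = 1 := h1.fe
          have e2 : S.B z₂ x = 0 := by rw [S.sym, b]
          simp only [map_add, map_sub, map_smul, LinearMap.add_apply, LinearMap.sub_apply,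
            LinearMap.smul_apply, smul_eq_mul, h1.ff, h2'.ff, hxx, h1.ef, b, e1, e2, S.sym z₂ z₁]
          ring
        · simp only [map_add, map_sub, map_smul, smul_eq_mul, h1.ef, b, hxx]
          simp
        · have e3 : S.B y x = 0 := by rw [S.sym, hxy]
          simp only [map_add, map_sub, map_smul, smul_eq_mul, a, h2'.ef, e3]
          simp
      · exact ⟨z₂, h2'.ff, b, by rw [h2'.ef]; exact one_ne_zero⟩
    · exact ⟨z₁, h1.ff, by rw [h1.ef]; exact one_ne_zero, a⟩
  · have hh : S.Hyp x ((S.B x y)⁻¹ • y) := ⟨hxx, by simp [hyy], by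
      rw [map_smul, smul_eq_mul, inv_mul_cancel₀ hxy]⟩
    obtain ⟨w, hw1, hw2, hw3⟩ := S.h3 _ _ hh.ee hh.ff hh.ef
    have hw2' : S.B y w = 0 := by
      rw [map_smul, LinearMap.smul_apply, smul_eq_mul] at hw2
      exact (mul_eq_zero.1 hw2).resolve_left (inv_ne_zero hxy)
    refine ⟨x + w - (2⁻¹ * S.B w w * (S.B x y)⁻¹) • y, ?_, ?_, ?_⟩
    · simp only [map_add, map_sub, map_smul, LinearMap.add_apply, LinearMap.sub_apply,
        LinearMap.smul_apply, smul_eq_mul, hxx, hyy, hw1, hw2', S.sym w x, S.sym w y, S.sym y x]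
      field_simp
      ring
    · simp only [map_add, map_sub, map_smul, smul_eq_mul, hxx, hw1]
      have : (0 : k) + 0 - 2⁻¹ * S.B w w * (S.B x y)⁻¹ * S.B x y = - (2⁻¹ * S.B w w) := by
        field_simp
        ring
      rw [this]
      exact neg_ne_zero.2 (mul_ne_zero (inv_ne_zero h2) hw3)
    · simp only [map_add, map_sub, map_smul, smul_eq_mul, hyy, hw2', S.sym y x, mul_zero, sub_zero,
        add_zero]
      exact hxy

/-! ### The torus -/

/-- The Weyl element of an anisotropic vector `w` orthogonal to the hyperbolic pair. -/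
def nw (e f w : V) : G :=
  S.psi f ((2⁻¹ * S.B w w)⁻¹ • w) * S.psi e w * S.psi f ((2⁻¹ * S.B w w)⁻¹ • w)

theorem nw_e {e f w : V} (h : S.Hyp e f) (he : S.B e w = 0) (hf : S.B f w = 0)
    (hw : S.B w w ≠ 0) : S.ρ (S.nw e f w) e = -((2⁻¹ * S.B w w)⁻¹) • f := by
  have h2 := S.two
  have hf' : S.B f ((2⁻¹ * S.B w w)⁻¹ • w) = 0 := by rw [map_smul, hf, smul_zero]
  rw [nw, S.mul_apply, S.mul_apply, S.hpsi f _ h.ff hf', S.hpsi e w h.ee he, S.hpsi f _ h.ff hf']
  simp only [map_add, map_sub, map_smul, map_neg, LinearMap.add_apply, LinearMap.sub_apply,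
    LinearMap.smul_apply, LinearMap.neg_apply, smul_eq_mul, h.ee, h.ff, h.ef, h.fe, he, hf,
    S.sym w e, S.sym w f]
  match_scalars <;> field_simp <;> ring

theorem nw_f {e f w : V} (h : S.Hyp e f) (he : S.B e w = 0) (hf : S.B f w = 0)
    (hw : S.B w w ≠ 0) : S.ρ (S.nw e f w) f = -(2⁻¹ * S.B w w) • e := by
  have h2 := S.two
  have hf' : S.B f ((2⁻¹ * S.B w w)⁻¹ • w) = 0 := by rw [map_smul, hf, smul_zero]
  rw [nw, S.mul_apply, S.mul_apply, S.hpsi f _ h.ff hf', S.hpsi e w h.ee he, S.hpsi f _ h.ff hf']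
  simp only [map_add, map_sub, map_smul, map_neg, LinearMap.add_apply, LinearMap.sub_apply,
    LinearMap.smul_apply, LinearMap.neg_apply, smul_eq_mul, h.ee, h.ff, h.ef, h.fe, he, hf,
    S.sym w e, S.sym w f]
  match_scalars <;> field_simp <;> ring

theorem nw_x {e f w x : V} (h : S.Hyp e f) (he : S.B e w = 0) (hf : S.B f w = 0)
    (hw : S.B w w ≠ 0) (hxe : S.B x e = 0) (hxf : S.B x f = 0) :
    S.ρ (S.nw e f w) x = x - ((2⁻¹ * S.B w w)⁻¹ * S.B x w) • w := by
  have h2 := S.two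
  have hf' : S.B f ((2⁻¹ * S.B w w)⁻¹ • w) = 0 := by rw [map_smul, hf, smul_zero]
  rw [nw, S.mul_apply, S.mul_apply, S.hpsi f _ h.ff hf', S.hpsi e w h.ee he, S.hpsi f _ h.ff hf']
  simp only [map_add, map_sub, map_smul, map_neg, LinearMap.add_apply, LinearMap.sub_apply,
    LinearMap.smul_apply, LinearMap.neg_apply, smul_eq_mul, h.ee, h.ff, h.ef, h.fe, he, hf,
    S.sym w e, S.sym w f, hxe, hxf]
  match_scalars <;> field_simp <;> ring

/-- The torus element `e ↦ s² e`, `f ↦ s⁻² f`. -/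
theorem nw_mul {e f w : V} (h : S.Hyp e f) (he : S.B e w = 0) (hf : S.B f w = 0)
    (hw : S.B w w ≠ 0) {s : k} (hs : s ≠ 0) (x : V) :
    S.ρ (S.nw e f (s • w) * S.nw e f w) x =
      x + ((s ^ 2 - 1) * S.B x f) • e + (((s ^ 2)⁻¹ - 1) * S.B x e) • f := by
  have h2 := S.two
  have he' : S.B e (s • w) = 0 := by rw [map_smul, he, smul_zero]
  have hf' : S.B f (s • w) = 0 := by rw [map_smul, hf, smul_zero]
  have hww : S.B (s • w) (s • w) = s ^ 2 * S.B w w := by
    simp only [map_smul, LinearMap.smul_apply, smul_eq_mul]; ring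
  have hw' : S.B (s • w) (s • w) ≠ 0 := by
    rw [hww]
    exact mul_ne_zero (pow_ne_zero _ hs) hw
  have hpe := S.pr_e h x
  have hpf := S.pr_f h x
  have hwe : S.B w e = 0 := by rw [S.sym, he]
  have hwf : S.B w f = 0 := by rw [S.sym, hf]
  have e1 : S.ρ (S.nw e f (s • w) * S.nw e f w) e = s ^ 2 • e := by
    rw [S.mul_apply, S.nw_e h he hf hw, map_smul, S.nw_f h he' hf' hw', hww, smul_smul]
    congr 1
    field_simp
  have e2 : S.ρ (S.nw e f (s • w) * S.nw e f w) f = (s ^ 2)⁻¹ • f := by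
    rw [S.mul_apply, S.nw_f h he hf hw, map_smul, S.nw_e h he' hf' hw', hww, smul_smul]
    congr 1
    field_simp
  have e3 : ∀ y, S.B y e = 0 → S.B y f = 0 → S.ρ (S.nw e f (s • w) * S.nw e f w) y = y := by
    intro y hy1 hy2
    rw [S.mul_apply, S.nw_x h he hf hw hy1 hy2, S.nw_x h he' hf' hw' (by
      simp only [map_sub, map_smul, LinearMap.sub_apply, LinearMap.smul_apply, smul_eq_mul, hy1, hwe]
      ring) (by
      simp only [map_sub, map_smul, LinearMap.sub_apply, LinearMap.smul_apply, smul_eq_mul, hy2, hwf]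
      ring), hww]
    simp only [map_sub, map_smul, LinearMap.sub_apply, LinearMap.smul_apply, smul_eq_mul]
    match_scalars <;> field_simp <;> ring
  conv_lhs => rw [S.pr_eq e f x]
  rw [map_add, map_add, map_smul, map_smul, e1, e2, e3 _ hpe hpf]
  conv_rhs => rw [S.pr_eq e f x]
  have e4 : S.B (S.pr e f x + S.B x f • e + S.B x e • f) f = S.B x f := by
    rw [← S.pr_eq e f x]
  have e5 : S.B (S.pr e f x + S.B x f • e + S.B x e • f) e = S.B x e := by
    rw [← S.pr_eq e f x]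
  rw [e4, e5]
  match_scalars <;> ring

end Sys

end Vale.Agent.P092.H899.Ort
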