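import Vale.Agent.P092.H899.O7
import Vale.Agent.P092.H899.O11
import Vale.Agent.P092.H678.GoodCl

/-!
P092 (helper899), [CLASS-O], project B: commutator subgroups of open subgroups are open; `Om K` modulo
its centre is a good group over a non-archimedean local field.
-/

set_option linter.all false

open Filter Topology Matrix
open scoped commutatorElement

namespace Vale.Agent.P092.H899.Ort

section small

variable {k V G : Type*} [NontriviallyNormedField k] [AddCommGroup V] [Module k V] [Group G]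
  [TopologicalSpace G] (S : TSys k V G)

/-- Small torus elements. -/
theorem TSys.exists_small_tor [IsTopologicalGroup G] {x f : V} (hf : S.Hyp x f) {W : Set G}
    (h : W ∈ 𝓝 (1 : G)) : ∃ d ∈ W, ∃ t : k, t ≠ 0 ∧ t ≠ 1 ∧ S.IsTor x f t d := by
  obtain ⟨w, h1, h2, h3⟩ := S.h3 x f hf.ee hf.ff hf.ef
  have hct : ContinuousAt (fun s : k => S.psi f ((s⁻¹ * (2⁻¹ * S.B w w)⁻¹) • w) *
      S.psi x (s • w) * S.psi f ((s⁻¹ * (2⁻¹ * S.B w w)⁻¹) • w) * S.nw x f w) 1 := by
    have c1 : ContinuousAt (fun s : k => S.psi f ((s⁻¹ * (2⁻¹ * S.B w w)⁻¹) • w)) 1 := by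
      have c2 : ContinuousAt (fun s : k => s⁻¹ * (2⁻¹ * S.B w w)⁻¹) 1 :=
        (continuousAt_inv₀ one_ne_zero).mul continuousAt_const
      exact ContinuousAt.comp (g := fun c : k => S.psi f (c • w)) (S.cont f w hf.ff h2).continuousAt c2
    exact ((c1.mul (S.cont x w hf.ee h1).continuousAt).mul c1).mul continuousAt_const
  have hv : (fun s : k => S.psi f ((s⁻¹ * (2⁻¹ * S.B w w)⁻¹) • w) *
      S.psi x (s • w) * S.psi f ((s⁻¹ * (2⁻¹ * S.B w w)⁻¹) • w) * S.nw x f w) 1 = 1 := by
    show S.psi f (((1 : k)⁻¹ * (2⁻¹ * S.B w w)⁻¹) • w) * S.psi x ((1 : k) • w) *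
      S.psi f (((1 : k)⁻¹ * (2⁻¹ * S.B w w)⁻¹) • w) * S.nw x f w = 1
    rw [← TSys.nw_smul_eq S h3 one_ne_zero]
    refine S.inj _ _ fun y => ?_
    rw [S.nw_mul hf h1 h2 h3 one_ne_zero, S.one_apply]
    simp
  have e1 : ∀ᶠ s in 𝓝[≠] (1 : k), (S.psi f ((s⁻¹ * (2⁻¹ * S.B w w)⁻¹) • w) *
      S.psi x (s • w) * S.psi f ((s⁻¹ * (2⁻¹ * S.B w w)⁻¹) • w) * S.nw x f w) ∈ W := by
    refine Filter.Eventually.filter_mono nhdsWithin_le_nhds ?_
    refine hct.eventually ?_
    rw [hv]
    exact h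
  have e2 : ∀ᶠ s in 𝓝[≠] (1 : k), s ≠ 0 :=
    Filter.Eventually.filter_mono nhdsWithin_le_nhds (eventually_ne_nhds one_ne_zero)
  have e3 : ∀ᶠ s in 𝓝[≠] (1 : k), s ^ 2 ≠ 1 := by
    have h4 : ∀ᶠ s in 𝓝[≠] (1 : k), s ≠ -1 := by
      refine Filter.Eventually.filter_mono nhdsWithin_le_nhds (eventually_ne_nhds ?_)
      intro h
      exact S.two (by linear_combination h)
    filter_upwards [h4, self_mem_nhdsWithin] with s hs hs'
    intro h
    have h0 : (s - 1) * (s + 1) = 0 := by linear_combination h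
    rcases mul_eq_zero.1 h0 with h | h
    · exact hs' (by show s = 1; linear_combination h)
    · exact hs (by linear_combination h)
  obtain ⟨s, ⟨hs1, hs2⟩, hs3⟩ := ((e1.and e2).and e3).exists
  rw [← TSys.nw_smul_eq S h3 hs2] at hs1
  exact ⟨_, hs1, s ^ 2, pow_ne_zero _ hs2, hs3, fun y => S.nw_mul hf h1 h2 h3 hs2 y⟩

/-- Small elements of a root group are commutators. -/
theorem TSys.small_comm [IsTopologicalGroup G] {e f w : V} (h : S.Hyp e f) (he : S.B e w = 0)
    (hf : S.B f w = 0) (U : Subgroup G) (hU : IsOpen (U : Set G)) :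
    ∃ δ : ℝ, 0 < δ ∧ ∀ c : k, ‖c‖ ≤ δ → S.psi e (c • w) ∈ (⁅U, U⁆ : Subgroup G) := by
  have hUn : (U : Set G) ∈ 𝓝 (1 : G) := hU.mem_nhds U.one_mem
  obtain ⟨d, hdU, t, ht0, ht1, hd⟩ := S.exists_small_tor h hUn
  have h1 : (fun c : k => S.psi e (c • w)) ⁻¹' (U : Set G) ∈ 𝓝 (0 : k) := by
    refine (S.cont e w h.ee he).continuousAt ?_
    rw [zero_smul, S.psi_zero h.ee]
    exact hUn
  obtain ⟨δ, hδ, h2⟩ := Metric.mem_nhds_iff.1 h1
  have hq : 0 < ‖t - 1‖ := norm_pos_iff.2 (sub_ne_zero.2 ht1)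
  refine ⟨δ / 2 * ‖t - 1‖, by positivity, fun c hc => ?_⟩
  have hc' : S.psi e (((t - 1)⁻¹ * c) • w) ∈ U := by
    refine h2 ?_
    rw [mem_ball_zero_iff, norm_mul, norm_inv, inv_mul_lt_iff₀ hq]
    nlinarith
  have h3 := hd.comm_psi h (w := ((t - 1)⁻¹ * c) • w) (by rw [map_smul, he, smul_zero])
    (by rw [map_smul, hf, smul_zero])
  rw [smul_smul, ← mul_assoc, mul_inv_cancel₀ (sub_ne_zero.2 ht1), one_mul] at h3
  rw [← h3]
  exact Subgroup.commutator_mem_commutator hdU hc'

end small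

section alg

variable {n : Type} [Fintype n] [DecidableEq n] {k : Type} [Field k] {K : Matrix n n k}

theorem pr_sum (h : Good K) {e f w : n → k} (he : bf K e w = 0) (hf : bf K f w = 0) :
    w = ∑ i, w i • (sysOf h).pr e f (Pi.single i 1) := by
  let P : (n → k) →ₗ[k] (n → k) :=
    LinearMap.id - ((bf K).flip f).smulRight e - ((bf K).flip e).smulRight f
  have hP : ∀ x, P x = (sysOf h).pr e f x := fun x => rfl
  have h1 : P w = w := by
    have h2 : P w = w - bf K w f • e - bf K w e • f := rfl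
    rw [h2, bf_sym h.sym w f, bf_sym h.sym w e, he, hf, zero_smul, zero_smul, sub_zero, sub_zero]
  have h3 : w = ∑ i, w i • (Pi.single i 1 : n → k) := by
    funext j
    simp [Finset.sum_apply, Pi.single_apply]
  conv_lhs => rw [← h1, h3, map_sum]
  refine Finset.sum_congr rfl fun i _ => ?_
  rw [map_smul, hP]

theorem psi_sum_mem {ι V G : Type*} [AddCommGroup V] [Module k V] [Group G] (S : Sys k V G)
    (H : Subgroup G) {e : V} (he : S.B e e = 0) (c : ι → k) (p : ι → V)
    (hp : ∀ i, S.B e (p i) = 0) (hm : ∀ i, ∀ c : k, S.psi e (c • p i) ∈ H) (s : Finset ι) :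
    S.psi e (∑ i ∈ s, c i • p i) ∈ H := by
  classical
  induction s using Finset.induction_on with
  | empty =>
    rw [Finset.sum_empty, S.psi_zero he]
    exact H.one_mem
  | insert a s ha ih =>
    have h1 : S.B e (c a • p a) = 0 := by rw [map_smul, hp, smul_zero]
    have h2 : S.B e (∑ i ∈ s, c i • p i) = 0 := by
      rw [map_sum]
      exact Finset.sum_eq_zero fun i _ => by rw [map_smul, hp, smul_zero]
    rw [Finset.sum_insert ha, ← S.psi_mul he h1 h2]
    exact H.mul_mem (hm _ _) ih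

end alg

section om

open Vale.Agent.P092.H678

variable {n : Type} [Fintype n] [DecidableEq n] {k : Type} [NontriviallyNormedField k]
  [ProperSpace k] {K : Matrix n n k}

theorem sm_piece (h : Good K) {e f w : n → k} (hh : (tsysOf h).Hyp e f) (he : bf K e w = 0)
    (hf : bf K f w = 0) (m : ℕ) (U : Subgroup (Om K)) (hU : IsOpen (U : Set (Om K))) :
    BC.Sm (⁅U, U⁆ : Subgroup (Om K))
      ((fun c : k => (tsysOf h).psi e (c • w)) '' Metric.closedBall 0 m) := by
  obtain ⟨δ, hδ, hsm⟩ := (tsysOf h).small_comm hh he hf U hU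
  have hK : IsCompact (Metric.closedBall (0 : k) m) := isCompact_closedBall _ _
  have hew : ∀ c : k, (tsysOf h).B e (c • w) = 0 := fun c => by
    rw [map_smul]
    show c • bf K e w = 0
    rw [he, smul_zero]
  obtain ⟨t, -, htf, ht⟩ := hK.finite_cover_balls (half_pos hδ)
  refine ⟨(fun x : k => (fun c : k => (tsysOf h).psi e (c • w)) ''
    (Metric.closedBall (0 : k) m ∩ Metric.closedBall x (δ / 2))) '' t, htf.image _, ?_, ?_⟩
  · rintro _ ⟨x, hx, rfl⟩
    refine ⟨(hK.inter_right Metric.isClosed_closedBall).image ((tsysOf h).cont e w hh.ee he), ?_, ?_⟩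
    · rintro g ⟨c, hc, rfl⟩
      exact ⟨c, hc.1, rfl⟩
    · rintro g ⟨c, hc, rfl⟩ g' ⟨c', hc', rfl⟩
      have e1 : ((tsysOf h).psi e (c • w))⁻¹ * (tsysOf h).psi e (c' • w) =
          (tsysOf h).psi e ((-c + c') • w) := by
        rw [(tsysOf h).psi_inv hh.ee (hew c), (tsysOf h).psi_mul hh.ee (by
          rw [map_neg, hew, neg_zero]) (hew c'), add_smul, neg_smul]
      show ((tsysOf h).psi e (c • w))⁻¹ * (tsysOf h).psi e (c' • w) ∈ _
      rw [e1]
      refine hsm _ ?_
      have a1 : dist c x ≤ δ / 2 := hc.2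
      have a2 : dist c' x ≤ δ / 2 := hc'.2
      have a3 : ‖-c + c'‖ = dist c' c := by rw [dist_eq_norm]; congr 1; ring
      rw [a3]
      calc dist c' c ≤ dist c' x + dist x c := dist_triangle _ _ _
        _ ≤ δ / 2 + δ / 2 := by rw [dist_comm x c]; exact add_le_add a2 a1
        _ = δ := by ring
  · rintro g ⟨c, hc, rfl⟩
    obtain ⟨x, hx, hcx⟩ := Set.mem_iUnion₂.1 (ht hc)
    exact ⟨_, ⟨x, hx, rfl⟩, c, ⟨hc, Metric.ball_subset_closedBall hcx⟩, rfl⟩

/-- **The commutator subgroup of an open subgroup is open.** -/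
theorem comm_openG (h : Good K) (U : Subgroup (Om K)) (hU : IsOpen (U : Set (Om K))) :
    IsOpen ((⁅U, U⁆ : Subgroup (Om K)) : Set (Om K)) := by
  haveI := t2_om K
  haveI := lc_om (isClosed_om h)
  obtain ⟨e, he0, hee⟩ := (tsysOf h).ex
  obtain ⟨f, hf⟩ := (tsysOf h).exists_hyp he0 hee
  have pe : ∀ x, bf K e ((sysOf h).pr e f x) = 0 := fun x => by
    rw [bf_sym h.sym]; exact (sysOf h).pr_e hf x
  have pf : ∀ x, bf K f ((sysOf h).pr e f x) = 0 := fun x => by
    rw [bf_sym h.sym]; exact (sysOf h).pr_f hf x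
  refine BC.isOpen_commutator (ι := (Bool × n) × ℕ)
    (T := fun i => (fun c : k => (tsysOf h).psi (cond i.1.1 e f)
      (c • (sysOf h).pr e f (Pi.single i.1.2 1))) '' Metric.closedBall 0 i.2)
    ?_ ?_ ?_ ?_ U hU
  · rintro ⟨⟨b, i⟩, m⟩
    cases b
    · exact (isCompact_closedBall _ _).image ((tsysOf h).cont f _ hf.ff (pf _))
    · exact (isCompact_closedBall _ _).image ((tsysOf h).cont e _ hf.ee (pe _))
  · rintro ⟨⟨b, i⟩, m⟩ g ⟨c, hc, rfl⟩
    refine ⟨-c, ?_, ?_⟩
    · rw [mem_closedBall_zero_iff] at hc ⊢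
      rwa [norm_neg]
    · have h1 : (tsysOf h).B (cond b e f) (cond b e f) = 0 := by
        cases b
        · exact hf.ff
        · exact hf.ee
      have h2 : (tsysOf h).B (cond b e f) (c • (sysOf h).pr e f (Pi.single i 1)) = 0 := by
        rw [map_smul]
        cases b
        · exact (congrArg (fun z => c • z) (pf _)).trans (smul_zero c)
        · exact (congrArg (fun z => c • z) (pe _)).trans (smul_zero c)
      show (tsysOf h).psi (cond b e f) (-c • (sysOf h).pr e f (Pi.single i 1)) =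
        ((tsysOf h).psi (cond b e f) (c • (sysOf h).pr e f (Pi.single i 1)))⁻¹
      rw [(tsysOf h).psi_inv h1 h2, neg_smul]
  · have key : ∀ (b : Bool) (i : n) (c : k), (tsysOf h).psi (cond b e f)
        (c • (sysOf h).pr e f (Pi.single i 1)) ∈ Subgroup.closure
          (⋃ i : (Bool × n) × ℕ, (fun c : k => (tsysOf h).psi (cond i.1.1 e f)
            (c • (sysOf h).pr e f (Pi.single i.1.2 1))) '' Metric.closedBall 0 i.2) := by
      intro b i c
      obtain ⟨m, hm⟩ := exists_nat_ge ‖c‖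
      exact Subgroup.subset_closure (Set.mem_iUnion.2 ⟨((b, i), m), c, by
        rw [mem_closedBall_zero_iff]; exact hm, rfl⟩)
    refine (tsysOf h).gen_two hf ?_ ?_
    · intro w h1 h2
      rw [pr_sum h (w := w) h1 h2]
      exact psi_sum_mem (sysOf h) _ hf.ee _ _ (fun i => pe _) (fun i c => key true i c) _
    · intro w h1 h2
      rw [pr_sum h (w := w) h1 h2]
      exact psi_sum_mem (sysOf h) _ hf.ff _ _ (fun i => pf _) (fun i c => key false i c) _
  · rintro ⟨⟨b, i⟩, m⟩ V hV
    cases b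
    · exact sm_piece h hf.symm (pf _) (pe _) m V hV
    · exact sm_piece h hf (pe _) (pf _) m V hV

/-- An element with unbounded powers. -/
theorem hyp_om (h : Good K) : ∃ g : Om K, ∀ D : Set (Om K), IsCompact D → ∃ m : ℕ, g ^ m ∉ D := by
  obtain ⟨e, he0, hee⟩ := (tsysOf h).ex
  obtain ⟨f, hf⟩ := (tsysOf h).exists_hyp he0 hee
  obtain ⟨s, hs, hs0, -, -⟩ := TSys.exists_big (k := k)
  obtain ⟨_, d, -, -, -, -, hd⟩ := (tsysOf h).exists_tor hf hs0
  have ht1 : 1 < ‖s ^ 2‖ := by rw [norm_pow]; nlinarith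
  refine ⟨d, fun D hD => ?_⟩
  by_contra hcon
  push Not at hcon
  obtain ⟨C, hC⟩ := (hD.image ((tsysOf h).contB e f).norm).bddAbove
  obtain ⟨N, hN⟩ := pow_unbounded_of_one_lt C ht1
  have h1 : ‖(tsysOf h).B ((tsysOf h).ρ (d ^ N) e) f‖ ≤ C := hC ⟨d ^ N, hcon N, rfl⟩
  rw [(hd.pow hf (pow_ne_zero 2 hs0) N).e hf, map_smul, LinearMap.smul_apply, hf.ef, smul_eq_mul,
    mul_one, norm_pow] at h1
  linarith

/-- **`Om K` modulo its centre is a good group** over a non-archimedean local field. -/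
theorem good_om [IsUltrametricDist k] (h : Good K) : SR.GoodGrp (Om K ⧸ Subgroup.center (Om K)) := by
  have fs : PA.FacS (Om K ⧸ Subgroup.center (Om K)) := facS_om h
  have hcl := isClosed_om h
  have hf := finite_center_om h
  have hs : Function.Surjective (QuotientGroup.mk' (Subgroup.center (Om K))) :=
    QuotientGroup.mk'_surjective _
  have hhyp : ∃ g : Om K ⧸ Subgroup.center (Om K), ∀ C : Set (Om K ⧸ Subgroup.center (Om K)),
      IsCompact C → ∃ m : ℕ, g ^ m ∉ C := by
    obtain ⟨g, hg⟩ := hyp_om h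
    exact ⟨_, H183.Cl.hyp_quot _ hf.isCompact hg⟩
  have hnd : ¬ IsOpen ({1} : Set (Om K ⧸ Subgroup.center (Om K))) := by
    intro ho
    haveI := fs.top
    exact fs.not_discrete (discreteTopology_of_isOpen_singleton_one ho)
  exact
  { top := fs.top
    t2 := fs.t2
    sc := fs.sc
    basis := fun U hU h1 => H183.Cl.basis_quot _ (fun _ hW =>
      H183.Cl.exists_cos_sub (fun _ hW => H183.Cl.exists_cos hW) hcl hW) U hU h1
    nondisc := hnd
    proper := fun V hV hne => ClC.isCompact_of_hmg ((hmg_om h).of_surj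
      (QuotientGroup.mk' (Subgroup.center (Om K))) QuotientGroup.continuous_mk hs) V hV hne
    noncompact := fs.not_isCompact
    perfect := by
      rw [eq_top_iff]
      intro x _
      have h1 := fs.hom (Abelianization (Om K ⧸ Subgroup.center (Om K))) Abelianization.of
      exact (QuotientGroup.eq_one_iff x).1 (DFunLike.congr_fun h1 x)
    comm_open := fun V hV => by
      have hV' : IsOpen ((V.comap (QuotientGroup.mk' (Subgroup.center (Om K))) :
          Subgroup (Om K)) : Set (Om K)) := hV.preimage QuotientGroup.continuous_mk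
      have h1 := comm_openG h _ hV'
      have h2 : (⁅V.comap (QuotientGroup.mk' (Subgroup.center (Om K))),
          V.comap (QuotientGroup.mk' (Subgroup.center (Om K)))⁆ : Subgroup (Om K)).map
            (QuotientGroup.mk' (Subgroup.center (Om K))) = ⁅V, V⁆ := by
        rw [Subgroup.map_commutator, Subgroup.map_comap_eq_self_of_surjective hs]
      rw [← h2]
      exact QuotientGroup.isOpenMap_coe _ h1
    open_normal := fun N hN hO => by
      rcases fs.simple N hN with h1 | h1
      · exfalso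
        rw [h1] at hO
        exact hnd (by simpa using hO)
      · exact h1
    bdd_normal := fun N hN hb => by
      rcases fs.simple N hN with h1 | h1
      · exact h1
      · exfalso
        obtain ⟨g, hg⟩ := hhyp
        obtain ⟨D, hD, hm⟩ := hb g (by rw [h1]; trivial)
        obtain ⟨m, hm'⟩ := hg D hD
        exact hm' (hm m)
    hyp := hhyp
    cent := fs.cent
    recur := fs.recu }

end om

end Vale.Agent.P092.H899.Ort
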