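import Vale.Agent.P092.H899.O10
import Vale.Agent.P092.H899.O12
import Vale.Agent.P092.H183.BFac

/-!
P092 (helper899), [CLASS-O]: orthogonal groups are factors of project B.
-/

set_option linter.all false

open Filter Topology Matrix

namespace Vale.Agent.P092.H899.Ort

open Vale.Agent.P092.H303 (Idx hyp)

variable {k : Type} [NontriviallyNormedField k] [ProperSpace k] [IsUltrametricDist k]

theorem basis_om {n : Type} [Fintype n] [DecidableEq n] {K : Matrix n n k} (h : Good K) :
    H103.CptOpenBasis (Om K) := fun _ hW =>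
  H183.Cl.exists_cos_sub (fun _ hW => H183.Cl.exists_cos hW) (isClosed_om h) hW

theorem proper_om {n : Type} [Fintype n] [DecidableEq n] {K : Matrix n n k} (h : Good K)
    (W : Subgroup (Om K)) (hW : IsOpen (W : Set (Om K))) (hne : W ≠ ⊤) :
    IsCompact (W : Set (Om K)) := H678.ClC.isCompact_of_hmg (hmg_om h) W hW hne

/-- **Orthogonal groups over non-archimedean local fields of characteristic not two are factors of
project B.** -/
theorem bfac_om {ι : Type} [Fintype ι] [DecidableEq ι] {q : ℕ} (hq : Dim q ι) {J₀ : Matrix ι ι k}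
    (h2 : (2 : k) ≠ 0) (hJs : J₀ᵀ = J₀) (hJ : Aniso J₀) : H183.BFac (Om (hyp q 1 J₀)) q where
  top := inferInstance
  t2 := t2_om _
  lc := lc_om (isClosed_om (good_hyp hq h2 hJs hJ))
  sc := sc_om _
  basis := basis_om (good_hyp hq h2 hJs hJ)
  cfin := (finite_center_om (good_hyp hq h2 hJs hJ)).to_subtype
  good := good_om (good_hyp hq h2 hJs hJ)
  cent := (tsysOf (good_hyp hq h2 hJs hJ)).cent
  hm := hmg_om (good_hyp hq h2 hJs hJ)
  pos := by rcases hq with h | h <;> omega
  chn := chn_om hq h2 hJs hJ
  tgt := tgt_om (H933.LocK.ultra inferInstance) (good_hyp hq h2 hJs hJ) hJ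

end Vale.Agent.P092.H899.Ort
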