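import Vale.Agent.P092.H899.O14
import Vale.Agent.P092.H628.VC6
import Vale.Agent.P092.H971.Conn
import Vale.Agent.P092.QC.Final

/-!
P092 (helper899), [CLASS-O]: orthogonal groups are factors of project Q.
-/

set_option linter.all false

open Filter Topology Matrix

namespace Vale.Agent.P092.H899.Ort

open Vale.Agent.P092.H303 (Idx hyp)
open Vale.Agent.P092.H933 (LocK)

theorem td_om {k : Type} [NontriviallyNormedField k] [ProperSpace k] [IsUltrametricDist k]
    {n : Type} [Fintype n] [DecidableEq n] {K : Matrix n n k} (h : Good K) : QC.Td (Om K) where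
  basis := basis_om h
  proper := proper_om h
  vol := H628.VC.vol_om h

/-- **Orthogonal groups over local fields of characteristic not two are factors of project Q.** -/
theorem qf_om {k : Type} [NontriviallyNormedField k] [ProperSpace k] {ι : Type} [Fintype ι]
    [DecidableEq ι] {q : ℕ} (hk : LocK k) (hq : Dim q ι) {J₀ : Matrix ι ι k} (h2 : (2 : k) ≠ 0)
    (hJs : J₀ᵀ = J₀) (hJ : Aniso J₀) : QC.QF (Om (hyp q 1 J₀)) q where
  top := inferInstance
  lc := lc_om (isClosed_om (good_hyp hq h2 hJs hJ))
  sc := sc_om _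
  t2 := t2_om _
  fin := (cf_om (good_hyp hq h2 hJs hJ)).fin
  fac := facS_om (good_hyp hq h2 hJs hJ)
  hmg := hmg_om (good_hyp hq h2 hJs hJ)
  chn := chn_om hq h2 hJs hJ
  tgt := tgt_om hk (good_hyp hq h2 hJs hJ) hJ
  pos := by rcases hq with h | h <;> omega
  erg := by
    rcases H971.real_or_ultra hk with ⟨ι', hι⟩ | hu
    · exact Or.inl (H971.preconnected_Om (hyp_transpose q hJs) hι)
    · exact Or.inr (td_om (good_hyp hq h2 hJs hJ))

end Vale.Agent.P092.H899.Ort
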