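import Vale.Agent.P092.H899.O1

/-!
P092 (helper899), [CLASS-O]: perfectness, generation by two opposite unipotent groups, simplicity
modulo the centre.
-/

set_option linter.all false

open scoped commutatorElement

namespace Vale.Agent.P092.H899.Ort

variable {k V G : Type*} [Field k] [AddCommGroup V] [Module k V] [Group G] (S : Sys k V G)

namespace Sys

/-- `d` acts by `t` on `e`, `t⁻¹` on `f`, trivially on the orthogonal space. -/
def IsTor (e f : V) (t : k) (d : G) : Prop :=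
  ∀ x, S.ρ d x = x + ((t - 1) * S.B x f) • e + ((t⁻¹ - 1) * S.B x e) • f

variable {S} in
theorem IsTor.e {e f : V} {t : k} {d : G} (hd : S.IsTor e f t d) (h : S.Hyp e f) :
    S.ρ d e = t • e := by
  rw [hd, h.ef, h.ee]
  match_scalars
  · ring
  · ring

variable {S} in
theorem IsTor.f {e f : V} {t : k} {d : G} (hd : S.IsTor e f t d) (h : S.Hyp e f) :
    S.ρ d f = t⁻¹ • f := by
  rw [hd, h.ff, h.fe]
  match_scalars
  · ring
  · ring

variable {S} in
theorem IsTor.x {e f x : V} {t : k} {d : G} (hd : S.IsTor e f t d) (h1 : S.B e x = 0)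
    (h2 : S.B f x = 0) : S.ρ d x = x := by
  rw [hd, S.sym x f, S.sym x e, h1, h2]
  match_scalars
  all_goals ring

variable {S} in
theorem IsTor.symm {e f : V} {t : k} {d : G} (hd : S.IsTor e f t d) : S.IsTor f e t⁻¹ d := by
  intro x
  rw [hd, inv_inv]
  abel

variable {S} in
theorem IsTor.mul {e f : V} {t t' : k} {d d' : G} (h : S.Hyp e f) (ht : t ≠ 0) (ht' : t' ≠ 0)
    (hd : S.IsTor e f t d) (hd' : S.IsTor e f t' d') : S.IsTor e f (t * t') (d * d') := by
  intro x
  rw [S.mul_apply, hd' x, hd]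
  simp only [map_add, map_smul, LinearMap.add_apply, LinearMap.smul_apply, smul_eq_mul, h.ef, h.ee,
    h.ff, h.fe]
  match_scalars
  · ring
  · ring
  · field_simp
    ring

variable {S} in
theorem IsTor.one {e f : V} : S.IsTor e f 1 (1 : G) := by
  intro x
  rw [S.one_apply]
  simp

variable {S} in
theorem IsTor.pow {e f : V} {t : k} {d : G} (h : S.Hyp e f) (ht : t ≠ 0)
    (hd : S.IsTor e f t d) (N : ℕ) : S.IsTor e f (t ^ N) (d ^ N) := by
  induction N with
  | zero => rw [pow_zero, pow_zero]; exact IsTor.one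
  | succ N ih => rw [pow_succ, pow_succ]; exact ih.mul h (pow_ne_zero _ ht) ht hd

variable {S} in
theorem IsTor.uniq {e f : V} {t : k} {d d' : G} (hd : S.IsTor e f t d) (hd' : S.IsTor e f t d') :
    d = d' := S.inj _ _ fun x => by rw [hd, hd']

variable {S} in
theorem IsTor.inv {e f : V} {t : k} {d : G} (h : S.Hyp e f) (ht : t ≠ 0)
    (hd : S.IsTor e f t d) : S.IsTor e f t⁻¹ d⁻¹ := by
  intro x
  have key : S.ρ d (x + ((t⁻¹ - 1) * S.B x f) • e + ((t⁻¹⁻¹ - 1) * S.B x e) • f) = x := by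
    rw [hd]
    simp only [map_add, map_smul, LinearMap.add_apply, LinearMap.smul_apply, smul_eq_mul, h.ef, h.ee,
      h.ff, h.fe, inv_inv]
    match_scalars
    · ring
    · field_simp
      ring
    · field_simp
      ring
  rw [← key, S.inv_apply, key]

/-- Torus elements exist (squares). -/
theorem exists_tor {e f : V} (h : S.Hyp e f) {s : k} (hs : s ≠ 0) :
    ∃ w d, S.B e w = 0 ∧ S.B f w = 0 ∧ S.B w w ≠ 0 ∧ d = S.nw e f (s • w) * S.nw e f w ∧
      S.IsTor e f (s ^ 2) d := by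
  obtain ⟨w, h1, h2, h3⟩ := S.h3 e f h.ee h.ff h.ef
  exact ⟨w, _, h1, h2, h3, rfl, fun x => S.nw_mul h h1 h2 h3 hs x⟩

/-- `psi e w = psi e w'` with `w'` orthogonal to the pair. -/
theorem psi_red {e f w : V} (h : S.Hyp e f) (he : S.B e w = 0) :
    ∃ w', S.B e w' = 0 ∧ S.B f w' = 0 ∧ S.psi e w = S.psi e w' := by
  refine ⟨w + (-S.B w f) • e, ?_, ?_, (S.psi_add_self _ h.ee he).symm⟩
  · rw [map_add, map_smul, he, h.ee, smul_zero, add_zero]
  · rw [map_add, map_smul, h.fe, smul_eq_mul, S.sym w f]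
    ring

variable {S} in
theorem IsTor.comm_psi {e f w : V} {t : k} {d : G} (h : S.Hyp e f) (hd : S.IsTor e f t d)
    (he : S.B e w = 0) (hf : S.B f w = 0) : ⁅d, S.psi e w⁆ = S.psi e ((t - 1) • w) := by
  have h1 : S.B e (t • w) = 0 := by rw [map_smul, he, smul_zero]
  have h2 : S.B e (-w) = 0 := by rw [map_neg, he, neg_zero]
  rw [commutatorElement_def, S.psi_conj d h.ee he, hd.e h, hd.x he hf, S.psi_smul t h.ee he,
    S.psi_inv h.ee he, S.psi_mul h.ee h1 h2]
  congr 1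
  module

include S in
/-- `G` is perfect. -/
theorem perfect [Infinite k] : commutator G = ⊤ := by
  refine S.gen _ fun u w hu hw => ?_
  by_cases h0 : u = 0
  · subst h0
    have : S.psi 0 w = 1 := S.inj _ _ fun x => by
      rw [S.hpsi 0 w hu hw, S.one_apply]; simp
    rw [this]
    exact Subgroup.one_mem _
  obtain ⟨f, hf⟩ := S.exists_hyp h0 hu
  obtain ⟨w', h1, h2, h3⟩ := S.psi_red hf hw
  classical
  obtain ⟨s, hs⟩ := Infinite.exists_notMem_finset ({0, 1, -1} : Finset k)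
  simp only [Finset.mem_insert, Finset.mem_singleton, not_or] at hs
  obtain ⟨_, d, -, -, -, -, hd⟩ := S.exists_tor hf hs.1
  have hne : s ^ 2 - 1 ≠ 0 := by
    intro h
    have h0 : (s - 1) * (s + 1) = 0 := by linear_combination h
    rcases mul_eq_zero.1 h0 with h | h
    · exact hs.2.1 (by linear_combination h)
    · exact hs.2.2 (by linear_combination h)
  have key := hd.comm_psi hf (w := (s ^ 2 - 1)⁻¹ • w') (by rw [map_smul, h1, smul_zero])
    (by rw [map_smul, h2, smul_zero])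
  rw [smul_smul, mul_inv_cancel₀ hne, one_smul] at key
  rw [h3, ← key]
  exact Subgroup.commutator_mem_commutator (Subgroup.mem_top _) (Subgroup.mem_top _)

include S in
theorem hom_eq_one [Infinite k] {A : Type*} [CommGroup A] (φ : G →* A) : φ = 1 := by
  have h : commutator G ≤ φ.ker := Abelianization.commutator_subset_ker φ
  rw [S.perfect] at h
  ext g
  exact MonoidHom.mem_ker.1 (h (Subgroup.mem_top g))

/-- A subgroup with `T(u)` contains `T(g u)` if it contains `g`. -/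
theorem psi_mem_of {H : Subgroup G} {u : V} (hu : S.B u u = 0)
    (h : ∀ w, S.B u w = 0 → S.psi u w ∈ H) {g : G} (hg : g ∈ H) {v : V} {c : k} (hc : c ≠ 0)
    (hv : S.ρ g u = c • v) : ∀ w, S.B v w = 0 → S.psi v w ∈ H := by
  intro w hw
  have hvv : S.B v v = 0 := by
    have h1 := S.iso g u u
    rw [hv, hu] at h1
    simp only [map_smul, LinearMap.smul_apply, smul_eq_mul] at h1
    rcases mul_eq_zero.1 h1 with h | h
    · exact absurd h hc
    · exact (mul_eq_zero.1 h).resolve_left hc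
  have h3 : S.B u (S.ρ g⁻¹ (c⁻¹ • w)) = 0 := by
    rw [← S.iso_left, hv]
    simp [hw]
  have h4 := H.mul_mem (H.mul_mem hg (h _ h3)) (H.inv_mem hg)
  rw [S.psi_conj g hu h3, S.apply_inv, hv, S.psi_smul c hvv (by simp [hw]), smul_smul,
    mul_inv_cancel₀ hc, one_smul] at h4
  exact h4

/-- Two opposite unipotent groups generate. -/
theorem gen_two {e f : V} (h : S.Hyp e f) {H : Subgroup G}
    (he : ∀ w, S.B e w = 0 → S.B f w = 0 → S.psi e w ∈ H)
    (hf : ∀ w, S.B e w = 0 → S.B f w = 0 → S.psi f w ∈ H) : H = ⊤ := by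
  have he' : ∀ w, S.B e w = 0 → S.psi e w ∈ H := by
    intro w hw
    obtain ⟨w', h1, h2, h3⟩ := S.psi_red h hw
    rw [h3]; exact he w' h1 h2
  have hf' : ∀ w, S.B f w = 0 → S.psi f w ∈ H := by
    intro w hw
    obtain ⟨w', h1, h2, h3⟩ := S.psi_red h.symm hw
    rw [h3]; exact hf w' h2 h1
  -- isotropic vectors not orthogonal to `f`
  have A : ∀ u, S.B u u = 0 → S.B u f ≠ 0 → ∀ w, S.B u w = 0 → S.psi u w ∈ H := by
    intro u hu huf
    obtain ⟨h1, h2⟩ := S.psi_trans h.ff h.ee (y := (S.B u f)⁻¹ • u) (by simp [hu]) h.ef (by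
      rw [map_smul, LinearMap.smul_apply, smul_eq_mul, inv_mul_cancel₀ huf])
    exact S.psi_mem_of h.ee he' (hf' _ h1) (inv_ne_zero huf) h2
  have A' : ∀ u, S.B u u = 0 → S.B u e ≠ 0 → ∀ w, S.B u w = 0 → S.psi u w ∈ H := by
    intro u hu hue
    obtain ⟨h1, h2⟩ := S.psi_trans h.ee h.ff (y := (S.B u e)⁻¹ • u) (by simp [hu]) h.fe (by
      rw [map_smul, LinearMap.smul_apply, smul_eq_mul, inv_mul_cancel₀ hue])
    exact S.psi_mem_of h.ff hf' (he' _ h1) (inv_ne_zero hue) h2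
  refine S.gen _ fun u w hu hw => ?_
  by_cases h0 : u = 0
  · subst h0
    have : S.psi 0 w = 1 := S.inj _ _ fun x => by
      rw [S.hpsi 0 w hu hw, S.one_apply]; simp
    rw [this]
    exact Subgroup.one_mem _
  by_cases h1 : S.B u f = 0
  · by_cases h2 : S.B u e = 0
    · -- orthogonal to both
      obtain ⟨y, hy⟩ := S.nd u h0
      have hfu : S.B f u = 0 := by rw [S.sym, h1]
      have heu : S.B e u = 0 := by rw [S.sym, h2]
      have hz1 : S.B e (S.pr e f y) = 0 := by rw [S.sym, S.pr_e h]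
      have hz3 : S.B u (S.pr e f y) = 1 := by
        simp only [pr, map_sub, map_smul, smul_eq_mul, h1, h2, hy]
        ring
      have h3 : S.ρ (S.psi e (S.pr e f y)) u = u - e := by
        rw [S.hpsi e _ h.ee hz1, h2, hz3]
        simp
      have h4 : S.B (u - e) (u - e) = 0 := by
        simp only [map_sub, LinearMap.sub_apply, hu, h2, heu, h.ee]
        ring
      have h5 : S.B (u - e) f ≠ 0 := by
        rw [map_sub, LinearMap.sub_apply, h1, h.ef, zero_sub]
        exact neg_ne_zero.2 one_ne_zero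
      refine S.psi_mem_of h4 (A _ h4 h5) (H.inv_mem (he' _ hz1)) one_ne_zero ?_ w hw
      rw [one_smul, ← h3, S.inv_apply]
    · exact A' u hu h2 w hw
  · exact A u hu h1 w hw

/-- An element which preserves all isotropic lines is `± 1`. -/
theorem scalar_of {g : G} (h : ∀ x, S.B x x = 0 → ∃ c : k, S.ρ g x = c • x) :
    ∃ c : k, c ^ 2 = 1 ∧ ∀ x, S.ρ g x = c • x := by
  have two := S.two
  obtain ⟨e, he0, hee⟩ := S.ex
  obtain ⟨f, hh⟩ := S.exists_hyp he0 hee
  obtain ⟨a, ha⟩ := h e hh.ee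
  obtain ⟨b, hb⟩ := h f hh.ff
  have hab : a * b = 1 := by
    have := S.iso g e f
    rw [ha, hb, hh.ef] at this
    simp only [map_smul, LinearMap.smul_apply, smul_eq_mul, hh.ef] at this
    linear_combination this
  have ha0 : a ≠ 0 := left_ne_zero_of_mul_eq_one hab
  have hb' : b = a⁻¹ := eq_inv_of_mul_eq_one_right hab
  -- the orthogonal space
  have key : ∀ w, S.B e w = 0 → S.B f w = 0 → S.ρ g w = a • w ∧ (S.B w w ≠ 0 → a ^ 2 = 1) := by
    intro w h1 h2
    have hiso : S.B (e + w - (2⁻¹ * S.B w w) • f) (e + w - (2⁻¹ * S.B w w) • f) = 0 := by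
      simp only [map_add, map_sub, map_smul, LinearMap.add_apply, LinearMap.sub_apply,
        LinearMap.smul_apply, smul_eq_mul, hh.ee, hh.ff, hh.ef, hh.fe, h1, h2, S.sym w e, S.sym w f]
      field_simp
      ring
    obtain ⟨c, hc⟩ := h _ hiso
    rw [map_sub, map_add, map_smul, ha, hb] at hc
    have g1 : S.B (S.ρ g w) f = 0 := by
      have := S.iso g w f
      rw [hb, S.sym w f, h2, map_smul, smul_eq_mul] at this
      exact (mul_eq_zero.1 this).resolve_left (by rw [hb']; exact inv_ne_zero ha0)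
    have g2 : S.B (S.ρ g w) e = 0 := by
      have := S.iso g w e
      rw [ha, S.sym w e, h1, map_smul, smul_eq_mul] at this
      exact (mul_eq_zero.1 this).resolve_left ha0
    have c1 := congrArg (fun v => S.B v f) hc
    simp only [map_add, map_sub, map_smul, LinearMap.add_apply, LinearMap.sub_apply,
        LinearMap.smul_apply, smul_eq_mul, hh.ee, hh.ff, hh.ef, hh.fe, g1, S.sym w f, h2] at c1
    have hca : c = a := by
      have : a * 1 + 0 - 2⁻¹ * S.B w w * (b * 0) = c * (1 + 0 - 2⁻¹ * S.B w w * 0) := c1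
      linear_combination -this
    subst hca
    have c2 := congrArg (fun v => S.B v e) hc
    simp only [map_add, map_sub, map_smul, LinearMap.add_apply, LinearMap.sub_apply,
        LinearMap.smul_apply, smul_eq_mul, hh.ee, hh.ff, hh.ef, hh.fe, g2, S.sym w e, h1] at c2
    have c3 : 2⁻¹ * S.B w w * b = c * (2⁻¹ * S.B w w) := by linear_combination -c2
    constructor
    · have c4 : S.ρ g w = c • (e + w - (2⁻¹ * S.B w w) • f) - c • e +
          (2⁻¹ * S.B w w) • (b • f) := by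
        rw [← hc]; abel
      rw [c4, smul_smul (2⁻¹ * S.B w w) b f, c3]
      module
    · intro hw
      have c5 : b = c := by
        have h6 : (2⁻¹ * S.B w w) * b = (2⁻¹ * S.B w w) * c := by linear_combination c3
        exact mul_left_cancel₀ (mul_ne_zero (inv_ne_zero two) hw) h6
      rw [c5] at hab
      linear_combination hab
  obtain ⟨w, h1, h2, h3⟩ := S.h3 e f hh.ee hh.ff hh.ef
  have ha2 := (key w h1 h2).2 h3
  refine ⟨a, ha2, fun x => ?_⟩
  have hba : b = a := by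
    have : a * b = a * a := by rw [hab]; linear_combination -ha2
    exact mul_left_cancel₀ ha0 this
  have e1 : S.B e (S.pr e f x) = 0 := by rw [S.sym, S.pr_e hh]
  have e2 : S.B f (S.pr e f x) = 0 := by rw [S.sym, S.pr_f hh]
  conv_lhs => rw [S.pr_eq e f x]
  rw [map_add, map_add, map_smul, map_smul, ha, hb, hba, (key _ e1 e2).1]
  conv_rhs => rw [S.pr_eq e f x]
  module

theorem mem_center_of {g : G} (h : ∀ x, S.B x x = 0 → ∃ c : k, S.ρ g x = c • x) :
    g ∈ Subgroup.center G := by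
  obtain ⟨c, -, hc⟩ := S.scalar_of h
  rw [Subgroup.mem_center_iff]
  intro g'
  refine S.inj _ _ fun x => ?_
  rw [S.mul_apply, S.mul_apply, hc, hc, map_smul]

/-! ### Simplicity -/

section simple

variable {N : Subgroup G}

theorem orb_one [hN : N.Normal] {g : G} (hg : g ∈ N) {x : V} (hx : S.B x x = 0)
    (hgx : S.B (S.ρ g x) x ≠ 0) {y : V} (hy : S.B y y = 0) (hyx : S.B y x ≠ 0) :
    ∃ n ∈ N, ∃ c : k, c ≠ 0 ∧ S.ρ n x = c • y := by
  obtain ⟨h1, h2⟩ := S.psi_trans hx (x := (S.B (S.ρ g x) x)⁻¹ • S.ρ g x)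
    (y := (S.B y x)⁻¹ • y) (by simp [S.iso, hx]) (by simp [hy])
    (by rw [map_smul, LinearMap.smul_apply, smul_eq_mul, inv_mul_cancel₀ hgx])
    (by rw [map_smul, LinearMap.smul_apply, smul_eq_mul, inv_mul_cancel₀ hyx])
  have h3 := S.psi_fix hx h1
  generalize S.psi x ((S.B y x)⁻¹ • y - (S.B (S.ρ g x) x)⁻¹ • S.ρ g x) = t at h2 h3
  refine ⟨_, hN.conj_mem g hg t, S.B (S.ρ g x) x * (S.B y x)⁻¹,
    mul_ne_zero hgx (inv_ne_zero hyx), ?_⟩
  have h4 : S.ρ t⁻¹ x = x := by
    have := S.inv_apply t x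
    rwa [h3] at this
  rw [S.mul_apply, S.mul_apply, h4]
  rw [map_smul] at h2
  have h5 : S.ρ t (S.ρ g x) = S.B (S.ρ g x) x • ((S.B (S.ρ g x) x)⁻¹ • S.ρ t (S.ρ g x)) := by
    rw [smul_smul, mul_inv_cancel₀ hgx, one_smul]
  rw [h5, h2, smul_smul]

theorem orb_all [hN : N.Normal] {g : G} (hg : g ∈ N) {x : V} (hx : S.B x x = 0)
    (hgx : S.B (S.ρ g x) x ≠ 0) {y : V} (hy0 : y ≠ 0) (hy : S.B y y = 0) :
    ∃ n ∈ N, ∃ c : k, c ≠ 0 ∧ S.ρ n x = c • y := by
  have hx0 : x ≠ 0 := by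
    rintro rfl
    exact hgx (map_zero _)
  obtain ⟨z, hz, hxz, hyz⟩ := S.exists_common hx0 hy0 hx hy
  obtain ⟨n₁, hn₁, c₁, hc₁, h1⟩ := S.orb_one hg hx hgx hz (by rw [S.sym]; exact hxz)
  have hz' : z = c₁⁻¹ • S.ρ n₁ x := by rw [h1, smul_smul, inv_mul_cancel₀ hc₁, one_smul]
  have h2 : S.B (S.ρ (n₁ * g * n₁⁻¹) z) z ≠ 0 := by
    rw [hz', S.mul_apply, S.mul_apply]
    simp only [map_smul, LinearMap.smul_apply, smul_eq_mul, S.inv_apply, S.iso]
    exact mul_ne_zero (inv_ne_zero hc₁) (mul_ne_zero (inv_ne_zero hc₁) hgx)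
  obtain ⟨n₂, hn₂, c₂, hc₂, h3⟩ := S.orb_one (hN.conj_mem g hg n₁) hz h2 hy hyz
  refine ⟨n₂ * n₁, N.mul_mem hn₂ hn₁, c₁ * c₂, mul_ne_zero hc₁ hc₂, ?_⟩
  rw [S.mul_apply, h1, map_smul, h3, smul_smul]

theorem exists_moving [hN : N.Normal] (h : ¬ N ≤ Subgroup.center G) :
    ∃ g ∈ N, ∃ x, S.B x x = 0 ∧ S.B (S.ρ g x) x ≠ 0 := by
  have two := S.two
  obtain ⟨g, hg, hgc⟩ := SetLike.not_le_iff_exists.1 h
  have : ∃ x, S.B x x = 0 ∧ ∀ c : k, S.ρ g x ≠ c • x := by
    by_contra hcon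
    push Not at hcon
    exact hgc (S.mem_center_of hcon)
  obtain ⟨x, hx, hxc⟩ := this
  by_cases hgx : S.B (S.ρ g x) x = 0
  · set y := S.ρ g x with hy
    have hyy : S.B y y = 0 := by rw [hy, S.iso, hx]
    have hx0 : x ≠ 0 := by
      rintro rfl
      exact hxc 0 (by rw [hy, map_zero, smul_zero])
    have hy0 : y ≠ 0 := S.apply_ne g hx0
    -- a vector orthogonal to `x`, not to `y`
    have hv : ∃ v₀, S.B x v₀ = 0 ∧ S.B y v₀ = 1 := by
      obtain ⟨x', hx'⟩ := S.exists_hyp hx0 hx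
      have hne : y - S.B y x' • x ≠ 0 := fun h => hxc _ (sub_eq_zero.1 h)
      obtain ⟨z, hz⟩ := S.nd _ hne
      refine ⟨z - S.B x z • x', ?_, ?_⟩
      · rw [map_sub, map_smul, hx'.ef, smul_eq_mul]
        ring
      · rw [map_sub, LinearMap.sub_apply, map_smul, LinearMap.smul_apply, smul_eq_mul] at hz
        rw [map_sub, map_smul, smul_eq_mul]
        linear_combination hz
    obtain ⟨v₀, hv1, hv2⟩ := hv
    have hxy : S.B x y = 0 := by rw [S.sym, hgx]
    obtain ⟨v, hxv, hyv⟩ : ∃ v, S.B x v = 0 ∧ S.Hyp y v := by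
      refine ⟨v₀ - (2⁻¹ * S.B v₀ v₀) • y, ?_, hyy, ?_, ?_⟩
      · rw [map_sub, map_smul, hxy, hv1, smul_zero, sub_zero]
      · simp only [map_sub, map_smul, LinearMap.sub_apply, LinearMap.smul_apply, smul_eq_mul, hyy,
          hv2, S.sym v₀ y]
        field_simp
        ring
      · rw [map_sub, map_smul, hyy, hv2, smul_zero, sub_zero]
    obtain ⟨w, hw1, hw2, hw3⟩ := S.h5 x v hx0 hx hyv.ff hxv (by
      intro c hc
      have := hyv.ef
      rw [hc, map_smul, hgx, smul_zero] at this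
      exact zero_ne_one this)
    have ht1 : S.ρ (S.psi v w) x = x := S.psi_fix_of hyv.ff hw2 hxv hw1
    have ht1' : S.ρ (S.psi v w)⁻¹ x = x := by
      have := S.inv_apply (S.psi v w) x
      rwa [ht1] at this
    refine ⟨S.psi v w * g * (S.psi v w)⁻¹ * g⁻¹, N.mul_mem (hN.conj_mem g hg _) (N.inv_mem hg),
      y, hyy, ?_⟩
    rw [S.mul_apply, S.mul_apply, S.mul_apply, hy, S.inv_apply, ht1', ← hy,
      S.hpsi v w hyv.ff hw2, hyv.ef]
    simp only [map_add, map_sub, map_smul, LinearMap.add_apply, LinearMap.sub_apply,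
      LinearMap.smul_apply, smul_eq_mul, hyy, hyv.fe, S.sym w y]
    intro hcon
    have h5 : 2⁻¹ * S.B w w = 0 := by linear_combination -hcon
    exact mul_ne_zero (inv_ne_zero two) hw3 h5
  · exact ⟨g, hg, x, hx, hgx⟩

include S in
/-- **Simplicity modulo the centre.** -/
theorem simple [Infinite k] (N : Subgroup G) [hN : N.Normal] : N ≤ Subgroup.center G ∨ N = ⊤ := by
  by_cases h : N ≤ Subgroup.center G
  · exact Or.inl h
  right
  obtain ⟨g, hg, x, hx, hgx⟩ := S.exists_moving h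
  have hx0 : x ≠ 0 := by
    rintro rfl
    exact hgx (map_zero _)
  -- `N` and `T(x)` generate
  let φ := QuotientGroup.mk' N
  let T : Subgroup G :=
    { carrier := {t | ∃ w, S.B x w = 0 ∧ t = S.psi x w}
      one_mem' := ⟨0, map_zero _, (S.psi_zero hx).symm⟩
      mul_mem' := by
        rintro _ _ ⟨w, hw, rfl⟩ ⟨w', hw', rfl⟩
        exact ⟨w + w', by rw [map_add, hw, hw', add_zero], S.psi_mul hx hw hw'⟩
      inv_mem' := by
        rintro _ ⟨w, hw, rfl⟩
        exact ⟨-w, by rw [map_neg, hw, neg_zero], S.psi_inv hx hw⟩ }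
  have hT : ∀ a ∈ T, ∀ b ∈ T, a * b = b * a := by
    rintro _ ⟨w, hw, rfl⟩ _ ⟨w', hw', rfl⟩
    rw [S.psi_mul hx hw hw', S.psi_mul hx hw' hw, add_comm]
  have hNT : T ⊔ N = ⊤ := by
    refine S.gen _ fun u w hu hw => ?_
    by_cases h0 : u = 0
    · subst h0
      have : S.psi 0 w = 1 := S.inj _ _ fun x => by
        rw [S.hpsi 0 w hu hw, S.one_apply]; simp
      rw [this]
      exact Subgroup.one_mem _
    obtain ⟨n, hn, c, hc, h1⟩ := S.orb_all hg hx hgx h0 hu
    exact S.psi_mem_of hx (fun w hw => (le_sup_left : T ≤ T ⊔ N) ⟨w, hw, rfl⟩)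
      ((le_sup_right : N ≤ T ⊔ N) hn) hc h1 w hw
  have hcomm : ∀ a b : G, ⁅a, b⁆ ∈ N := by
    intro a b
    have ha : a ∈ T ⊔ N := by rw [hNT]; trivial
    have hb : b ∈ T ⊔ N := by rw [hNT]; trivial
    obtain ⟨t, ht, n, hn, rfl⟩ := Subgroup.mem_sup_of_normal_right.1 ha
    obtain ⟨t', ht', n', hn', rfl⟩ := Subgroup.mem_sup_of_normal_right.1 hb
    rw [← QuotientGroup.eq_one_iff]
    have e1 : ∀ a b : G, ((⁅a, b⁆ : G) : G ⧸ N) = ⁅(a : G ⧸ N), (b : G ⧸ N)⁆ := fun a b => rfl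
    have e2 : ((t * n : G) : G ⧸ N) = (t : G ⧸ N) := by
      rw [QuotientGroup.mk_mul, (QuotientGroup.eq_one_iff n).2 hn, mul_one]
    have e3 : ((t' * n' : G) : G ⧸ N) = (t' : G ⧸ N) := by
      rw [QuotientGroup.mk_mul, (QuotientGroup.eq_one_iff n').2 hn', mul_one]
    rw [e1, e2, e3, ← e1]
    have : ⁅t, t'⁆ = 1 := by
      rw [commutatorElement_eq_one_iff_mul_comm]
      exact hT t ht t' ht'
    rw [this]
    rfl
  have h2 : commutator G ≤ N := by
    rw [commutator_def, Subgroup.commutator_le]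
    exact fun a _ b _ => hcomm a b
  rw [S.perfect] at h2
  exact top_le_iff.1 h2

end simple

end Sys

end Vale.Agent.P092.H899.Ort
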