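import Vale.Agent.P092.H899.O2
import Vale.Agent.P092.H933.HM1

/-!
P092 (helper899), [CLASS-O]: centre, centralisers, recurrence and the Mautner phenomenon.
-/

set_option linter.all false

open Filter Topology

namespace Vale.Agent.P092.H899.Ort

open Vale.Agent.P092.H933 (Len)

/-- `Sys` with topology. -/
structure TSys (k V G : Type*) [NontriviallyNormedField k] [AddCommGroup V] [Module k V] [Group G]
    [TopologicalSpace G] extends Sys k V G where
  cont : ∀ u w, B u u = 0 → B u w = 0 → Continuous fun c : k => psi u (c • w)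
  contB : ∀ x y, Continuous fun g : G => B (ρ g x) y

variable {k V G : Type*} [NontriviallyNormedField k] [AddCommGroup V] [Module k V] [Group G]
  [TopologicalSpace G] (S : TSys k V G)

namespace TSys

/-- An element commuting with a torus element preserves the line. -/
theorem line_of_comm {e f : V} (h : S.Hyp e f) {t : k} {d : G} (hd : S.IsTor e f t d) (ht0 : t ≠ 0)
    (ht : t ≠ 1) (ht' : t ≠ -1) {g : G} (hc : g * d = d * g) : ∃ c : k, S.ρ g e = c • e := by
  have h1 : S.ρ d (S.ρ g e) = t • S.ρ g e := by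
    rw [← S.mul_apply, ← hc, S.mul_apply, hd.e h, map_smul]
  have h2 := hd (S.ρ g e)
  rw [h1] at h2
  have h3 := congrArg (fun v => S.B v e) h2
  simp only [map_add, map_smul, LinearMap.add_apply, LinearMap.smul_apply, smul_eq_mul, h.ee,
    h.fe] at h3
  have h4 : S.B (S.ρ g e) e = 0 := by
    have h5 : ((t - 1) * (t + 1)) * S.B (S.ρ g e) e = 0 := by
      have h6 : t * S.B (S.ρ g e) e = t⁻¹ * S.B (S.ρ g e) e := by linear_combination h3
      have h7 : t * (t * S.B (S.ρ g e) e) = t * (t⁻¹ * S.B (S.ρ g e) e) := by rw [h6]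
      rw [mul_inv_cancel_left₀ ht0] at h7
      linear_combination h7
    refine (mul_eq_zero.1 h5).resolve_left (mul_ne_zero (sub_ne_zero.2 ht) ?_)
    intro h
    exact ht' (by linear_combination h)
  rw [h4, mul_zero, zero_smul, add_zero] at h2
  refine ⟨S.B (S.ρ g e) f, ?_⟩
  have h5 : (t - 1) • S.ρ g e = (t - 1) • (S.B (S.ρ g e) f • e) := by
    have h6 : (t - 1) • S.ρ g e = t • S.ρ g e - S.ρ g e := by module
    rw [h6, h2, smul_smul]
    abel
  exact smul_right_injective V (sub_ne_zero.2 ht) h5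

theorem exists_big : ∃ s : k, 1 < ‖s‖ ∧ s ≠ 0 ∧ s ^ 2 ≠ 1 ∧ s ^ 2 ≠ -1 := by
  obtain ⟨s, hs⟩ := NormedField.exists_one_lt_norm k
  refine ⟨s, hs, ?_, ?_, ?_⟩
  · rintro rfl
    rw [norm_zero] at hs
    linarith
  · intro h
    have := congrArg norm h
    rw [norm_pow, norm_one] at this
    nlinarith
  · intro h
    have := congrArg norm h
    rw [norm_pow, norm_neg, norm_one] at this
    nlinarith

/-- Central elements are `± 1`. -/
theorem of_mem_center {g : G} (hg : g ∈ Subgroup.center G) :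
    ∃ c : k, c ^ 2 = 1 ∧ ∀ x, S.ρ g x = c • x := by
  refine S.scalar_of fun x hx => ?_
  by_cases h0 : x = 0
  · subst h0
    exact ⟨0, by rw [map_zero, smul_zero]⟩
  obtain ⟨f, hf⟩ := S.exists_hyp h0 hx
  obtain ⟨s, -, hs0, hs1, hs2⟩ := exists_big (k := k)
  obtain ⟨_, d, -, -, -, -, hd⟩ := S.exists_tor hf hs0
  exact S.line_of_comm hf hd (pow_ne_zero _ hs0) hs1 hs2 (Subgroup.mem_center_iff.1 hg d).symm

include S in
theorem finite_center : ((Subgroup.center G : Subgroup G) : Set G).Finite := by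
  have h1 : ((Subgroup.center G : Subgroup G) : Set G) ⊆
      {1} ∪ {g | ∀ x, S.ρ g x = (-1 : k) • x} := by
    intro g hg
    obtain ⟨c, hc, hx⟩ := S.of_mem_center hg
    have h0 : (c - 1) * (c + 1) = 0 := by linear_combination hc
    rcases mul_eq_zero.1 h0 with h | h
    · left
      have : c = 1 := by linear_combination h
      subst this
      exact S.inj _ _ fun x => by rw [hx, one_smul, S.one_apply]
    · right
      have : c = -1 := by linear_combination h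
      subst this
      exact hx
  refine Set.Finite.subset (Set.Finite.union (Set.finite_singleton 1) ?_) h1
  refine Set.Subsingleton.finite fun a ha b hb => ?_
  exact S.inj _ _ fun x => by rw [ha x, hb x]

theorem tendsto_psi {α : Type*} {l : Filter α} {u w : V} (hu : S.B u u = 0) (hw : S.B u w = 0)
    {t : α → k} (ht : Tendsto t l (𝓝 0)) : Tendsto (fun x => S.psi u (t x • w)) l (𝓝 1) := by
  have h1 := ((S.cont u w hu hw).tendsto 0).comp ht
  rw [zero_smul, S.psi_zero hu] at h1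
  exact h1

theorem nw_smul_eq {e f w : V} (hw : S.B w w ≠ 0) {s : k} (hs : s ≠ 0) :
    S.nw e f (s • w) = S.psi f ((s⁻¹ * (2⁻¹ * S.B w w)⁻¹) • w) * S.psi e (s • w) *
      S.psi f ((s⁻¹ * (2⁻¹ * S.B w w)⁻¹) • w) := by
  have h2 := S.two
  have h1 : (2⁻¹ * S.B (s • w) (s • w))⁻¹ • (s • w) = (s⁻¹ * (2⁻¹ * S.B w w)⁻¹) • w := by
    rw [smul_smul]
    congr 1
    simp only [map_smul, LinearMap.smul_apply, smul_eq_mul]
    field_simp
  rw [Sys.nw, h1]

include S in
/-- An element with an open centraliser is central. -/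
theorem cent [IsTopologicalGroup G] (g : G)
    (h : ((Subgroup.centralizer {g} : Subgroup G) : Set G) ∈ 𝓝 1) : g ∈ Subgroup.center G := by
  refine S.mem_center_of fun x hx => ?_
  by_cases h0 : x = 0
  · subst h0
    exact ⟨0, by rw [map_zero, smul_zero]⟩
  obtain ⟨f, hf⟩ := S.exists_hyp h0 hx
  obtain ⟨w, h1, h2, h3⟩ := S.h3 x f hf.ee hf.ff hf.ef
  have hct : ContinuousAt (fun s : k => S.psi f ((s⁻¹ * (2⁻¹ * S.B w w)⁻¹) • w) *
      S.psi x (s • w) * S.psi f ((s⁻¹ * (2⁻¹ * S.B w w)⁻¹) • w) * S.nw x f w) 1 := by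
    have c1 : ContinuousAt (fun s : k => S.psi f ((s⁻¹ * (2⁻¹ * S.B w w)⁻¹) • w)) 1 := by
      have c2 : ContinuousAt (fun s : k => s⁻¹ * (2⁻¹ * S.B w w)⁻¹) 1 :=
        (continuousAt_inv₀ one_ne_zero).mul continuousAt_const
      exact ContinuousAt.comp (g := fun c : k => S.psi f (c • w)) (S.cont f w hf.ff h2).continuousAt c2
    exact ((c1.mul (S.cont x w hx h1).continuousAt).mul c1).mul continuousAt_const
  have hv : (fun s : k => S.psi f ((s⁻¹ * (2⁻¹ * S.B w w)⁻¹) • w) *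
      S.psi x (s • w) * S.psi f ((s⁻¹ * (2⁻¹ * S.B w w)⁻¹) • w) * S.nw x f w) 1 = 1 := by
    show S.psi f (((1 : k)⁻¹ * (2⁻¹ * S.B w w)⁻¹) • w) * S.psi x ((1 : k) • w) *
      S.psi f (((1 : k)⁻¹ * (2⁻¹ * S.B w w)⁻¹) • w) * S.nw x f w = 1
    rw [← S.nw_smul_eq h3 one_ne_zero]
    refine S.inj _ _ fun y => ?_
    rw [S.nw_mul hf h1 h2 h3 one_ne_zero, S.one_apply]
    simp
  have e1 : ∀ᶠ s in 𝓝[≠] (1 : k), (S.psi f ((s⁻¹ * (2⁻¹ * S.B w w)⁻¹) • w) *
      S.psi x (s • w) * S.psi f ((s⁻¹ * (2⁻¹ * S.B w w)⁻¹) • w) * S.nw x f w) ∈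
        ((Subgroup.centralizer {g} : Subgroup G) : Set G) := by
    refine Filter.Eventually.filter_mono nhdsWithin_le_nhds ?_
    refine hct.eventually ?_
    rw [hv]
    exact h
  have e2 : ∀ᶠ s in 𝓝[≠] (1 : k), s ≠ 0 :=
    Filter.Eventually.filter_mono nhdsWithin_le_nhds (eventually_ne_nhds one_ne_zero)
  have e3 : ∀ᶠ s in 𝓝[≠] (1 : k), s ^ 2 ≠ 1 := by
    have h4 : ∀ᶠ s in 𝓝[≠] (1 : k), s ≠ -1 := by
      refine Filter.Eventually.filter_mono nhdsWithin_le_nhds (eventually_ne_nhds ?_)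
      intro h
      exact S.two (by linear_combination h)
    filter_upwards [h4, self_mem_nhdsWithin] with s hs hs'
    intro h
    have h0 : (s - 1) * (s + 1) = 0 := by linear_combination h
    rcases mul_eq_zero.1 h0 with h | h
    · exact hs' (by show s = 1; linear_combination h)
    · exact hs (by linear_combination h)
  have e4 : ∀ᶠ s in 𝓝[≠] (1 : k), s ^ 2 ≠ -1 := by
    refine Filter.Eventually.filter_mono nhdsWithin_le_nhds ?_
    have hc : ContinuousAt (fun s : k => s ^ 2) 1 := (continuous_pow 2).continuousAt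
    refine hc.eventually_ne ?_
    show (1 : k) ^ 2 ≠ -1
    intro h
    exact S.two (by linear_combination h)
  obtain ⟨s, ⟨hs1, hs2⟩, hs3, hs4⟩ := ((e1.and e2).and (e3.and e4)).exists
  rw [← S.nw_smul_eq h3 hs2] at hs1
  refine S.line_of_comm hf (fun y => S.nw_mul hf h1 h2 h3 hs2 y) (pow_ne_zero _ hs2) hs3 hs4 ?_
  exact Subgroup.mem_centralizer_iff.1 hs1 g rfl

/-! ### Mautner -/

/-- **Mautner**, anisotropic root. -/
theorem ker_top_one {ℓ : G → ℝ} (hℓ : Len ℓ) {e f w : V} (h : S.Hyp e f) (he : S.B e w = 0)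
    (hf : S.B f w = 0) (hw : S.B w w ≠ 0) (hk : ∀ s : k, S.psi e (s • w) ∈ hℓ.ker) :
    hℓ.ker = ⊤ := by
  obtain ⟨σ, hσ1, hσ0, -, -⟩ := exists_big (k := k)
  have hN : Tendsto (fun N : ℕ => (σ ^ N)⁻¹) atTop (𝓝 0) := by
    have h1 : ‖σ⁻¹‖ < 1 := by rw [norm_inv]; exact inv_lt_one_of_one_lt₀ hσ1
    have := tendsto_pow_atTop_nhds_zero_of_norm_lt_one h1
    simpa only [inv_pow] using this
  -- the Weyl elements
  have hW : ∀ r : k, r ≠ 0 → Tendsto (fun N : ℕ => ℓ (S.nw e f ((r * σ ^ N) • w))) atTop (𝓝 0) := by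
    intro r hr
    have h0 : ∀ N : ℕ, r * σ ^ N ≠ 0 := fun N => mul_ne_zero hr (pow_ne_zero _ hσ0)
    have t1 : Tendsto (fun N : ℕ => (r * σ ^ N)⁻¹ * (2⁻¹ * S.B w w)⁻¹) atTop (𝓝 0) := by
      have := (hN.const_mul r⁻¹).mul_const (2⁻¹ * S.B w w)⁻¹
      rw [mul_zero, zero_mul] at this
      refine this.congr fun N => ?_
      rw [mul_inv r]
    have t2 : Tendsto (fun N : ℕ => ℓ (S.psi f (((r * σ ^ N)⁻¹ * (2⁻¹ * S.B w w)⁻¹) • w))) atTop
        (𝓝 0) := hℓ.cont.comp (S.tendsto_psi h.ff hf t1)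
    have t3 := t2.add t2
    rw [add_zero] at t3
    refine squeeze_zero (fun N => hℓ.nonneg _) (fun N => ?_) t3
    rw [S.nw_smul_eq hw (h0 N)]
    have m1 := hℓ.mul (S.psi f (((r * σ ^ N)⁻¹ * (2⁻¹ * S.B w w)⁻¹) • w) *
      S.psi e ((r * σ ^ N) • w)) (S.psi f (((r * σ ^ N)⁻¹ * (2⁻¹ * S.B w w)⁻¹) • w))
    have m2 := hℓ.mul (S.psi f (((r * σ ^ N)⁻¹ * (2⁻¹ * S.B w w)⁻¹) • w))
      (S.psi e ((r * σ ^ N) • w))
    have z : ℓ (S.psi e ((r * σ ^ N) • w)) = 0 := hk _
    linarith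
  -- the torus
  have hT : ∀ r : k, r ≠ 0 → ∃ d ∈ hℓ.ker, S.IsTor e f (r ^ 2) d := by
    intro r hr
    refine ⟨S.nw e f (r • w) * S.nw e f w, ?_, fun x => S.nw_mul h he hf hw hr x⟩
    have key : ∀ N : ℕ, ℓ (S.nw e f (r • w) * S.nw e f w) ≤
        ℓ (S.nw e f ((r * σ ^ N) • w)) + ℓ (S.nw e f ((1 * σ ^ N) • w)) := by
      intro N
      have hs : σ ^ N ≠ 0 := pow_ne_zero _ hσ0
      have hww : S.B (σ ^ N • w) (σ ^ N • w) ≠ 0 := by
        simp only [map_smul, LinearMap.smul_apply, smul_eq_mul]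
        exact mul_ne_zero hs (mul_ne_zero hs hw)
      have e1 : S.nw e f (r • w) * S.nw e f w =
          S.nw e f ((r * σ ^ N) • w) * S.nw e f ((1 * σ ^ N) • w) := by
        refine S.inj _ _ fun x => ?_
        rw [S.nw_mul h he hf hw hr, mul_smul r, one_mul, S.nw_mul h (by rw [map_smul, he, smul_zero])
          (by rw [map_smul, hf, smul_zero]) hww hr]
      rw [e1]
      exact hℓ.mul _ _
    have t3 := (hW r hr).add (hW 1 one_ne_zero)
    rw [add_zero] at t3
    exact le_antisymm (ge_of_tendsto' t3 key) (hℓ.nonneg _)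
  -- contraction
  have hC : ∀ {e f : V} (h : S.Hyp e f), (∀ r : k, r ≠ 0 → ∃ d ∈ hℓ.ker, S.IsTor e f (r ^ 2) d) →
      ∀ w', S.B e w' = 0 → S.B f w' = 0 → S.psi e w' ∈ hℓ.ker := by
    intro e f h hT w' h1 h2
    obtain ⟨d, hd, hdt⟩ := hT σ⁻¹ (inv_ne_zero hσ0)
    have hr0 : (σ⁻¹ ^ 2 : k) ≠ 0 := pow_ne_zero _ (inv_ne_zero hσ0)
    refine hℓ.mem_of_contract (d := fun N => d ^ N) (fun N => hℓ.ker.pow_mem hd N) ?_
    have e1 : ∀ N : ℕ, d ^ N * S.psi e w' * (d ^ N)⁻¹ = S.psi e (((σ⁻¹ ^ 2) ^ N) • w') := by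
      intro N
      have hdN := hdt.pow h hr0 N
      rw [S.psi_conj _ h.ee h1, hdN.e h, hdN.x h1 h2, S.psi_smul _ h.ee h1]
    simp only [e1]
    refine S.tendsto_psi h.ee h1 ?_
    refine tendsto_pow_atTop_nhds_zero_of_norm_lt_one ?_
    rw [norm_pow, norm_inv]
    exact pow_lt_one₀ (by positivity) (inv_lt_one_of_one_lt₀ hσ1) two_ne_zero
  have hT' : ∀ r : k, r ≠ 0 → ∃ d ∈ hℓ.ker, S.IsTor f e (r ^ 2) d := by
    intro r hr
    obtain ⟨d, hd, hdt⟩ := hT r⁻¹ (inv_ne_zero hr)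
    refine ⟨d, hd, ?_⟩
    have := hdt.symm
    rwa [inv_pow, inv_inv] at this
  exact S.gen_two h (fun w' h1 h2 => hC h hT w' h1 h2) (fun w' h1 h2 => hC h.symm hT' w' h2 h1)

/-- **Mautner**, isotropic root. -/
theorem ker_top_two {ℓ : G → ℝ} (hℓ : Len ℓ) {e f e' f' : V} (h : S.Hyp e f) (h' : S.Hyp e' f')
    (hee : S.B e e' = 0) (hef : S.B e f' = 0) (hfe : S.B f e' = 0) (hff : S.B f f' = 0)
    (hk : ∀ s : k, S.psi e (s • e') ∈ hℓ.ker) : hℓ.ker = ⊤ := by
  have hee' : S.B e' e = 0 := by rw [S.sym, hee]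
  have hef' : S.B f' e = 0 := by rw [S.sym, hef]
  have hfe' : S.B e' f = 0 := by rw [S.sym, hfe]
  have hff' : S.B f' f = 0 := by rw [S.sym, hff]
  obtain ⟨σ, hσ1, hσ0, -, -⟩ := exists_big (k := k)
  have hN : Tendsto (fun N : ℕ => (σ ^ N)⁻¹) atTop (𝓝 0) := by
    have h1 : ‖σ⁻¹‖ < 1 := by rw [norm_inv]; exact inv_lt_one_of_one_lt₀ hσ1
    have := tendsto_pow_atTop_nhds_zero_of_norm_lt_one h1
    simpa only [inv_pow] using this
  let W : k → G := fun s => S.psi e (s • e') * S.psi f (s⁻¹ • f') * S.psi e (s • e')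
  have b1 : ∀ s : k, S.B e (s • e') = 0 := fun s => by rw [map_smul, hee, smul_zero]
  have b2 : ∀ s : k, S.B f (s • f') = 0 := fun s => by rw [map_smul, hff, smul_zero]
  have hX : ∀ (s : k) (x : V), S.ρ (S.psi e (s • e')) x = x + (s * S.B x e) • e' -
      (s * S.B x e') • e := by
    intro s x
    rw [S.hpsi _ _ h.ee (b1 s)]
    simp only [map_smul, LinearMap.smul_apply, smul_eq_mul, h'.ee]
    module
  have hY : ∀ (s : k) (x : V), S.ρ (S.psi f (s • f')) x = x + (s * S.B x f) • f' -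
      (s * S.B x f') • f := by
    intro s x
    rw [S.hpsi _ _ h.ff (b2 s)]
    simp only [map_smul, LinearMap.smul_apply, smul_eq_mul, h'.ff]
    module
  have We : ∀ s : k, s ≠ 0 → S.ρ (W s) e = s⁻¹ • f' := by
    intro s hs
    show S.ρ (S.psi e (s • e') * S.psi f (s⁻¹ • f') * S.psi e (s • e')) e = _
    rw [S.mul_apply, S.mul_apply, hX, hY, hX]
    simp only [map_add, map_sub, map_smul, LinearMap.add_apply, LinearMap.sub_apply,
      LinearMap.smul_apply, smul_eq_mul, h.ee, h.ff, h.ef, h.fe, h'.ee, h'.ff, h'.ef, h'.fe, hee,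
      hef, hfe, hff, hee', hef', hfe', hff']
    match_scalars <;> field_simp <;> ring
  have We' : ∀ s : k, s ≠ 0 → S.ρ (W s) e' = -s⁻¹ • f := by
    intro s hs
    show S.ρ (S.psi e (s • e') * S.psi f (s⁻¹ • f') * S.psi e (s • e')) e' = _
    rw [S.mul_apply, S.mul_apply, hX, hY, hX]
    simp only [map_add, map_sub, map_smul, LinearMap.add_apply, LinearMap.sub_apply,
      LinearMap.smul_apply, smul_eq_mul, h.ee, h.ff, h.ef, h.fe, h'.ee, h'.ff, h'.ef, h'.fe, hee,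
      hef, hfe, hff, hee', hef', hfe', hff']
    match_scalars <;> field_simp <;> ring
  have Wf' : ∀ s : k, s ≠ 0 → S.ρ (W s) f' = -s • e := by
    intro s hs
    show S.ρ (S.psi e (s • e') * S.psi f (s⁻¹ • f') * S.psi e (s • e')) f' = _
    rw [S.mul_apply, S.mul_apply, hX, hY, hX]
    simp only [map_add, map_sub, map_smul, LinearMap.add_apply, LinearMap.sub_apply,
      LinearMap.smul_apply, smul_eq_mul, h.ee, h.ff, h.ef, h.fe, h'.ee, h'.ff, h'.ef, h'.fe, hee,
      hef, hfe, hff, hee', hef', hfe', hff']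
    match_scalars <;> field_simp <;> ring
  have Wf : ∀ s : k, s ≠ 0 → S.ρ (W s) f = s • e' := by
    intro s hs
    show S.ρ (S.psi e (s • e') * S.psi f (s⁻¹ • f') * S.psi e (s • e')) f = _
    rw [S.mul_apply, S.mul_apply, hX, hY, hX]
    simp only [map_add, map_sub, map_smul, LinearMap.add_apply, LinearMap.sub_apply,
      LinearMap.smul_apply, smul_eq_mul, h.ee, h.ff, h.ef, h.fe, h'.ee, h'.ff, h'.ef, h'.fe, hee,
      hef, hfe, hff, hee', hef', hfe', hff']
    match_scalars <;> field_simp <;> ring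
  have Wx : ∀ (s : k) (x : V), S.B x e = 0 → S.B x f = 0 → S.B x e' = 0 → S.B x f' = 0 →
      S.ρ (W s) x = x := by
    intro s x x1 x2 x3 x4
    show S.ρ (S.psi e (s • e') * S.psi f (s⁻¹ • f') * S.psi e (s • e')) x = _
    rw [S.mul_apply, S.mul_apply, hX, hY, hX]
    simp only [map_add, map_sub, map_smul, LinearMap.add_apply, LinearMap.sub_apply,
      LinearMap.smul_apply, smul_eq_mul, h.ee, h.ff, h.ef, h.fe, h'.ee, h'.ff, h'.ef, h'.fe, hee,
      hef, hfe, hff, hee', hef', hfe', hff', x1, x2, x3, x4]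
    match_scalars <;> ring
  -- the torus element
  let D : k → k → G := fun r s => W (r * s) * W s
  have De : ∀ r s : k, r ≠ 0 → s ≠ 0 → S.ρ (D r s) e = (-r) • e := by
    intro r s hr hs
    show S.ρ (W (r * s) * W s) e = _
    rw [S.mul_apply, We s hs, map_smul, Wf' _ (mul_ne_zero hr hs), smul_smul]
    congr 1
    field_simp
  have De' : ∀ r s : k, r ≠ 0 → s ≠ 0 → S.ρ (D r s) e' = (-r) • e' := by
    intro r s hr hs
    show S.ρ (W (r * s) * W s) e' = _
    rw [S.mul_apply, We' s hs, map_smul, Wf _ (mul_ne_zero hr hs), smul_smul]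
    congr 1
    field_simp
  have Df : ∀ r s : k, r ≠ 0 → s ≠ 0 → S.ρ (D r s) f = (-r⁻¹) • f := by
    intro r s hr hs
    show S.ρ (W (r * s) * W s) f = _
    rw [S.mul_apply, Wf s hs, map_smul, We' _ (mul_ne_zero hr hs), smul_smul]
    congr 1
    field_simp
  have Df' : ∀ r s : k, r ≠ 0 → s ≠ 0 → S.ρ (D r s) f' = (-r⁻¹) • f' := by
    intro r s hr hs
    show S.ρ (W (r * s) * W s) f' = _
    rw [S.mul_apply, Wf' s hs, map_smul, We _ (mul_ne_zero hr hs), smul_smul]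
    congr 1
    field_simp
  have Dx : ∀ (r s : k) (x : V), S.B x e = 0 → S.B x f = 0 → S.B x e' = 0 → S.B x f' = 0 →
      S.ρ (D r s) x = x := by
    intro r s x x1 x2 x3 x4
    show S.ρ (W (r * s) * W s) x = _
    rw [S.mul_apply, Wx s x x1 x2 x3 x4, Wx _ x x1 x2 x3 x4]
  have Deq : ∀ r s : k, r ≠ 0 → s ≠ 0 → D r s = D r 1 := by
    intro r s hr hs
    refine S.inj _ _ fun x => ?_
    have q1 := S.pr_e h x
    have q2 := S.pr_f h x
    have q3 := S.pr_e h' (S.pr e f x)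
    have q4 := S.pr_f h' (S.pr e f x)
    have q5 : S.B (S.pr e' f' (S.pr e f x)) e = 0 := by
      simp only [Sys.pr, map_sub, map_smul, LinearMap.sub_apply, LinearMap.smul_apply, smul_eq_mul,
        hee', hef', h.ee, h.fe, h.ef]
      ring
    have q6 : S.B (S.pr e' f' (S.pr e f x)) f = 0 := by
      simp only [Sys.pr, map_sub, map_smul, LinearMap.sub_apply, LinearMap.smul_apply, smul_eq_mul,
        hfe', hff', h.ff, h.fe, h.ef]
      ring
    rw [S.pr_eq e f x, S.pr_eq e' f' (S.pr e f x)]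
    simp only [map_add, map_smul]
    simp only [De r s hr hs, De r 1 hr one_ne_zero, De' r s hr hs, De' r 1 hr one_ne_zero,
      Df r s hr hs, Df r 1 hr one_ne_zero, Df' r s hr hs, Df' r 1 hr one_ne_zero,
      Dx r s _ q5 q6 q3 q4, Dx r 1 _ q5 q6 q3 q4]
  have hW : ∀ r : k, r ≠ 0 → Tendsto (fun N : ℕ => ℓ (W (r * σ ^ N))) atTop (𝓝 0) := by
    intro r hr
    have t1 : Tendsto (fun N : ℕ => (r * σ ^ N)⁻¹) atTop (𝓝 0) := by
      have := hN.const_mul r⁻¹
      rw [mul_zero] at this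
      refine this.congr fun N => ?_
      rw [mul_inv]
    have t2 : Tendsto (fun N : ℕ => ℓ (S.psi f ((r * σ ^ N)⁻¹ • f'))) atTop
        (𝓝 0) := hℓ.cont.comp (S.tendsto_psi h.ff hff t1)
    refine squeeze_zero (fun N => hℓ.nonneg _) (fun N => ?_) t2
    show ℓ (S.psi e ((r * σ ^ N) • e') * S.psi f ((r * σ ^ N)⁻¹ • f') *
      S.psi e ((r * σ ^ N) • e')) ≤ _
    have m1 := hℓ.mul (S.psi e ((r * σ ^ N) • e') * S.psi f ((r * σ ^ N)⁻¹ • f'))
      (S.psi e ((r * σ ^ N) • e'))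
    have m2 := hℓ.mul (S.psi e ((r * σ ^ N) • e')) (S.psi f ((r * σ ^ N)⁻¹ • f'))
    have z : ℓ (S.psi e ((r * σ ^ N) • e')) = 0 := hk _
    linarith
  have hD : D σ⁻¹ 1 ∈ hℓ.ker := by
    have hσi : (σ⁻¹ : k) ≠ 0 := inv_ne_zero hσ0
    have key : ∀ N : ℕ, ℓ (D σ⁻¹ 1) ≤ ℓ (W (σ⁻¹ * σ ^ N)) + ℓ (W (1 * σ ^ N)) := by
      intro N
      rw [← Deq σ⁻¹ (σ ^ N) hσi (pow_ne_zero _ hσ0), one_mul]
      exact hℓ.mul _ _
    have t3 := (hW σ⁻¹ hσi).add (hW 1 one_ne_zero)
    rw [add_zero] at t3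
    exact le_antisymm (ge_of_tendsto' t3 key) (hℓ.nonneg _)
  -- an anisotropic vector
  obtain ⟨w, hw1, hw2, hw3⟩ := S.h5 e e' h.ne h.ee h'.ee hee (by
    intro c hc
    have := h'.ef
    rw [hc, map_smul, LinearMap.smul_apply, hef, smul_zero] at this
    exact zero_ne_one this)
  have hwe : S.B w e = 0 := by rw [S.sym, hw1]
  have hwe' : S.B w e' = 0 := by rw [S.sym, hw2]
  set w₁ := w - S.B w f • e - S.B w f' • e' with hw₁
  have v1 : S.B w₁ e = 0 := by
    simp only [hw₁, map_sub, map_smul, LinearMap.sub_apply, LinearMap.smul_apply, smul_eq_mul,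
      hwe, h.ee, hee']
    ring
  have v2 : S.B w₁ f = 0 := by
    simp only [hw₁, map_sub, map_smul, LinearMap.sub_apply, LinearMap.smul_apply, smul_eq_mul,
      h.ef, hfe']
    ring
  have v3 : S.B w₁ e' = 0 := by
    simp only [hw₁, map_sub, map_smul, LinearMap.sub_apply, LinearMap.smul_apply, smul_eq_mul,
      hwe', h'.ee, hee]
    ring
  have v4 : S.B w₁ f' = 0 := by
    simp only [hw₁, map_sub, map_smul, LinearMap.sub_apply, LinearMap.smul_apply, smul_eq_mul,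
      h'.ef, hef]
    ring
  have v5 : S.B w₁ w₁ = S.B w w := by
    simp only [hw₁, map_sub, map_smul, LinearMap.sub_apply, LinearMap.smul_apply, smul_eq_mul,
      h.ee, h'.ee, hee, hee', hwe, hwe', hw1, hw2]
    ring
  have v1' : S.B e w₁ = 0 := by rw [S.sym, v1]
  have v2' : S.B f w₁ = 0 := by rw [S.sym, v2]
  refine S.ker_top_one hℓ h v1' v2' (by rw [v5]; exact hw3) fun c => ?_
  have hcw : S.B e (c • w₁) = 0 := by rw [map_smul, v1', smul_zero]
  refine hℓ.mem_of_contract (d := fun N => D σ⁻¹ 1 ^ N) (fun N => hℓ.ker.pow_mem hD N) ?_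
  have hpe : ∀ N : ℕ, S.ρ (D σ⁻¹ 1 ^ N) e = ((-σ⁻¹) ^ N) • e := by
    intro N
    induction N with
    | zero => rw [pow_zero, S.one_apply, pow_zero, one_smul]
    | succ N ih =>
      rw [pow_succ, S.mul_apply, De _ 1 (inv_ne_zero hσ0) one_ne_zero, map_smul, ih, smul_smul,
        pow_succ]
      congr 1
      ring
  have hpw : ∀ N : ℕ, S.ρ (D σ⁻¹ 1 ^ N) (c • w₁) = c • w₁ := by
    intro N
    induction N with
    | zero => rw [pow_zero, S.one_apply]
    | succ N ih =>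
      rw [pow_succ, S.mul_apply, map_smul, Dx _ 1 w₁ v1 v2 v3 v4, ih]
  have e1 : ∀ N : ℕ, D σ⁻¹ 1 ^ N * S.psi e (c • w₁) * (D σ⁻¹ 1 ^ N)⁻¹ =
      S.psi e (((-σ⁻¹) ^ N * c) • w₁) := by
    intro N
    rw [S.psi_conj _ h.ee hcw, hpe, hpw, S.psi_smul _ h.ee hcw, smul_smul]
  simp only [e1]
  refine S.tendsto_psi h.ee v1' ?_
  have h1 : ‖(-σ⁻¹ : k)‖ < 1 := by rw [norm_neg, norm_inv]; exact inv_lt_one_of_one_lt₀ hσ1
  have := (tendsto_pow_atTop_nhds_zero_of_norm_lt_one h1).mul_const c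
  rwa [zero_mul] at this

/-- **Mautner**, general form. -/
theorem ker_top {ℓ : G → ℝ} (hℓ : Len ℓ) {z w : V} (hz0 : z ≠ 0) (hz : S.B z z = 0)
    (hw : S.B z w = 0) (hwz : ∀ c : k, w ≠ c • z) (hk : ∀ s : k, S.psi z (s • w) ∈ hℓ.ker) :
    hℓ.ker = ⊤ := by
  have h2 := S.two
  obtain ⟨f, hf⟩ := S.exists_hyp hz0 hz
  have a1 : S.B z (w + (-S.B w f) • z) = 0 := by rw [map_add, map_smul, hw, hz, smul_zero, add_zero]
  have a2 : S.B f (w + (-S.B w f) • z) = 0 := by
    rw [map_add, map_smul, hf.fe, smul_eq_mul, S.sym w f]; ring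
  have a3 : ∀ s : k, S.psi z (s • (w + (-S.B w f) • z)) ∈ hℓ.ker := by
    intro s
    have : s • (w + (-S.B w f) • z) = s • w + (s * (-S.B w f)) • z := by module
    rw [this, S.psi_add_self _ hz (by rw [map_smul, hw, smul_zero])]
    exact hk s
  have a4 : w + (-S.B w f) • z ≠ 0 := by
    intro h
    refine hwz (S.B w f) ?_
    have : w = (w + (-S.B w f) • z) + S.B w f • z := by module
    calc w = (w + (-S.B w f) • z) + S.B w f • z := this
      _ = S.B w f • z := by rw [h, zero_add]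
  generalize w + (-S.B w f) • z = w' at a1 a2 a3 a4
  by_cases hww : S.B w' w' = 0
  · obtain ⟨g, hg⟩ := S.exists_hyp a4 hww
    have c1 : S.B z (S.pr z f g) = 0 := by rw [S.sym, S.pr_e hf]
    have c2 : S.B f (S.pr z f g) = 0 := by rw [S.sym, S.pr_f hf]
    have a1' : S.B w' z = 0 := by rw [S.sym, a1]
    have a2' : S.B w' f = 0 := by rw [S.sym, a2]
    have c3 : S.B w' (S.pr z f g) = 1 := by
      simp only [Sys.pr, map_sub, map_smul, smul_eq_mul, a1', a2', hg.ef]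
      ring
    generalize S.pr z f g = y at c1 c2 c3
    have hh : S.Hyp w' (y - (2⁻¹ * S.B y y) • w') := by
      refine ⟨hww, ?_, ?_⟩
      · simp only [map_sub, map_smul, LinearMap.sub_apply, LinearMap.smul_apply, smul_eq_mul, hww,
          c3, S.sym y w']
        field_simp
        ring
      · rw [map_sub, map_smul, hww, c3, smul_zero, sub_zero]
    refine S.ker_top_two hℓ hf hh a1 ?_ a2 ?_ a3
    · rw [map_sub, map_smul, a1, c1, smul_zero, sub_zero]
    · rw [map_sub, map_smul, a2, c2, smul_zero, sub_zero]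
  · exact S.ker_top_one hℓ hf a1 a2 hww a3

end TSys

end Vale.Agent.P092.H899.Ort
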