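import Vale.Agent.P092.H899.O4
import Vale.Agent.P092.H933.HMPA

/-!
P092 (helper899), [CLASS-O]: Howe–Moore for the group `Om K`, without Cartan decomposition.
-/

set_option linter.all false

open Filter Topology Matrix
open scoped InnerProductSpace

namespace Vale.Agent.P092.H899

open Vale.Agent.P092.H933 (URep Len exists_wlim wlim_perturb HoweMoore)

section gen

variable {G : Type*} [Group G] [TopologicalSpace G] [IsTopologicalGroup G] {𝓗 : Type*}
  [NormedAddCommGroup 𝓗] [InnerProductSpace ℂ 𝓗] {σ : G →* (𝓗 →L[ℂ] 𝓗)}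

/-- Contracted elements fix weak limits. -/
theorem fixed_of_contract (hσ : URep σ) {ι : Type*} (U : Ultrafilter ι) {b u : ι → G} {u₀ : G}
    (hu : Tendsto u U (𝓝 u₀)) (hc : Tendsto (fun i => (b i)⁻¹ * u i * b i) U (𝓝 1))
    {x : ι → 𝓗} {ξ : 𝓗} (hx : Tendsto x U (𝓝 ξ)) {ζ : 𝓗}
    (hζ : ∀ η, Tendsto (fun i => ⟪σ (b i) (x i), η⟫_ℂ) U (𝓝 ⟪ζ, η⟫_ℂ)) : σ u₀ ζ = ζ := by
  refine ext_inner_right ℂ fun η => ?_
  have hζ' : ∀ η, Tendsto (fun i => ⟪σ (b i) ξ, η⟫_ℂ) U (𝓝 ⟪ζ, η⟫_ℂ) := by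
    intro η
    refine wlim_perturb (A' := fun i => σ (b i) ξ) (A := fun i => σ (b i) ξ) (C := ‖ξ‖) (by simp)
      (fun i => by rw [hσ.iso]) (tendsto_const_nhds (x := η)) ?_
    have h1 : Tendsto (fun i => ⟪σ (b i) (x i - ξ), η⟫_ℂ) U (𝓝 0) := by
      have h2 : Tendsto (fun i => ‖x i - ξ‖ * ‖η‖) U (𝓝 0) := by
        have := (tendsto_iff_norm_sub_tendsto_zero.1 hx).mul_const ‖η‖
        rwa [zero_mul] at this
      refine squeeze_zero_norm (fun i => ?_) h2
      refine (norm_inner_le_norm _ _).trans ?_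
      rw [hσ.iso]
    have h3 := (hζ η).sub h1
    rw [sub_zero] at h3
    refine h3.congr fun i => ?_
    rw [map_sub, inner_sub_left]
    ring
  -- first way
  have h1 : Tendsto (fun i => ⟪σ (b i) ξ, σ (u i)⁻¹ η⟫_ℂ) U (𝓝 ⟪ζ, σ u₀⁻¹ η⟫_ℂ) := by
    refine wlim_perturb (A' := fun i => σ (b i) ξ) (A := fun i => σ (b i) ξ) (C := ‖ξ‖) (by simp)
      (fun i => by rw [hσ.iso]) (hσ.tendsto hu.inv (tendsto_const_nhds (x := η))) (hζ' _)
  -- second way
  have h2 : Tendsto (fun i => ⟪σ (b i) (σ ((b i)⁻¹ * u i * b i) ξ), η⟫_ℂ) U (𝓝 ⟪ζ, η⟫_ℂ) := by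
    refine wlim_perturb (A' := fun i => σ (b i) ξ) (C := ‖ξ‖) ?_
      (fun i => by rw [hσ.iso]) (tendsto_const_nhds (x := η)) (hζ' η)
    rw [tendsto_zero_iff_norm_tendsto_zero]
    have h3 := hσ.tendsto hc (tendsto_const_nhds (x := ξ))
    rw [URep.one_apply] at h3
    have h5 := tendsto_iff_norm_sub_tendsto_zero.1 h3
    refine h5.congr fun i => ?_
    rw [← map_sub, hσ.iso]
  rw [hσ.inner_left]
  refine tendsto_nhds_unique h1 (h2.congr fun i => ?_)
  rw [URep.conj_apply, hσ.inner_left (u i)]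

/-- Weak limits along diverging ultrafilters are fixed: the core of Howe–Moore. -/
def Core (G : Type) [Group G] [TopologicalSpace G] : Prop :=
  ∀ (𝓗 : Type) [NormedAddCommGroup 𝓗] [InnerProductSpace ℂ 𝓗] [CompleteSpace 𝓗]
    (σ : G →* (𝓗 →L[ℂ] 𝓗)), URep σ → ∀ (ι : Type) (U : Ultrafilter ι) (b : ι → G),
    Tendsto b U (cocompact G) → ∀ (x : ι → 𝓗) (ξ : 𝓗), Tendsto x U (𝓝 ξ) → ∀ ζ : 𝓗,
    (∀ η, Tendsto (fun i => ⟪σ (b i) (x i), η⟫_ℂ) U (𝓝 ⟪ζ, η⟫_ℂ)) → ∀ s, σ s ζ = ζ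

theorem howeMoore_of_core {G : Type} [Group G] [TopologicalSpace G] (h : Core G) :
    HoweMoore G := by
  intro X _ _ _ π hiso hc hfix ξ η
  have hσ : URep π := ⟨hiso, fun ξ => by
    have := (hc ξ).tendsto 1
    rwa [map_one] at this⟩
  rw [tendsto_iff_ultrafilter]
  intro U hU
  obtain ⟨ζ, hζ⟩ := exists_wlim U (fun i => π i ξ) (C := ‖ξ‖) (fun i => by rw [hσ.iso])
  have hz : ζ = 0 := hfix ζ fun s => h X π hσ G U id (tendsto_id.mono_left hU) (fun _ => ξ) ξ
    tendsto_const_nhds ζ hζ s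
  have := hζ η
  rwa [hz, inner_zero_left] at this

end gen

namespace Ort

section

variable {n : Type} [Fintype n] [DecidableEq n] {k : Type} [NontriviallyNormedField k]

theorem exists_norm_eq [Nonempty n] (v : n → k) : ∃ m : k, ‖m‖ = ‖v‖ := by
  obtain ⟨j, hj⟩ := Finite.exists_max fun j => ‖v j‖
  exact ⟨v j, le_antisymm (norm_le_pi_norm v j) ((pi_norm_le_iff_of_nonneg (norm_nonneg _)).2 hj)⟩

theorem Good.nonempty {K : Matrix n n k} (h : Good K) : Nonempty n :=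
  Fintype.card_pos_iff.1 (by have := h.card; omega)

theorem bf_continuous (K : Matrix n n k) : Continuous fun p : (n → k) × (n → k) => bf K p.1 p.2 := by
  simp only [bf_apply]
  exact continuous_fst.dotProduct (continuous_const.matrix_mulVec continuous_snd)

theorem bf_tendsto (K : Matrix n n k) {α : Type*} {l : Filter α} {u w : α → n → k}
    {u₀ w₀ : n → k} (h1 : Tendsto u l (𝓝 u₀)) (h2 : Tendsto w l (𝓝 w₀)) :
    Tendsto (fun i => bf K (u i) (w i)) l (𝓝 (bf K u₀ w₀)) := by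
  have h := (bf_continuous K).tendsto (u₀, w₀)
  dsimp only at h
  have h' := h.comp (h1.prodMk_nhds h2)
  simpa only [Function.comp_def] using h'

/-- The form is bounded on the unit ball. -/
theorem bf_bound (K : Matrix n n k) : ∃ C : ℝ, 0 < C ∧ ∀ v, ‖bf K v v‖ ≤ C * ‖v‖ ^ 2 := by
  refine ⟨1 + ∑ i, ∑ j, ‖K i j‖, by positivity, fun v => ?_⟩
  rw [bf_apply]
  simp only [dotProduct, mulVec]
  have h1 : ‖∑ i, v i * ∑ j, K i j * v j‖ ≤ ∑ i, ∑ j, ‖K i j‖ * ‖v‖ ^ 2 := by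
    refine (norm_sum_le _ _).trans (Finset.sum_le_sum fun i _ => ?_)
    rw [Finset.mul_sum]
    refine (norm_sum_le _ _).trans (Finset.sum_le_sum fun j _ => ?_)
    rw [norm_mul, norm_mul]
    have a1 := norm_le_pi_norm v i
    have a2 := norm_le_pi_norm v j
    calc ‖v i‖ * (‖K i j‖ * ‖v j‖) ≤ ‖v‖ * (‖K i j‖ * ‖v‖) := by gcongr
      _ = _ := by ring
  refine h1.trans ?_
  rw [add_mul, Finset.sum_mul]
  simp only [← Finset.sum_mul]
  have : 0 ≤ ‖v‖ ^ 2 := by positivity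
  linarith

/-- The isotropic vectors span. -/
theorem span_iso {K : Matrix n n k} (h : Good K) (W : Submodule k (n → k))
    (hW : ∀ x, bf K x x = 0 → x ∈ W) : W = ⊤ := by
  have two := h.two
  let S := sysOf h
  obtain ⟨e, he0, hee⟩ := S.ex
  obtain ⟨f, hh⟩ := S.exists_hyp he0 hee
  rw [eq_top_iff]
  intro x _
  rw [S.pr_eq e f x]
  have h1 : e ∈ W := hW e hh.ee
  have h2 : f ∈ W := hW f hh.ff
  refine W.add_mem (W.add_mem ?_ (W.smul_mem _ h1)) (W.smul_mem _ h2)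
  have b1 : S.B (S.pr e f x) e = 0 := S.pr_e hh x
  have b2 : S.B (S.pr e f x) f = 0 := S.pr_f hh x
  generalize S.pr e f x = w at b1 b2
  have b1' : S.B e w = 0 := by rw [S.sym, b1]
  have b2' : S.B f w = 0 := by rw [S.sym, b2]
  have hiso : S.B (e + w - (2⁻¹ * S.B w w) • f) (e + w - (2⁻¹ * S.B w w) • f) = 0 := by
    simp only [map_add, map_sub, map_smul, LinearMap.add_apply, LinearMap.sub_apply,
      LinearMap.smul_apply, smul_eq_mul, hh.ee, hh.ff, hh.ef, hh.fe, b1, b2, b1', b2']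
    field_simp
    ring
  have h3 := hW _ hiso
  have h4 : w = (e + w - (2⁻¹ * S.B w w) • f) - e + (2⁻¹ * S.B w w) • f := by abel
  rw [h4]
  exact W.add_mem (W.sub_mem h3 h1) (W.smul_mem _ h2)

variable [ProperSpace k]

theorem isCompact_om {K : Matrix n n k} (hcl : IsClosed (Om K : Set (SpecialLinearGroup n k)))
    (R : ℝ) : IsCompact {g : Om K | ∀ i j, ‖g.1.1 i j‖ ≤ R} := by
  have h1 : IsCompact {f : Matrix n n k | ∀ i j, ‖f i j‖ ≤ R} := by
    have : {f : Matrix n n k | ∀ i j, ‖f i j‖ ≤ R} =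
        Set.pi Set.univ (fun _ : n => Set.pi Set.univ fun _ : n => Metric.closedBall (0 : k) R) := by
      ext f
      constructor
      · intro h i _ j _
        exact mem_closedBall_zero_iff.2 (h i j)
      · intro h i j
        exact mem_closedBall_zero_iff.1 (h i trivial j trivial)
    rw [this]
    exact isCompact_univ_pi fun _ => isCompact_univ_pi fun _ => isCompact_closedBall _ _
  have h2 : IsClosedEmbedding fun g : Om K => g.1.1 :=
    (Matrix.SpecialLinearGroup.isClosedEmbedding_val (n := n) (R := k)).comp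
      hcl.isClosedEmbedding_subtypeVal
  exact h2.isCompact_preimage h1

/-- **Contraction along diverging ultrafilters**: a root group consists of limits of contracted
elements. -/
theorem exists_contract {K : Matrix n n k} (h : Good K)
    (hcl : IsClosed (Om K : Set (SpecialLinearGroup n k))) {ι : Type*} (U : Ultrafilter ι)
    {b : ι → Om K} (hb : Tendsto b U (cocompact (Om K))) :
    ∃ z v : n → k, z ≠ 0 ∧ bf K z z = 0 ∧ bf K z v = 0 ∧ (∀ c : k, v ≠ c • z) ∧
      ∀ s : k, ∃ u : ι → Om K, Tendsto u U (𝓝 ((tsysOf h).psi z (s • v))) ∧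
        Tendsto (fun i => (b i)⁻¹ * u i * b i) U (𝓝 1) := by
  haveI := h.nonempty
  have two := h.two
  let S := tsysOf h
  -- a direction which goes to infinity
  obtain ⟨y, hy, hyinf⟩ : ∃ y, bf K y y = 0 ∧ Tendsto (fun i => ‖(b i).1.1 *ᵥ y‖) U atTop := by
    let W : Submodule k (n → k) :=
      { carrier := {y | ∃ R : ℝ, ∀ᶠ i in (U : Filter ι), ‖(b i).1.1 *ᵥ y‖ ≤ R}
        zero_mem' := ⟨0, Eventually.of_forall fun i => by rw [mulVec_zero, norm_zero]⟩
        add_mem' := by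
          rintro y y' ⟨R, hR⟩ ⟨R', hR'⟩
          refine ⟨R + R', ?_⟩
          filter_upwards [hR, hR'] with i h1 h2
          rw [mulVec_add]
          exact (norm_add_le _ _).trans (add_le_add h1 h2)
        smul_mem' := by
          rintro c y ⟨R, hR⟩
          refine ⟨‖c‖ * R, ?_⟩
          filter_upwards [hR] with i h1
          rw [mulVec_smul, norm_smul]
          exact mul_le_mul_of_nonneg_left h1 (norm_nonneg _) }
    by_contra hcon
    push Not at hcon
    have hW : W = ⊤ := by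
      refine span_iso h W fun x hx => ?_
      have := hcon x hx
      by_contra hx'
      refine this (tendsto_atTop.2 fun R => ?_)
      have h1 : ¬ ∀ᶠ i in (U : Filter ι), ‖(b i).1.1 *ᵥ x‖ ≤ R := fun h => hx' ⟨R, h⟩
      exact (Ultrafilter.eventually_not.2 h1).mono fun i hi => (not_le.1 hi).le
    have h1 : ∀ j : n, ∃ R : ℝ, ∀ᶠ i in (U : Filter ι), ‖(b i).1.1 *ᵥ Pi.single j 1‖ ≤ R := by
      intro j
      have : (Pi.single j 1 : n → k) ∈ W := by rw [hW]; trivial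
      exact this
    choose R hR using h1
    have h2 : ∀ᶠ i in (U : Filter ι), ∀ j, ‖(b i).1.1 *ᵥ Pi.single j 1‖ ≤ R j :=
      eventually_all.2 hR
    obtain ⟨R', hR'⟩ : ∃ R' : ℝ, ∀ j, R j ≤ R' := by
      obtain ⟨j, hj⟩ := Finite.exists_max R
      exact ⟨R j, hj⟩
    have h3 := hb (isCompact_om hcl R').compl_mem_cocompact
    obtain ⟨i, hi1, hi2⟩ := (h2.and h3).exists
    refine hi2 fun p q => ?_
    have h4 := (norm_le_pi_norm ((b i).1.1 *ᵥ Pi.single q 1) p).trans ((hi1 q).trans (hR' q))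
    rwa [mulVec_single_one] at h4
  have hy0 : y ≠ 0 := by
    rintro rfl
    simp only [mulVec_zero, norm_zero] at hyinf
    exact not_tendsto_const_atTop (0 : ℝ) _ hyinf
  have hSy : S.B y y = 0 := hy
  obtain ⟨hh, hyh⟩ := S.exists_hyp hy0 hSy
  obtain ⟨w₀, hw1, hw2, hw3⟩ := S.h3 y hh hyh.ee hyh.ff hyh.ef
  -- the normalised vectors
  choose μ hμ using fun i => exists_norm_eq ((b i).1.1 *ᵥ y)
  have hb0 : ∀ i, (b i).1.1 *ᵥ y ≠ 0 := fun i => S.apply_ne (b i) hy0
  have hμ0 : ∀ i, μ i ≠ 0 := fun i h0 => hb0 i (by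
    rw [← norm_eq_zero, ← hμ i, h0, norm_zero])
  let z : ι → n → k := fun i => (μ i)⁻¹ • S.ρ (b i) y
  have hz1 : ∀ i, ‖z i‖ = 1 := by
    intro i
    show ‖(μ i)⁻¹ • ((b i).1.1 *ᵥ y)‖ = 1
    rw [norm_smul, norm_inv, hμ, inv_mul_cancel₀ (norm_ne_zero_iff.2 (hb0 i))]
  have hzz : ∀ i, S.B (z i) (z i) = 0 := by
    intro i
    simp only [z, map_smul, LinearMap.smul_apply, S.iso, hSy, smul_zero]
  obtain ⟨z₀, hz₀m, hz₀⟩ := (isCompact_sphere (0 : n → k) 1).ultrafilter_le_nhds (U.map z)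
    (Filter.tendsto_principal.2 (Eventually.of_forall fun i => by
      rw [mem_sphere_zero_iff_norm]; exact hz1 i))
  have hz₀ : Tendsto z U (𝓝 z₀) := hz₀
  have hz₀n : ‖z₀‖ = 1 := by rwa [mem_sphere_zero_iff_norm] at hz₀m
  have hz₀0 : z₀ ≠ 0 := by
    rintro rfl
    rw [norm_zero] at hz₀n
    exact zero_ne_one hz₀n
  have hz₀z : S.B z₀ z₀ = 0 := by
    have h1 := bf_tendsto K hz₀ hz₀
    have h2 : (fun i => bf K (z i) (z i)) = fun _ => 0 := funext hzz
    rw [h2] at h1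
    exact tendsto_nhds_unique h1 tendsto_const_nhds
  obtain ⟨f, hf⟩ := S.exists_hyp hz₀0 hz₀z
  -- the second vector
  let w : ι → n → k := fun i => S.ρ (b i) w₀ -
    (S.B (S.ρ (b i) w₀) f * (S.B (z i) f)⁻¹) • z i
  have hbz : ∀ i, S.B (S.ρ (b i) w₀) (z i) = 0 := by
    intro i
    simp only [z, map_smul, S.iso, S.sym w₀ y, hw1, smul_zero]
  have hzb : ∀ i, S.B (z i) (S.ρ (b i) w₀) = 0 := fun i => by rw [S.sym, hbz]
  have hzw : ∀ i, S.B (z i) (w i) = 0 := by
    intro i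
    simp only [w, map_sub, map_smul, hzb, hzz, smul_zero, sub_zero]
  have hww : ∀ i, S.B (w i) (w i) = S.B w₀ w₀ := by
    intro i
    simp only [w, map_sub, map_smul, LinearMap.sub_apply, LinearMap.smul_apply, smul_eq_mul, hzb,
      hbz, hzz, S.iso]
    ring
  have hzf : Tendsto (fun i => S.B (z i) f) U (𝓝 1) := by
    have h1 := bf_tendsto K hz₀ (tendsto_const_nhds (x := f))
    have h2 : bf K z₀ f = 1 := hf.ef
    rw [h2] at h1
    exact h1
  have hzf0 : ∀ᶠ i in (U : Filter ι), S.B (z i) f ≠ 0 := hzf.eventually_ne one_ne_zero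
  have hwf : ∀ᶠ i in (U : Filter ι), S.B (w i) f = 0 := by
    filter_upwards [hzf0] with i hi
    simp only [w, map_sub, map_smul, LinearMap.sub_apply, LinearMap.smul_apply, smul_eq_mul]
    rw [mul_assoc, inv_mul_cancel₀ hi, mul_one, sub_self]
  obtain ⟨C, hC0, hC⟩ := bf_bound K
  have hwn : ∀ i, ‖S.B w₀ w₀‖ / C ≤ ‖w i‖ ^ 2 := by
    intro i
    have h1 := hC (w i)
    have h2 : bf K (w i) (w i) = S.B w₀ w₀ := hww i
    rw [h2] at h1
    rw [div_le_iff₀ hC0]
    linarith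
  have hc0 : 0 < ‖S.B w₀ w₀‖ / C := div_pos (norm_pos_iff.2 hw3) hC0
  set c : ℝ := Real.sqrt (‖S.B w₀ w₀‖ / C) with hc
  have hcpos : 0 < c := Real.sqrt_pos.2 hc0
  have hcw : ∀ i, c ≤ ‖w i‖ := fun i => by
    rw [hc]
    exact Real.sqrt_le_iff.2 ⟨norm_nonneg _, hwn i⟩
  choose r hr using fun i => exists_norm_eq (w i)
  have hr0 : ∀ i, r i ≠ 0 := fun i h0 => by
    have := hcw i
    rw [← hr i, h0, norm_zero] at this
    linarith
  let v : ι → n → k := fun i => (r i)⁻¹ • w i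
  have hv1 : ∀ i, ‖v i‖ = 1 := by
    intro i
    show ‖(r i)⁻¹ • w i‖ = 1
    rw [norm_smul, norm_inv, hr, inv_mul_cancel₀]
    exact (lt_of_lt_of_le hcpos (hcw i)).ne'
  obtain ⟨v₀, hv₀m, hv₀⟩ := (isCompact_sphere (0 : n → k) 1).ultrafilter_le_nhds (U.map v)
    (Filter.tendsto_principal.2 (Eventually.of_forall fun i => by
      rw [mem_sphere_zero_iff_norm]; exact hv1 i))
  have hv₀ : Tendsto v U (𝓝 v₀) := hv₀
  have hv₀n : ‖v₀‖ = 1 := by rwa [mem_sphere_zero_iff_norm] at hv₀m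
  have hzv : ∀ i, S.B (z i) (v i) = 0 := fun i => by
    show S.B (z i) ((r i)⁻¹ • w i) = 0
    rw [map_smul, hzw, smul_zero]
  have hz₀v : S.B z₀ v₀ = 0 := by
    have h1 := bf_tendsto K hz₀ hv₀
    have h2 : (fun i => bf K (z i) (v i)) = fun _ => 0 := funext hzv
    rw [h2] at h1
    exact tendsto_nhds_unique h1 tendsto_const_nhds
  have hv₀f : S.B v₀ f = 0 := by
    have h1 := bf_tendsto K hv₀ (tendsto_const_nhds (x := f))
    refine tendsto_nhds_unique h1 (Tendsto.congr' ?_ (tendsto_const_nhds (x := (0 : k))))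
    filter_upwards [hwf] with i hi
    show 0 = S.B ((r i)⁻¹ • w i) f
    rw [map_smul, LinearMap.smul_apply, hi, smul_zero]
  have hvz : ∀ c : k, v₀ ≠ c • z₀ := by
    intro c hcz
    rw [hcz, map_smul, LinearMap.smul_apply, hf.ef, smul_eq_mul, mul_one] at hv₀f
    rw [hcz, hv₀f, zero_smul, norm_zero] at hv₀n
    exact zero_ne_one hv₀n
  -- the root group
  refine ⟨z₀, v₀, hz₀0, hz₀z, hz₀v, hvz, ?_⟩
  · intro s
    refine ⟨fun i => S.psi (z i) (s • v i), ?_, ?_⟩
    · exact tendsto_psiG h.sym hzz (fun i => by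
        show S.B (z i) (s • v i) = 0
        rw [map_smul, hzv, smul_zero]) hz₀z (by
        show S.B z₀ (s • v₀) = 0
        rw [map_smul, hz₀v, smul_zero]) hz₀ (hv₀.const_smul s)
    · have e1 : ∀ i, (b i)⁻¹ * S.psi (z i) (s • v i) * b i =
          S.psi y ((s * (μ i)⁻¹ * (r i)⁻¹) • w₀) := by
        intro i
        have hsv : S.B (z i) (s • v i) = 0 := by rw [map_smul, hzv, smul_zero]
        have h1 := S.psi_conj (b i)⁻¹ (hzz i) hsv
        rw [inv_inv] at h1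
        rw [h1]
        have h2 : S.ρ (b i)⁻¹ (z i) = (μ i)⁻¹ • y := by
          simp only [z, map_smul, S.inv_apply]
        have h3 : S.ρ (b i)⁻¹ (s • v i) = (s * (r i)⁻¹) • w₀ +
            (-(s * (r i)⁻¹) * ((S.B (S.ρ (b i) w₀) f * (S.B (z i) f)⁻¹) * (μ i)⁻¹)) • y := by
          show S.ρ (b i)⁻¹ (s • ((r i)⁻¹ • (S.ρ (b i) w₀ -
            (S.B (S.ρ (b i) w₀) f * (S.B (z i) f)⁻¹) • z i))) = _
          rw [map_smul, map_smul, map_sub, map_smul, S.inv_apply, h2]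
          module
        have h4 : S.B y ((s * (r i)⁻¹) • w₀ +
            (-(s * (r i)⁻¹) * ((S.B (S.ρ (b i) w₀) f * (S.B (z i) f)⁻¹) * (μ i)⁻¹)) • y) = 0 := by
          rw [map_add, map_smul, map_smul, hw1, hSy, smul_zero, smul_zero, add_zero]
        rw [h2, h3, S.psi_smul _ hSy h4, smul_add, smul_smul, smul_smul,
          S.psi_add_self _ hSy (by rw [map_smul, hw1, smul_zero])]
        congr 2
        ring
      simp only [e1]
      refine S.tendsto_psi hSy hw1 ?_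
      have t1 : Tendsto (fun i => ‖s‖ * ‖μ i‖⁻¹ * c⁻¹) U (𝓝 0) := by
        have h5 : Tendsto (fun i => ‖μ i‖⁻¹) U (𝓝 0) := by
          refine tendsto_inv_atTop_zero.comp ?_
          exact hyinf.congr fun i => (hμ i).symm
        have h6 := (h5.const_mul ‖s‖).mul_const c⁻¹
        rwa [mul_zero, zero_mul] at h6
      refine squeeze_zero_norm (fun i => ?_) t1
      rw [norm_mul, norm_mul, norm_inv, norm_inv]
      have h7 : ‖r i‖⁻¹ ≤ c⁻¹ := by
        rw [hr]
        exact inv_anti₀ hcpos (hcw i)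
      exact mul_le_mul_of_nonneg_left h7 (by positivity)

/-- **Core of Howe–Moore for `Om K`.** -/
theorem core {K : Matrix n n k} (h : Good K)
    (hcl : IsClosed (Om K : Set (SpecialLinearGroup n k))) : Core (Om K) := by
  intro 𝓗 _ _ _ σ hσ ι U b hb x ξ hx ζ hζ
  obtain ⟨z₀, v₀, hz₀0, hz₀z, hz₀v, hvz, hu⟩ := exists_contract h hcl U hb
  have hroot : ∀ s : k, σ ((tsysOf h).psi z₀ (s • v₀)) ζ = ζ := by
    intro s
    obtain ⟨u, hu1, hu2⟩ := hu s
    exact fixed_of_contract hσ U hu1 hu2 hx hζ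
  have hker := (tsysOf h).ker_top (hσ.len ζ) hz₀0 hz₀z hz₀v hvz (fun s => by
    rw [Len.mem_ker, hroot s, sub_self, norm_zero])
  intro s
  have : s ∈ (hσ.len ζ).ker := by rw [hker]; trivial
  rw [Len.mem_ker] at this
  exact sub_eq_zero.1 (norm_eq_zero.1 this)

theorem howeMoore {K : Matrix n n k} (h : Good K)
    (hcl : IsClosed (Om K : Set (SpecialLinearGroup n k))) : HoweMoore (Om K) :=
  howeMoore_of_core (core h hcl)

end

end Ort

end Vale.Agent.P092.H899
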