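import Vale.Agent.P092.H899.O5
import Mathlib.Analysis.Calculus.InverseFunctionTheorem.Deriv
import Mathlib.LinearAlgebra.QuadraticForm.Basic

/-!
P092 (helper899), [CLASS-O]: `Om K` is open in the isometry group, hence closed.
-/

set_option linter.all false

open Filter Topology Matrix

namespace Vale.Agent.P092.H899.Ort

section

variable {n : Type} [Fintype n] [DecidableEq n] {k : Type} [NontriviallyNormedField k]

theorem eventually_sq [CompleteSpace k] (h2 : (2 : k) ≠ 0) :
    ∀ᶠ x in 𝓝 (1 : k), ∃ s : k, s ≠ 0 ∧ s ^ 2 = x := by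
  have h1 := (hasStrictDerivAt_pow 2 (1 : k)).map_nhds_eq (by simpa using h2)
  have h3 : ∀ᶠ s in 𝓝 (1 : k), s ≠ 0 := eventually_ne_nhds one_ne_zero
  have h4 : {x : k | ∃ s : k, s ≠ 0 ∧ s ^ 2 = x} ∈ map (fun x : k => x ^ 2) (𝓝 1) := by
    rw [mem_map]
    filter_upwards [h3] with s hs
    exact ⟨s, hs, rfl⟩
  have h5 : ((1 : k)) = 1 ^ 2 := by rw [one_pow]
  rw [h5]
  rw [← h1]
  exact h4

/-- An orthogonal basis of the orthogonal space of a hyperbolic pair. -/
theorem exists_basis {K : Matrix n n k} (h : Good K) {e f : n → k} (he : (sysOf h).Hyp e f) :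
    ∃ (m : ℕ) (w : ℕ → n → k), (∀ j, j < m → bf K (w j) (w j) ≠ 0) ∧
      (∀ j, j < m → bf K e (w j) = 0 ∧ bf K f (w j) = 0) ∧
      (∀ i j, i < m → j < m → i ≠ j → bf K (w i) (w j) = 0) ∧
      ∀ (A B : (n → k) →ₗ[k] (n → k)), A e = B e → A f = B f → (∀ j, j < m → A (w j) = B (w j)) →
        A = B := by
  haveI : Invertible (2 : k) := invertibleOfNonzero h.two
  let W : Submodule k (n → k) := LinearMap.ker (bf K e) ⊓ LinearMap.ker (bf K f)
  let B : LinearMap.BilinForm k W := (bf K).domRestrict₁₂ W W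
  have hB : LinearMap.IsSymm B := ⟨fun x y => bf_sym h.sym _ _⟩
  obtain ⟨v, hv⟩ := LinearMap.BilinForm.exists_orthogonal_basis (B := B) hB
  have hv' : ∀ i j, i ≠ j → bf K (v i) (v j) = 0 := by
    intro i j hij
    have h1 : B (v i) (v j) = 0 := LinearMap.isOrthoᵢ_def.1 hv i j hij
    rw [LinearMap.domRestrict₁₂_apply] at h1
    exact h1
  have hW : ∀ w : W, bf K e w = 0 ∧ bf K f w = 0 := fun w => ⟨w.2.1, w.2.2⟩
  have hpr : ∀ x, (sysOf h).pr e f x ∈ W := by
    intro x
    refine ⟨?_, ?_⟩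
    · show bf K e _ = 0
      rw [bf_sym h.sym]
      exact (sysOf h).pr_e he x
    · show bf K f _ = 0
      rw [bf_sym h.sym]
      exact (sysOf h).pr_f he x
  refine ⟨Module.finrank k W, fun j => if hj : j < Module.finrank k W then v ⟨j, hj⟩ else 0,
    ?_, ?_, ?_, ?_⟩
  · intro j hj h0
    simp only [dif_pos hj] at h0
    have hne : ((v ⟨j, hj⟩ : W) : n → k) ≠ 0 := by
      intro h1
      exact v.ne_zero ⟨j, hj⟩ (Subtype.ext h1)
    obtain ⟨y, hy⟩ := bf_nd h.det _ hne
    have h1 : ∀ x : W, bf K (v ⟨j, hj⟩) x = 0 := by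
      intro x
      have hx := v.sum_repr x
      have hx' : (x : n → k) = ∑ i, v.repr x i • ((v i : W) : n → k) := by
        conv_lhs => rw [← hx]
        rw [Submodule.coe_sum]
        rfl
      rw [hx', map_sum]
      refine Finset.sum_eq_zero fun i _ => ?_
      rw [map_smul]
      by_cases hi : i = ⟨j, hj⟩
      · rw [hi, h0, smul_zero]
      · rw [hv' _ _ (Ne.symm hi), smul_zero]
    have h2 : bf K (v ⟨j, hj⟩) y = 0 := by
      have h3 := (sysOf h).pr_eq e f y
      have h4 : bf K (v ⟨j, hj⟩) ((sysOf h).pr e f y) = 0 := h1 ⟨_, hpr y⟩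
      rw [h3, map_add, map_add, map_smul, map_smul, h4, bf_sym h.sym _ e, bf_sym h.sym _ f,
        (hW _).1, (hW _).2, smul_zero, smul_zero, add_zero, add_zero]
    rw [h2] at hy
    exact zero_ne_one hy
  · intro j hj
    simp only [dif_pos hj]
    exact hW _
  · intro i j hi hj hij
    simp only [dif_pos hi, dif_pos hj]
    exact hv' _ _ (fun h => hij (Fin.mk.inj_iff.1 h))
  · intro A A' h1 h2 h3
    have h4 : A ∘ₗ W.subtype = A' ∘ₗ W.subtype := by
      refine v.ext fun i => ?_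
      have := h3 i.1 i.2
      simp only [dif_pos i.2] at this
      exact this
    refine LinearMap.ext fun x => ?_
    have h5 : A ((sysOf h).pr e f x) = A' ((sysOf h).pr e f x) :=
      LinearMap.congr_fun h4 ⟨_, hpr x⟩
    rw [(sysOf h).pr_eq e f x, map_add, map_add, map_smul, map_smul, h5, h1, h2, map_add, map_add,
      map_smul, map_smul]

/-- `b` preserves the lines of `e` and `f`. -/
def Ln (e f : n → k) (b : SpecialLinearGroup n k) : Prop :=
  ∃ c : k, c ≠ 0 ∧ b.1 *ᵥ e = c • e ∧ b.1 *ᵥ f = c⁻¹ • f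

theorem om_mulVec {K : Matrix n n k} (c : Om K) (b : SpecialLinearGroup n k) (x : n → k) :
    (c.1 * b).1 *ᵥ x = rho K c (b.1 *ᵥ x) := by
  show (c.1.1 * b.1) *ᵥ x = c.1.1 *ᵥ (b.1 *ᵥ x)
  rw [mulVec_mulVec]

theorem tendsto_mulVec {ι : Type*} {l : Filter ι} {b : ι → SpecialLinearGroup n k}
    (h1 : Tendsto b l (𝓝 1)) (x : n → k) : Tendsto (fun i => (b i).1 *ᵥ x) l (𝓝 x) := by
  have h2 : Continuous fun g : SpecialLinearGroup n k => g.1 *ᵥ x :=
    continuous_subtype_val.matrix_mulVec continuous_const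
  have h3 := (h2.tendsto 1).comp h1
  have h4 : (1 : SpecialLinearGroup n k).1 *ᵥ x = x := by
    show (1 : Matrix n n k) *ᵥ x = x
    rw [one_mulVec]
  rw [h4] at h3
  exact h3

theorem tendsto_om_one {K : Matrix n n k} {ι : Type*} {l : Filter ι} {c : ι → Om K}
    {b : ι → SpecialLinearGroup n k} (hc : Tendsto c l (𝓝 1)) (h1 : Tendsto b l (𝓝 1)) :
    Tendsto (fun i => (c i).1 * b i) l (𝓝 1) := by
  have h2 : Tendsto (fun i => (c i).1) l (𝓝 1) := (continuous_subtype_val.tendsto _).comp hc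
  have h3 := h2.mul h1
  rw [one_mul] at h3
  exact h3

theorem step_last {K : Matrix n n k} (h : Good K) [CompleteSpace k] {e f : n → k}
    (he : (sysOf h).Hyp e f) {m : ℕ} {w : ℕ → n → k}
    (hef : ∀ j, j < m → bf K e (w j) = 0 ∧ bf K f (w j) = 0)
    (hext : ∀ (A B : (n → k) →ₗ[k] (n → k)), A e = B e → A f = B f →
      (∀ j, j < m → A (w j) = B (w j)) → A = B)
    {ι : Type*} {l : Filter ι} {b : ι → SpecialLinearGroup n k} (hb : ∀ i, Ln e f (b i))
    (hw : ∀ i, ∀ j, j < m → (b i).1 *ᵥ w j = w j) (h1 : Tendsto b l (𝓝 1)) :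
    ∀ᶠ i in l, b i ∈ Om K := by
  have h2 : Tendsto (fun i => bf K ((b i).1 *ᵥ e) f) l (𝓝 1) := by
    have := bf_tendsto K (tendsto_mulVec h1 e) (tendsto_const_nhds (x := f))
    have he' : bf K e f = 1 := he.ef
    rw [he'] at this
    exact this
  filter_upwards [h2.eventually (eventually_sq h.two)] with i hi
  obtain ⟨s, hs0, hs⟩ := hi
  obtain ⟨c, hc0, hc1, hc2⟩ := hb i
  have hef' : bf K e f = 1 := he.ef
  rw [hc1, map_smul, LinearMap.smul_apply, hef', smul_eq_mul, mul_one] at hs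
  obtain ⟨_, d, -, -, -, -, hd⟩ := (sysOf h).exists_tor he hs0
  rw [hs] at hd
  have h3 : mulVecLin (b i).1 = mulVecLin d.1.1 := by
    refine hext _ _ ?_ ?_ ?_
    · rw [mulVecLin_apply, hc1]
      exact (hd.e he).symm
    · rw [mulVecLin_apply, hc2]
      exact (hd.f he).symm
    · intro j hj
      rw [mulVecLin_apply, hw i j hj]
      exact (hd.x (hef j hj).1 (hef j hj).2).symm
  have h4 : b i = d.1 := by
    refine Subtype.ext ?_
    ext i' j'
    have h5 := congrFun (LinearMap.congr_fun h3 (Pi.single j' 1)) i'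
    simpa using h5
  rw [h4]
  exact d.2

theorem nw_nw {V G : Type*} [AddCommGroup V] [Module k V] [Group G] (S : Sys k V G) {e f w : V}
    (h : S.Hyp e f) (he : S.B e w = 0) (hf : S.B f w = 0) (hw : S.B w w ≠ 0) :
    S.nw e f w * S.nw e f w = 1 := by
  refine S.inj _ _ fun x => ?_
  have h1 := S.nw_mul h he hf hw (s := 1) one_ne_zero x
  rw [one_smul] at h1
  rw [h1, S.one_apply]
  simp

theorem tendsto_nw {K : Matrix n n k} (h : Good K) {e f : n → k} (he : (sysOf h).Hyp e f)
    {ι : Type*} {l : Filter ι} {a : ι → n → k} {a₀ : n → k} (h1 : ∀ i, bf K e (a i) = 0)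
    (h2 : ∀ i, bf K f (a i) = 0) (h1' : bf K e a₀ = 0) (h2' : bf K f a₀ = 0)
    (h3 : bf K a₀ a₀ ≠ 0) (ha : Tendsto a l (𝓝 a₀)) :
    Tendsto (fun i => (sysOf h).nw e f (a i)) l (𝓝 ((sysOf h).nw e f a₀)) := by
  have q1 : Tendsto (fun i => (2⁻¹ * bf K (a i) (a i))⁻¹ • a i) l
      (𝓝 ((2⁻¹ * bf K a₀ a₀)⁻¹ • a₀)) :=
    ((tendsto_const_nhds.mul (bf_tendsto K ha ha)).inv₀
      (mul_ne_zero (inv_ne_zero h.two) h3)).smul ha
  have q2 : ∀ i, bf K f ((2⁻¹ * bf K (a i) (a i))⁻¹ • a i) = 0 := fun i => by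
    rw [map_smul, h2, smul_zero]
  have q2' : bf K f ((2⁻¹ * bf K a₀ a₀)⁻¹ • a₀) = 0 := by
    rw [map_smul, h2', smul_zero]
  have t1 := tendsto_psiG h.sym (fun _ => he.ff) q2 he.ff q2' tendsto_const_nhds q1
  have t2 := tendsto_psiG h.sym (fun _ => he.ee) h1 he.ee h1' tendsto_const_nhds ha
  exact (t1.mul t2).mul t1

theorem step {K : Matrix n n k} (h : Good K) {e f : n → k} (he : (sysOf h).Hyp e f)
    {u : n → k} (hu : bf K u u ≠ 0) (heu : bf K e u = 0) (hfu : bf K f u = 0)
    (F : Set (n → k)) (hF : ∀ x ∈ F, bf K x e = 0 ∧ bf K x f = 0 ∧ bf K x u = 0)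
    {ι : Type*} {l : Filter ι} {b : ι → SpecialLinearGroup n k} (hI : ∀ i, b i ∈ IsoG K)
    (hb : ∀ i, Ln e f (b i)) (hw : ∀ i, ∀ x ∈ F, (b i).1 *ᵥ x = x) (h1 : Tendsto b l (𝓝 1)) :
    ∃ b' : ι → SpecialLinearGroup n k, (∀ i, b' i ∈ IsoG K) ∧ (∀ i, Ln e f (b' i)) ∧
      (∀ i, ∀ x ∈ F, (b' i).1 *ᵥ x = x) ∧ (∀ i, (b' i).1 *ᵥ u = u) ∧ Tendsto b' l (𝓝 1) ∧
      ∀ᶠ i in l, b' i ∈ Om K → b i ∈ Om K := by
  classical
  have two := h.two
  have hiso : ∀ i x y, bf K ((b i).1 *ᵥ x) ((b i).1 *ᵥ y) = bf K x y := fun i => bf_iso (hI i)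
  set a : ι → n → k := fun i => u + (b i).1 *ᵥ u with ha
  have hea : ∀ i, bf K e (a i) = 0 := by
    intro i
    obtain ⟨c, hc0, hc1, hc2⟩ := hb i
    have := hiso i e u
    rw [hc1, heu, map_smul, LinearMap.smul_apply, smul_eq_mul] at this
    have h3 := (mul_eq_zero.1 this).resolve_left hc0
    rw [ha, map_add, heu, h3, add_zero]
  have hfa : ∀ i, bf K f (a i) = 0 := by
    intro i
    obtain ⟨c, hc0, hc1, hc2⟩ := hb i
    have := hiso i f u
    rw [hc2, hfu, map_smul, LinearMap.smul_apply, smul_eq_mul] at this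
    have h3 := (mul_eq_zero.1 this).resolve_left (inv_ne_zero hc0)
    rw [ha, map_add, hfu, h3, add_zero]
  have hFa : ∀ i, ∀ x ∈ F, bf K x (a i) = 0 := by
    intro i x hx
    have := hiso i x u
    rw [hw i x hx, (hF x hx).2.2] at this
    rw [ha, map_add, (hF x hx).2.2, this, add_zero]
  have hba : ∀ i, bf K ((b i).1 *ᵥ u) (a i) = 2⁻¹ * bf K (a i) (a i) := by
    intro i
    have e1 := hiso i u u
    simp only [ha, map_add, LinearMap.add_apply, e1, bf_sym h.sym ((b i).1 *ᵥ u) u]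
    field_simp
    ring
  have h4 : Tendsto a l (𝓝 ((2 : k) • u)) := by
    have := (tendsto_const_nhds (x := u)).add (tendsto_mulVec h1 u)
    rw [two_smul]
    exact this
  set u' : n → k := (2 : k) • u with hu'
  have heu' : bf K e u' = 0 := by rw [hu', map_smul, heu, smul_zero]
  have hfu' : bf K f u' = 0 := by rw [hu', map_smul, hfu, smul_zero]
  have huu' : bf K u' u' = 4 * bf K u u := by
    rw [hu']
    simp only [map_smul, LinearMap.smul_apply, smul_eq_mul]
    ring
  have hne' : bf K u' u' ≠ 0 := by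
    rw [huu']
    have : (4 : k) = 2 * 2 := by norm_num
    rw [this]
    exact mul_ne_zero (mul_ne_zero two two) hu
  set c : ι → Om K := fun i => (sysOf h).nw e f u' * (sysOf h).nw e f (a i) with hc
  have hc1 : Tendsto c l (𝓝 1) := by
    have := (tendsto_const_nhds (x := (sysOf h).nw e f u')).mul
      (tendsto_nw h he hea hfa heu' hfu' hne' h4)
    rw [nw_nw (sysOf h) he heu' hfu' hne'] at this
    exact this
  have hgood : ∀ᶠ i in l, bf K (a i) (a i) ≠ 0 := (bf_tendsto K h4 h4).eventually_ne hne'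
  have ce : ∀ i, bf K (a i) (a i) ≠ 0 → (sysOf h).ρ (c i) e =
      ((2⁻¹ * bf K (a i) (a i))⁻¹ * (2⁻¹ * bf K u' u')) • e := by
    intro i hi
    rw [hc]
    dsimp only
    rw [(sysOf h).mul_apply, (sysOf h).nw_e he (hea i) (hfa i) hi, map_smul,
      (sysOf h).nw_f he heu' hfu' hne', smul_smul]
    congr 1
    exact neg_mul_neg _ _
  have cf : ∀ i, bf K (a i) (a i) ≠ 0 → (sysOf h).ρ (c i) f =
      ((2⁻¹ * bf K (a i) (a i)) * (2⁻¹ * bf K u' u')⁻¹) • f := by
    intro i hi
    rw [hc]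
    dsimp only
    rw [(sysOf h).mul_apply, (sysOf h).nw_f he (hea i) (hfa i) hi, map_smul,
      (sysOf h).nw_e he heu' hfu' hne', smul_smul]
    congr 1
    exact neg_mul_neg _ _
  have cx : ∀ i, bf K (a i) (a i) ≠ 0 → ∀ x ∈ F, (sysOf h).ρ (c i) x = x := by
    intro i hi x hx
    obtain ⟨x1, x2, x3⟩ := hF x hx
    have x4 : bf K x u' = 0 := by rw [hu', map_smul, x3, smul_zero]
    have e1 : (sysOf h).ρ ((sysOf h).nw e f (a i)) x = x := by
      rw [(sysOf h).nw_x he (hea i) (hfa i) hi x1 x2]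
      have : (sysOf h).B x (a i) = 0 := hFa i x hx
      rw [this, mul_zero, zero_smul, sub_zero]
    rw [hc]
    dsimp only
    rw [(sysOf h).mul_apply, e1, (sysOf h).nw_x he heu' hfu' hne' x1 x2]
    have : (sysOf h).B x u' = 0 := x4
    rw [this, mul_zero, zero_smul, sub_zero]
  have cu : ∀ i, bf K (a i) (a i) ≠ 0 → (sysOf h).ρ (c i) ((b i).1 *ᵥ u) = u := by
    intro i hi
    have x1 : bf K ((b i).1 *ᵥ u) e = 0 := by
      have := hea i
      rw [ha, map_add, heu, zero_add, bf_sym h.sym] at this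
      exact this
    have x2 : bf K ((b i).1 *ᵥ u) f = 0 := by
      have := hfa i
      rw [ha, map_add, hfu, zero_add, bf_sym h.sym] at this
      exact this
    have e1 : (sysOf h).ρ ((sysOf h).nw e f (a i)) ((b i).1 *ᵥ u) = -u := by
      rw [(sysOf h).nw_x he (hea i) (hfa i) hi x1 x2]
      have : (sysOf h).B ((b i).1 *ᵥ u) (a i) = 2⁻¹ * bf K (a i) (a i) := hba i
      rw [this]
      have e2 : (sysOf h).B (a i) (a i) = bf K (a i) (a i) := rfl
      rw [e2, inv_mul_cancel₀ (mul_ne_zero (inv_ne_zero two) hi), one_smul, ha]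
      exact sub_add_cancel_right _ _
    have y1 : bf K (-u) e = 0 := by rw [bf_sym h.sym, map_neg, heu, neg_zero]
    have y2 : bf K (-u) f = 0 := by rw [bf_sym h.sym, map_neg, hfu, neg_zero]
    rw [hc]
    dsimp only
    rw [(sysOf h).mul_apply, e1, (sysOf h).nw_x he heu' hfu' hne' y1 y2]
    have e3 : (sysOf h).B u' u' = 4 * bf K u u := huu'
    have e4 : (sysOf h).B (-u) u' = -(2 * bf K u u) := by
      show bf K (-u) u' = _
      rw [hu', map_smul, map_neg, LinearMap.neg_apply, smul_eq_mul]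
      ring
    rw [e3, e4, hu', smul_smul]
    have e5 : (2⁻¹ * (4 * bf K u u))⁻¹ * -(2 * bf K u u) * 2 = -2 := by
      have : (4 : k) = 2 * 2 := by norm_num
      rw [this]
      field_simp
    rw [e5, neg_smul, two_smul]
    abel
  refine ⟨fun i => if bf K (a i) (a i) ≠ 0 then (c i).1 * b i else 1, ?_, ?_, ?_, ?_, ?_, ?_⟩
  · intro i
    by_cases hi : bf K (a i) (a i) ≠ 0
    · simp only [if_pos hi]
      exact (IsoG K).mul_mem (om_le_isoG h.sym h.two (c i).2) (hI i)
    · simp only [if_neg hi]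
      exact (IsoG K).one_mem
  · intro i
    by_cases hi : bf K (a i) (a i) ≠ 0
    · simp only [if_pos hi]
      obtain ⟨t, ht0, ht1, ht2⟩ := hb i
      refine ⟨t * ((2⁻¹ * bf K (a i) (a i))⁻¹ * (2⁻¹ * bf K u' u')), ?_, ?_, ?_⟩
      · exact mul_ne_zero ht0 (mul_ne_zero (inv_ne_zero (mul_ne_zero (inv_ne_zero two) hi))
          (mul_ne_zero (inv_ne_zero two) hne'))
      · rw [om_mulVec, ht1, map_smul]
        have := ce i hi
        rw [show rho K (c i) e = (sysOf h).ρ (c i) e from rfl, this, smul_smul]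
      · rw [om_mulVec, ht2, map_smul]
        have := cf i hi
        rw [show rho K (c i) f = (sysOf h).ρ (c i) f from rfl, this, smul_smul]
        congr 1
        rw [mul_inv t, mul_inv (2⁻¹ * bf K (a i) (a i))⁻¹, inv_inv]
    · simp only [if_neg hi]
      refine ⟨1, one_ne_zero, ?_, ?_⟩
      · rw [one_smul]; show (1 : Matrix n n k) *ᵥ e = e; rw [one_mulVec]
      · rw [inv_one, one_smul]; show (1 : Matrix n n k) *ᵥ f = f; rw [one_mulVec]
  · intro i x hx
    by_cases hi : bf K (a i) (a i) ≠ 0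
    · simp only [if_pos hi]
      rw [om_mulVec, hw i x hx]
      exact cx i hi x hx
    · simp only [if_neg hi]
      show (1 : Matrix n n k) *ᵥ x = x
      rw [one_mulVec]
  · intro i
    by_cases hi : bf K (a i) (a i) ≠ 0
    · simp only [if_pos hi]
      rw [om_mulVec]
      exact cu i hi
    · simp only [if_neg hi]
      show (1 : Matrix n n k) *ᵥ u = u
      rw [one_mulVec]
  · refine (tendsto_om_one hc1 h1).congr' ?_
    filter_upwards [hgood] with i hi
    rw [if_pos hi]
  · filter_upwards [hgood] with i hi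
    rw [if_pos hi]
    intro h5
    exact ((Om K).mul_mem_cancel_left (c i).2).1 h5

theorem steps {K : Matrix n n k} (h : Good K) [CompleteSpace k] {e f : n → k}
    (he : (sysOf h).Hyp e f) {m : ℕ} {w : ℕ → n → k}
    (hne : ∀ j, j < m → bf K (w j) (w j) ≠ 0)
    (hef : ∀ j, j < m → bf K e (w j) = 0 ∧ bf K f (w j) = 0)
    (hort : ∀ i j, i < m → j < m → i ≠ j → bf K (w i) (w j) = 0)
    (hext : ∀ (A B : (n → k) →ₗ[k] (n → k)), A e = B e → A f = B f →
      (∀ j, j < m → A (w j) = B (w j)) → A = B)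
    {ι : Type*} {l : Filter ι} (r : ℕ) : ∀ j, j + r = m → ∀ (b : ι → SpecialLinearGroup n k),
    (∀ i, b i ∈ IsoG K) → (∀ i, Ln e f (b i)) → (∀ i, ∀ s, s < j → (b i).1 *ᵥ w s = w s) →
    Tendsto b l (𝓝 1) → ∀ᶠ i in l, b i ∈ Om K := by
  induction r with
  | zero =>
    intro j hj b hI hb hw h1
    rw [add_zero] at hj
    subst hj
    exact step_last h he hef hext hb hw h1
  | succ r ih =>
    intro j hj b hI hb hw h1
    have hjm : j < m := by omega
    obtain ⟨b', q1, q2, q3, q4, q5, q6⟩ := step h he (hne j hjm) (hef j hjm).1 (hef j hjm).2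
      {x | ∃ s, s < j ∧ x = w s} (by
        rintro x ⟨s, hs, rfl⟩
        refine ⟨?_, ?_, hort s j (by omega) hjm (by omega)⟩
        · rw [bf_sym h.sym]; exact (hef s (by omega)).1
        · rw [bf_sym h.sym]; exact (hef s (by omega)).2) hI hb (by
        rintro i x ⟨s, hs, rfl⟩
        exact hw i s hs) h1
    have q7 := ih (j + 1) (by omega) b' q1 q2 (by
      intro i s hs
      rcases Nat.lt_succ_iff_lt_or_eq.1 hs with hs | hs
      · exact q3 i _ ⟨s, hs, rfl⟩
      · rw [hs]; exact q4 i) q5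
    filter_upwards [q6, q7] with i h6 h7 using h6 h7

/-- Isometries close to one are products of Siegel transformations. -/
theorem eventually_om {K : Matrix n n k} (h : Good K) [CompleteSpace k] {ι : Type*} {l : Filter ι}
    {b : ι → SpecialLinearGroup n k} (hI : ∀ i, b i ∈ IsoG K) (h1 : Tendsto b l (𝓝 1)) :
    ∀ᶠ i in l, b i ∈ Om K := by
  classical
  obtain ⟨e, he0, hee⟩ := h.ex
  obtain ⟨f, he⟩ := (sysOf h).exists_hyp he0 hee
  have hiso : ∀ i x y, bf K ((b i).1 *ᵥ x) ((b i).1 *ᵥ y) = bf K x y := fun i => bf_iso (hI i)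
  have hef : bf K e f = 1 := he.ef
  have hff : bf K f f = 0 := he.ff
  have hfe : bf K f e = 1 := he.fe
  set lam : ι → k := fun i => bf K ((b i).1 *ᵥ e) f with hlam
  have hl : Tendsto lam l (𝓝 1) := by
    have := bf_tendsto K (tendsto_mulVec h1 e) (tendsto_const_nhds (x := f))
    rw [hef] at this
    exact this
  have hl0 : ∀ᶠ i in l, lam i ≠ 0 := hl.eventually_ne one_ne_zero
  -- first correction
  set y : ι → n → k := fun i => if lam i ≠ 0 then (lam i)⁻¹ • ((b i).1 *ᵥ e) else e with hy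
  have hyt : Tendsto y l (𝓝 e) := by
    have q1 := (hl.inv₀ one_ne_zero).smul (tendsto_mulVec h1 e)
    rw [inv_one, one_smul] at q1
    refine q1.congr' ?_
    filter_upwards [hl0] with i hi
    rw [hy]
    simp only [if_pos hi]
  have hyy : ∀ i, bf K (y i) (y i) = 0 := by
    intro i
    by_cases hi : lam i ≠ 0
    · simp only [hy, if_pos hi, map_smul, LinearMap.smul_apply, hiso, hee, smul_zero]
    · simp only [hy, if_neg hi]
      exact hee
  have hyf : ∀ i, bf K (y i) f = 1 := by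
    intro i
    by_cases hi : lam i ≠ 0
    · simp only [hy, if_pos hi, map_smul, LinearMap.smul_apply, smul_eq_mul]
      exact inv_mul_cancel₀ hi
    · simp only [hy, if_neg hi]
      exact hef
  have ht : ∀ i, bf K f (y i - e) = 0 ∧
      (sysOf h).ρ ((sysOf h).psi f (y i - e)) e = y i :=
    fun i => (sysOf h).psi_trans hff hee (hyy i) hef (hyf i)
  set t : ι → Om K := fun i => (sysOf h).psi f (y i - e) with ht'
  have htt : Tendsto t l (𝓝 1) := by
    have q1 : Tendsto (fun i => y i - e) l (𝓝 (e - e)) := hyt.sub tendsto_const_nhds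
    rw [sub_self] at q1
    have q2 := tendsto_psiG h.sym (fun _ => hff) (fun i => (ht i).1) hff (map_zero (bf K f))
      tendsto_const_nhds q1
    have q3 : psiG K h.sym f 0 = 1 := (sysOf h).psi_zero hff
    rw [q3] at q2
    exact q2
  set b₁ : ι → SpecialLinearGroup n k := fun i => ((t i)⁻¹ : Om K).1 * b i with hb₁
  have hb₁t : Tendsto b₁ l (𝓝 1) := by
    have q1 := htt.inv
    rw [inv_one] at q1
    exact tendsto_om_one q1 h1
  have hI₁ : ∀ i, b₁ i ∈ IsoG K := fun i =>
    (IsoG K).mul_mem (om_le_isoG h.sym h.two ((t i)⁻¹ : Om K).2) (hI i)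
  have hiso₁ : ∀ i x y, bf K ((b₁ i).1 *ᵥ x) ((b₁ i).1 *ᵥ y) = bf K x y := fun i => bf_iso (hI₁ i)
  have he₁ : ∀ i, lam i ≠ 0 → (b₁ i).1 *ᵥ e = lam i • e := by
    intro i hi
    have q1 : (b i).1 *ᵥ e = lam i • y i := by
      simp only [hy, if_pos hi]
      rw [smul_smul, mul_inv_cancel₀ hi, one_smul]
    rw [hb₁]
    dsimp only
    rw [om_mulVec, q1, map_smul]
    congr 1
    have q2 := (sysOf h).inv_apply (t i) e
    rw [(ht i).2] at q2
    exact q2
  -- second correction
  set z : ι → n → k := fun i => if lam i ≠ 0 then lam i • ((b₁ i).1 *ᵥ f) else f with hz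
  have hzt : Tendsto z l (𝓝 f) := by
    have q1 := hl.smul (tendsto_mulVec hb₁t f)
    rw [one_smul] at q1
    refine q1.congr' ?_
    filter_upwards [hl0] with i hi
    rw [hz]
    simp only [if_pos hi]
  have hzz : ∀ i, bf K (z i) (z i) = 0 := by
    intro i
    by_cases hi : lam i ≠ 0
    · simp only [hz, if_pos hi, map_smul, LinearMap.smul_apply, hiso₁, hff, smul_zero]
    · simp only [hz, if_neg hi]
      exact hff
  have hze : ∀ i, bf K (z i) e = 1 := by
    intro i
    by_cases hi : lam i ≠ 0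
    · have q1 := hiso₁ i f e
      rw [he₁ i hi, hfe, map_smul, smul_eq_mul] at q1
      simp only [hz, if_pos hi, map_smul, LinearMap.smul_apply, smul_eq_mul]
      exact q1
    · simp only [hz, if_neg hi]
      exact hfe
  have hs : ∀ i, bf K e (z i - f) = 0 ∧
      (sysOf h).ρ ((sysOf h).psi e (z i - f)) f = z i :=
    fun i => (sysOf h).psi_trans hee hff (hzz i) hfe (hze i)
  set s : ι → Om K := fun i => (sysOf h).psi e (z i - f) with hs'
  have hst : Tendsto s l (𝓝 1) := by
    have q1 : Tendsto (fun i => z i - f) l (𝓝 (f - f)) := hzt.sub tendsto_const_nhds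
    rw [sub_self] at q1
    have q2 := tendsto_psiG h.sym (fun _ => hee) (fun i => (hs i).1) hee (map_zero (bf K e))
      tendsto_const_nhds q1
    have q3 : psiG K h.sym e 0 = 1 := (sysOf h).psi_zero hee
    rw [q3] at q2
    exact q2
  set b₂ : ι → SpecialLinearGroup n k := fun i =>
    if lam i ≠ 0 then ((s i)⁻¹ : Om K).1 * b₁ i else 1 with hb₂
  have hb₂t : Tendsto b₂ l (𝓝 1) := by
    have q1 := hst.inv
    rw [inv_one] at q1
    refine (tendsto_om_one q1 hb₁t).congr' ?_
    filter_upwards [hl0] with i hi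
    rw [hb₂]
    simp only [if_pos hi]
  have hI₂ : ∀ i, b₂ i ∈ IsoG K := by
    intro i
    by_cases hi : lam i ≠ 0
    · simp only [hb₂, if_pos hi]
      exact (IsoG K).mul_mem (om_le_isoG h.sym h.two ((s i)⁻¹ : Om K).2) (hI₁ i)
    · simp only [hb₂, if_neg hi]
      exact (IsoG K).one_mem
  have hL₂ : ∀ i, Ln e f (b₂ i) := by
    intro i
    by_cases hi : lam i ≠ 0
    · simp only [hb₂, if_pos hi]
      refine ⟨lam i, hi, ?_, ?_⟩
      · rw [om_mulVec, he₁ i hi, map_smul]
        congr 1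
        have q2 := (sysOf h).inv_apply (s i) e
        have q3 : (sysOf h).ρ (s i) e = e := (sysOf h).psi_fix hee (hs i).1
        rw [q3] at q2
        exact q2
      · have q1 : (b₁ i).1 *ᵥ f = (lam i)⁻¹ • z i := by
          simp only [hz, if_pos hi]
          rw [smul_smul, inv_mul_cancel₀ hi, one_smul]
        rw [om_mulVec, q1, map_smul]
        congr 1
        have q2 := (sysOf h).inv_apply (s i) f
        rw [(hs i).2] at q2
        exact q2
    · simp only [hb₂, if_neg hi]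
      refine ⟨1, one_ne_zero, ?_, ?_⟩
      · rw [one_smul]; show (1 : Matrix n n k) *ᵥ e = e; rw [one_mulVec]
      · rw [inv_one, one_smul]; show (1 : Matrix n n k) *ᵥ f = f; rw [one_mulVec]
  obtain ⟨m, w, w1, w2, w3, w4⟩ := exists_basis h he
  have key := steps h he w1 w2 w3 w4 m 0 (by omega) b₂ hI₂ hL₂
    (fun i s hs => absurd hs (Nat.not_lt_zero s)) hb₂t
  filter_upwards [key, hl0] with i hi h0
  simp only [hb₂, if_pos h0] at hi
  have q1 := ((Om K).mul_mem_cancel_left ((s i)⁻¹ : Om K).2).1 hi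
  exact ((Om K).mul_mem_cancel_left ((t i)⁻¹ : Om K).2).1 q1

theorem isClosed_isoG (K : Matrix n n k) : IsClosed (IsoG K : Set (SpecialLinearGroup n k)) := by
  have h1 : Continuous fun g : SpecialLinearGroup n k => g.1ᵀ * K * g.1 :=
    ((continuous_subtype_val.matrix_transpose).mul continuous_const).mul continuous_subtype_val
  exact isClosed_singleton.preimage h1

/-- `Om K` is closed. -/
theorem isClosed_om {K : Matrix n n k} (h : Good K) [CompleteSpace k] :
    IsClosed (Om K : Set (SpecialLinearGroup n k)) := by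
  refine isClosed_of_closure_subset fun g hg => ?_
  have hgI : g ∈ IsoG K := by
    have h1 : closure (Om K : Set (SpecialLinearGroup n k)) ⊆ (IsoG K : Set _) :=
      closure_minimal (om_le_isoG h.sym h.two) (isClosed_isoG K)
    exact h1 hg
  have hne : (comap ((↑) : Om K → SpecialLinearGroup n k) (𝓝 g)).NeBot :=
    mem_closure_iff_comap_neBot.1 hg
  have h1 : Tendsto (fun x : Om K => g⁻¹ * x.1) (comap ((↑) : Om K → SpecialLinearGroup n k) (𝓝 g))
      (𝓝 1) := by
    have h2 : Tendsto (fun x : Om K => x.1) (comap ((↑) : Om K → SpecialLinearGroup n k) (𝓝 g))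
      (𝓝 g) := tendsto_comap
    have h3 := (tendsto_const_nhds (x := g⁻¹)).mul h2
    rwa [inv_mul_cancel] at h3
  obtain ⟨x, hx⟩ := (eventually_om h (fun x : Om K => (IsoG K).mul_mem ((IsoG K).inv_mem hgI)
    (om_le_isoG h.sym h.two x.2)) h1).exists
  have h4 : g⁻¹ ∈ Om K := ((Om K).mul_mem_cancel_right x.2).1 hx
  exact (Om K).inv_mem_iff.1 h4

/-- `Om K` is open in the isometry group. -/
theorem isOpen_om {K : Matrix n n k} (h : Good K) [CompleteSpace k] :
    IsOpen (((Om K).subgroupOf (IsoG K) : Subgroup (IsoG K)) : Set (IsoG K)) := by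
  refine Subgroup.isOpen_of_mem_nhds _ (g := 1) ?_
  have h1 := eventually_om h (l := 𝓝 (1 : IsoG K)) (b := fun x : IsoG K => x.1) (fun x => x.2)
    (continuous_subtype_val.tendsto _)
  exact h1

end

end Vale.Agent.P092.H899.Ort
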