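import Vale.Agent.P092.H899.O8

/-!
P092 (helper899), [CLASS-O]: chains of length one for Witt index one.
-/

set_option linter.all false

open Filter Topology Matrix

namespace Vale.Agent.P092.H899.Ort

open Vale.Agent.P092.H701

variable {n : Type} [Fintype n] [DecidableEq n] {k : Type} [NontriviallyNormedField k]

theorem bf_self_continuous (K : Matrix n n k) : Continuous fun v : n → k => bf K v v := by
  simp only [bf_apply]
  exact continuous_id.dotProduct (continuous_const.matrix_mulVec continuous_id)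

theorem lower [ProperSpace k] (K : Matrix n n k) [Nonempty n] (G : (n → k) → ℝ)
    (hc : Continuous G) (hs : ∀ (c : k) v, G (c • v) = ‖c‖ * G v)
    (hp : ∀ v, v ≠ 0 → bf K v v = 0 → 0 < G v) :
    ∃ m, 0 < m ∧ ∀ v, bf K v v = 0 → m * ‖v‖ ≤ G v := by
  have h0 : G 0 = 0 := by
    have := hs 0 0
    rw [smul_zero, norm_zero, zero_mul] at this
    exact this
  have hcomp : IsCompact (Metric.sphere (0 : n → k) 1 ∩ {v : n → k | bf K v v = 0}) := by
    have h1 : IsCompact (Metric.sphere (0 : n → k) 1) := isCompact_sphere _ _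
    have h2 : IsClosed {v : n → k | bf K v v = 0} :=
      isClosed_eq (bf_self_continuous K) continuous_const
    exact h1.inter_right h2
  have key : ∃ m, 0 < m ∧ ∀ v, ‖v‖ = 1 → bf K v v = 0 → m ≤ G v := by
    rcases (Metric.sphere (0 : n → k) 1 ∩ {v : n → k | bf K v v = 0}).eq_empty_or_nonempty
      with he | hne
    · refine ⟨1, one_pos, fun v h1 h2 => ?_⟩
      have : v ∈ Metric.sphere (0 : n → k) 1 ∩ {v : n → k | bf K v v = 0} :=
        ⟨mem_sphere_zero_iff_norm.2 h1, h2⟩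
      rw [he] at this
      exact this.elim
    · obtain ⟨v₀, hv₀, hm⟩ := hcomp.exists_isMinOn hne hc.continuousOn
      have hn0 : v₀ ≠ 0 := by
        rintro rfl
        have := mem_sphere_zero_iff_norm.1 hv₀.1
        rw [norm_zero] at this
        exact zero_ne_one this
      exact ⟨G v₀, hp v₀ hn0 hv₀.2, fun v h1 h2 => hm ⟨mem_sphere_zero_iff_norm.2 h1, h2⟩⟩
  obtain ⟨m, hm0, hm⟩ := key
  refine ⟨m, hm0, fun v hv => ?_⟩
  by_cases hv0 : v = 0
  · rw [hv0, norm_zero, mul_zero, h0]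
  obtain ⟨c, hc⟩ := exists_norm_eq v
  have hc0 : c ≠ 0 := by
    rintro rfl
    rw [norm_zero] at hc
    exact hv0 (norm_eq_zero.1 hc.symm)
  have h1 : ‖c⁻¹ • v‖ = 1 := by
    rw [norm_smul, norm_inv, hc, inv_mul_cancel₀ (norm_ne_zero_iff.2 hv0)]
  have h2 := hm (c⁻¹ • v) h1 (by
    rw [map_smul, map_smul, LinearMap.smul_apply, hv, smul_zero, smul_zero])
  rw [hs, norm_inv, hc] at h2
  have h3 : 0 < ‖v‖ := norm_pos_iff.2 hv0
  rw [inv_mul_eq_div, le_div_iff₀ h3] at h2
  exact h2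

theorem sep [ProperSpace k] (K : Matrix n n k) [Nonempty n] {W : Type*} [NormedAddCommGroup W]
    [NormedSpace k W] (A A' : (n → k) →L[k] W) (g g' : (n → k) →L[k] (n → k))
    (hp : ∀ v, v ≠ 0 → bf K v v = 0 → A v = 0 → A' v = 0 → False) :
    ∀ᶠ η in 𝓝[>] (0 : ℝ), ∀ v, v ≠ 0 → bf K v v = 0 →
      ‖A v‖ ≤ η * ‖g v‖ → ‖A' v‖ ≤ η * ‖g' v‖ → False := by
  obtain ⟨m, hm0, hm⟩ := lower K (fun v => ‖A v‖ + ‖A' v‖) (by fun_prop)
    (fun c v => by rw [map_smul, map_smul, norm_smul, norm_smul, mul_add]) (by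
      intro v hv0 hv
      by_contra hcon
      push Not at hcon
      have h1 := norm_nonneg (A v)
      have h2 := norm_nonneg (A' v)
      exact hp v hv0 hv (norm_eq_zero.1 (by linarith)) (norm_eq_zero.1 (by linarith)))
  have hpos : 0 < m / (‖g‖ + ‖g'‖ + 1) := by positivity
  have h1 : ∀ᶠ η in 𝓝[>] (0 : ℝ), η < m / (‖g‖ + ‖g'‖ + 1) :=
    mem_nhdsWithin_of_mem_nhds (Iio_mem_nhds hpos)
  filter_upwards [h1, self_mem_nhdsWithin] with η h2 h3 v hv0 hv ha ha'
  have h4 := hm v hv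
  have h5 : 0 < ‖v‖ := norm_pos_iff.2 hv0
  have h6 := g.le_opNorm v
  have h7 := g'.le_opNorm v
  have h3' : (0 : ℝ) < η := h3
  rw [lt_div_iff₀ (by positivity)] at h2
  have h8 : ‖A v‖ + ‖A' v‖ ≤ η * ((‖g‖ + ‖g'‖) * ‖v‖) := by
    calc ‖A v‖ + ‖A' v‖ ≤ η * ‖g v‖ + η * ‖g' v‖ := add_le_add ha ha'
      _ = η * (‖g v‖ + ‖g' v‖) := by ring
      _ ≤ η * (‖g‖ * ‖v‖ + ‖g'‖ * ‖v‖) := mul_le_mul_of_nonneg_left (add_le_add h6 h7) h3'.le
      _ = _ := by ring
  have h9 : m * ‖v‖ ≤ (η * (‖g‖ + ‖g'‖)) * ‖v‖ := by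
    calc m * ‖v‖ ≤ η * ((‖g‖ + ‖g'‖) * ‖v‖) := h4.trans h8
      _ = _ := by ring
  have h10 := le_of_mul_le_mul_right h9 h5
  nlinarith

theorem continuous_rho {K : Matrix n n k} (g : Om K) (v : n → k) :
    Continuous fun x : Om K => rho K (g * x) v := by
  have c0 : Continuous fun x : Om K => x.1.1 := continuous_subtype_val.comp continuous_subtype_val
  have h1 : Continuous fun x : Om K => (g * x).1.1 := c0.comp (continuous_const.mul continuous_id)
  exact h1.matrix_mulVec continuous_const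

theorem continuous_bf_left (K : Matrix n n k) (y : n → k) : Continuous fun x => bf K x y := by
  simp only [bf_apply]
  exact continuous_id.dotProduct continuous_const

section one

variable [ProperSpace k] {K : Matrix n n k}

/-- The action as a continuous linear map. -/
noncomputable def act (g : Om K) : (n → k) →L[k] (n → k) := LinearMap.toContinuousLinearMap (rho K g)

theorem act_apply (g : Om K) (v : n → k) : act g v = rho K g v := rfl

/-- The pairing with a vector. -/
noncomputable def pair (K : Matrix n n k) (y : n → k) : (n → k) →L[k] k :=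
  LinearMap.toContinuousLinearMap ((bf K).flip y)

theorem pair_apply (x y : n → k) : pair K y x = bf K x y := rfl

/-- `u ↦ u - B(u, f) e` -/
noncomputable def rem (K : Matrix n n k) (e f : n → k) : (n → k) →L[k] (n → k) :=
  ContinuousLinearMap.id k (n → k) - (pair K f).smulRight e

theorem rem_apply (e f u : n → k) : rem K e f u = u - bf K u f • e := rfl

/-- The compact set. -/
noncomputable def kset (h : Good K) (e f w : n → k) : Set (Om K) :=
  (fun c : k => (sysOf h).psi e (c • w)) '' Metric.closedBall 0 1 ∪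
    (fun c : k => (sysOf h).psi f (c • w)) '' Metric.closedBall 0 1

theorem isCompact_kset (h : Good K) {e f w : n → k} (he : (sysOf h).Hyp e f) (hwe : bf K e w = 0)
    (hwf : bf K f w = 0) : IsCompact (kset h e f w) :=
  ((isCompact_closedBall _ _).image ((tsysOf h).cont e w he.ee hwe)).union
    ((isCompact_closedBall _ _).image ((tsysOf h).cont f w he.ff hwf))

/-- The ping-pong family. -/
theorem pp_one (h : Good K)
    (hw1 : ∀ x v : n → k, x ≠ 0 → bf K x x = 0 → bf K v v = 0 → bf K x v = 0 → ∃ c : k, v = c • x)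
    {e f w : n → k} (he : (sysOf h).Hyp e f) (hwe : bf K e w = 0) (hwf : bf K f w = 0)
    (hww : bf K w w ≠ 0) {t : k} {d : Om K} (ht1 : 1 < ‖t‖) (hd : (sysOf h).IsTor e f t d)
    [MeasurableSpace (Om K)] [OpensMeasurableSpace (Om K)] (p : ℕ) :
    ∃ N₀, ∀ N, N₀ ≤ N → ∃ (κ κ' : Fin p → Om K) (Bm Bp : Fin p → Set (Om K)),
      (∀ l, κ l ∈ kset h e f w) ∧ (∀ l, κ' l ∈ kset h e f w) ∧
      (∀ l, MeasurableSet (Bm l)) ∧ (∀ l, MeasurableSet (Bp l)) ∧
      (∀ l l', l ≠ l' → Disjoint (Bm l) (Bm l')) ∧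
      (∀ l l', l ≠ l' → Disjoint (Bp l) (Bp l')) ∧
      ∀ l x, x ∉ Bm l → κ l * d ^ N * κ' l * x ∈ Bp l := by
  haveI := h.nonempty
  obtain ⟨c, η₀, hη₀, -, hc1, hsep⟩ := exists_pts k p
  have hinj : ∀ l l', l ≠ l' → c l ≠ c l' := by
    intro l l' hne heq
    have := hsep l l' hne
    rw [heq, sub_self, norm_zero] at this
    linarith
  have he0 : e ≠ 0 := he.ne
  have hee : bf K e e = 0 := he.ee
  have hff : bf K f f = 0 := he.ff
  have hef : bf K e f = 1 := he.ef
  have hfe : bf K f e = 1 := he.fe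
  have hwe' : bf K w e = 0 := by rw [bf_sym h.sym, hwe]
  have hwf' : bf K w f = 0 := by rw [bf_sym h.sym, hwf]
  have hew : ∀ a : k, bf K e (a • w) = 0 := fun a => by rw [map_smul, hwe, smul_zero]
  have hfw : ∀ a : k, bf K f (a • w) = 0 := fun a => by rw [map_smul, hwf, smul_zero]
  -- the moved vectors
  set E : k → n → k := fun a => rho K ((sysOf h).psi f (a • w)) e with hE
  set F : k → n → k := fun a => rho K ((sysOf h).psi e (a • w)) f with hF
  have hE1 : ∀ a, bf K (E a) f = 1 ∧ bf K (E a) w = a * bf K w w := by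
    intro a
    have h1 : E a = e + bf K e f • (a • w) -
        (bf K e (a • w) + 2⁻¹ * bf K (a • w) (a • w) * bf K e f) • f :=
      (sysOf h).hpsi f (a • w) hff (hfw a) e
    rw [h1]
    simp only [map_add, map_sub, map_smul, LinearMap.add_apply, LinearMap.sub_apply,
      LinearMap.smul_apply, smul_eq_mul, hef, hff, hwf', hwe, hwf]
    constructor <;> ring
  have hF1 : ∀ a, bf K (F a) e = 1 ∧ bf K (F a) w = a * bf K w w := by
    intro a
    have h1 : F a = f + bf K f e • (a • w) -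
        (bf K f (a • w) + 2⁻¹ * bf K (a • w) (a • w) * bf K f e) • e :=
      (sysOf h).hpsi e (a • w) hee (hew a) f
    rw [h1]
    simp only [map_add, map_sub, map_smul, LinearMap.add_apply, LinearMap.sub_apply,
      LinearMap.smul_apply, smul_eq_mul, hfe, hee, hwe', hwe, hwf]
    constructor <;> ring
  have hFF : ∀ a, bf K (F a) (F a) = 0 := fun a => by
    rw [hF]; dsimp only; rw [rho_iso h, hff]
  set κ : Fin p → Om K := fun l => (sysOf h).psi f (c l • w) with hκ
  set κ' : Fin p → Om K := fun l => (sysOf h).psi e (-c l • w) with hκ'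
  have hκ'i : ∀ l, (κ' l)⁻¹ = (sysOf h).psi e (c l • w) := by
    intro l
    have := (sysOf h).psi_inv hee (w := -c l • w) (hew _)
    rw [hκ']
    dsimp only
    rw [this, neg_smul, neg_neg]
  -- separation, first family
  have s1 : ∀ᶠ η in 𝓝[>] (0 : ℝ), ∀ l l', l ≠ l' → ∀ v, v ≠ 0 → bf K v v = 0 →
      ‖bf K (rho K (κ' l) v) f‖ ≤ η * ‖rho K (κ' l) v‖ →
      ‖bf K (rho K (κ' l') v) f‖ ≤ η * ‖rho K (κ' l') v‖ → False := by
    refine eventually_all.2 fun l => eventually_all.2 fun l' => ?_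
    refine eventually_imp_distrib_left.2 fun hne => ?_
    have key := sep K ((pair K f).comp (act (κ' l))) ((pair K f).comp (act (κ' l')))
      (act (κ' l)) (act (κ' l')) (by
        intro v hv0 hv h1 h2
        have h1' : bf K (rho K (κ' l) v) f = 0 := h1
        have h2' : bf K (rho K (κ' l') v) f = 0 := h2
        have q1 : bf K v (F (c l)) = 0 := by
          have := (sysOf h).iso_left (κ' l) v f
          rw [hκ'i] at this
          exact this.symm.trans h1'
        have q2 : bf K v (F (c l')) = 0 := by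
          have := (sysOf h).iso_left (κ' l') v f
          rw [hκ'i] at this
          exact this.symm.trans h2'
        obtain ⟨a, ha⟩ := hw1 v _ hv0 hv (hFF _) q1
        obtain ⟨a', ha'⟩ := hw1 v _ hv0 hv (hFF _) q2
        have r1 := (hF1 (c l)).1
        have r2 := (hF1 (c l')).1
        rw [ha, map_smul, LinearMap.smul_apply, smul_eq_mul] at r1
        rw [ha', map_smul, LinearMap.smul_apply, smul_eq_mul] at r2
        have hb : bf K v e ≠ 0 := right_ne_zero_of_mul_eq_one r1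
        have haa : a = a' := mul_right_cancel₀ hb (r1.trans r2.symm)
        have hFe : F (c l) = F (c l') := by rw [ha, ha', haa]
        have r3 := (hF1 (c l)).2
        rw [hFe, (hF1 (c l')).2] at r3
        exact hinj l l' hne (mul_right_cancel₀ hww r3).symm)
    exact key
  have s2 : ∀ᶠ η in 𝓝[>] (0 : ℝ), ∀ l l', l ≠ l' → ∀ v, v ≠ 0 → bf K v v = 0 →
      ‖rem K e f (rho K (κ l)⁻¹ v)‖ ≤ η * ‖rho K (κ l)⁻¹ v‖ →
      ‖rem K e f (rho K (κ l')⁻¹ v)‖ ≤ η * ‖rho K (κ l')⁻¹ v‖ → False := by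
    refine eventually_all.2 fun l => eventually_all.2 fun l' => ?_
    refine eventually_imp_distrib_left.2 fun hne => ?_
    have key := sep K ((rem K e f).comp (act (κ l)⁻¹)) ((rem K e f).comp (act (κ l')⁻¹))
      (act (κ l)⁻¹) (act (κ l')⁻¹) (by
        intro v hv0 hv h1 h2
        have q : ∀ i, (rem K e f).comp (act (κ i)⁻¹) v = 0 → ∃ a : k, v = a • E (c i) := by
          intro i hi
          have hi' : rho K (κ i)⁻¹ v = bf K (rho K (κ i)⁻¹ v) f • e := sub_eq_zero.1 hi
          refine ⟨bf K (rho K (κ i)⁻¹ v) f, ?_⟩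
          have h3 := (sysOf h).apply_inv (κ i) v
          have h4 : rho K (κ i) (rho K (κ i)⁻¹ v) = v := h3
          conv_lhs => rw [← h4, hi', map_smul]
        obtain ⟨a, ha⟩ := q l h1
        obtain ⟨a', ha'⟩ := q l' h2
        have r1 : bf K v f = a := by
          rw [ha, map_smul, LinearMap.smul_apply, (hE1 _).1, smul_eq_mul, mul_one]
        have r2 : bf K v f = a' := by
          rw [ha', map_smul, LinearMap.smul_apply, (hE1 _).1, smul_eq_mul, mul_one]
        have haa : a = a' := r1.symm.trans r2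
        have ha0 : a ≠ 0 := by
          rintro rfl
          rw [zero_smul] at ha
          exact hv0 ha
        have hEe : E (c l) = E (c l') := by
          rw [← haa] at ha'
          exact smul_right_injective _ ha0 (ha.symm.trans ha')
        have r3 := (hE1 (c l)).2
        rw [hEe, (hE1 (c l')).2] at r3
        exact hinj l l' hne (mul_right_cancel₀ hww r3).symm)
    exact key
  obtain ⟨η, ⟨hs1, hs2⟩, hη⟩ := ((s1.and s2).and self_mem_nhdsWithin).exists
  have hη0 : (0 : ℝ) < η := hη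
  have hpos : 0 < η ^ 2 * ‖e‖ := by
    have := norm_pos_iff.2 he0
    positivity
  obtain ⟨N₀, hN₀⟩ := pow_unbounded_of_one_lt
    ((‖rem K e f‖ + 2 * (‖pair K e‖ * ‖f‖)) * (1 + η) / (η ^ 2 * ‖e‖)) ht1
  refine ⟨N₀, fun N hN => ⟨κ, κ',
    fun l => {x | ‖bf K (rho K (κ' l * x) e) f‖ ≤ η * ‖rho K (κ' l * x) e‖},
    fun l => {x | ‖rem K e f (rho K ((κ l)⁻¹ * x) e)‖ ≤ η * ‖rho K ((κ l)⁻¹ * x) e‖},
    ?_, ?_, ?_, ?_, ?_, ?_, ?_⟩⟩
  · intro l
    exact Or.inr ⟨c l, by simpa using hc1 l, rfl⟩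
  · intro l
    exact Or.inl ⟨-c l, by simpa using hc1 l, rfl⟩
  · intro l
    have c1 := continuous_rho (K := K) (κ' l) e
    exact (isClosed_le ((continuous_bf_left K f).comp c1).norm
      (continuous_const.mul c1.norm)).measurableSet
  · intro l
    have c1 := continuous_rho (K := K) (κ l)⁻¹ e
    exact (isClosed_le ((rem K e f).continuous.comp c1).norm
      (continuous_const.mul c1.norm)).measurableSet
  · intro l l' hne
    rw [Set.disjoint_left]
    intro x hx hx'
    have hx0 : rho K x e ≠ 0 := (sysOf h).apply_ne x he0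
    have hxx : bf K (rho K x e) (rho K x e) = 0 := by rw [rho_iso h, hee]
    refine hs1 l l' hne _ hx0 hxx ?_ ?_
    · have h1 : rho K (κ' l * x) e = rho K (κ' l) (rho K x e) := (sysOf h).mul_apply _ _ _
      have h2 : ‖bf K (rho K (κ' l * x) e) f‖ ≤ η * ‖rho K (κ' l * x) e‖ := hx
      rw [h1] at h2
      exact h2
    · have h1 : rho K (κ' l' * x) e = rho K (κ' l') (rho K x e) := (sysOf h).mul_apply _ _ _
      have h2 : ‖bf K (rho K (κ' l' * x) e) f‖ ≤ η * ‖rho K (κ' l' * x) e‖ := hx'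
      rw [h1] at h2
      exact h2
  · intro l l' hne
    rw [Set.disjoint_left]
    intro x hx hx'
    have hx0 : rho K x e ≠ 0 := (sysOf h).apply_ne x he0
    have hxx : bf K (rho K x e) (rho K x e) = 0 := by rw [rho_iso h, hee]
    refine hs2 l l' hne _ hx0 hxx ?_ ?_
    · have h1 : rho K ((κ l)⁻¹ * x) e = rho K (κ l)⁻¹ (rho K x e) := (sysOf h).mul_apply _ _ _
      have h2 : ‖rem K e f (rho K ((κ l)⁻¹ * x) e)‖ ≤ η * ‖rho K ((κ l)⁻¹ * x) e‖ := hx
      rw [h1] at h2
      exact h2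
    · have h1 : rho K ((κ l')⁻¹ * x) e = rho K (κ l')⁻¹ (rho K x e) := (sysOf h).mul_apply _ _ _
      have h2 : ‖rem K e f (rho K ((κ l')⁻¹ * x) e)‖ ≤ η * ‖rho K ((κ l')⁻¹ * x) e‖ := hx'
      rw [h1] at h2
      exact h2
  · intro l x hx
    have hx' : ¬ ‖bf K (rho K (κ' l * x) e) f‖ ≤ η * ‖rho K (κ' l * x) e‖ := hx
    push Not at hx'
    have hg : (κ l)⁻¹ * (κ l * d ^ N * κ' l * x) = d ^ N * (κ' l * x) := by group
    show ‖rem K e f (rho K ((κ l)⁻¹ * (κ l * d ^ N * κ' l * x)) e)‖ ≤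
      η * ‖rho K ((κ l)⁻¹ * (κ l * d ^ N * κ' l * x)) e‖
    rw [hg, (sysOf h).mul_apply (d ^ N) (κ' l * x) e |> (fun q =>
      (show rho K (d ^ N * (κ' l * x)) e = rho K (d ^ N) (rho K (κ' l * x) e) from q))]
    set u := rho K (κ' l * x) e with hu
    have ht0 : t ≠ 0 := by
      rintro rfl
      rw [norm_zero] at ht1
      linarith
    have hdN := hd.pow he ht0 N
    set T := t ^ N with hT
    have hT1 : 1 ≤ ‖T‖ := by rw [hT, norm_pow]; exact one_le_pow₀ ht1.le
    have hT0 : T ≠ 0 := pow_ne_zero _ ht0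
    have hv : rho K (d ^ N) u = u + ((T - 1) * bf K u f) • e + ((T⁻¹ - 1) * bf K u e) • f := hdN u
    have hvf : bf K (rho K (d ^ N) u) f = T * bf K u f := by
      rw [hv]
      simp only [map_add, map_smul, LinearMap.add_apply, LinearMap.smul_apply, smul_eq_mul, hef,
        hff]
      ring
    have hrem : rem K e f (rho K (d ^ N) u) = rem K e f u + (T⁻¹ - 1) • (bf K u e • f) := by
      rw [rem_apply, rem_apply, hvf, hv]
      module
    set C := ‖rem K e f‖ + 2 * (‖pair K e‖ * ‖f‖) with hC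
    have hTi : ‖T⁻¹ - 1‖ ≤ 2 := by
      calc ‖T⁻¹ - 1‖ ≤ ‖T⁻¹‖ + ‖(1 : k)‖ := norm_sub_le _ _
        _ ≤ 1 + 1 := by
          rw [norm_one, norm_inv]
          exact add_le_add (inv_le_one_of_one_le₀ hT1) le_rfl
        _ = 2 := by norm_num
    have h1 : ‖rem K e f (rho K (d ^ N) u)‖ ≤ C * ‖u‖ := by
      rw [hrem]
      calc ‖rem K e f u + (T⁻¹ - 1) • (bf K u e • f)‖ ≤ ‖rem K e f u‖ +
            ‖(T⁻¹ - 1) • (bf K u e • f)‖ := norm_add_le _ _
        _ ≤ ‖rem K e f‖ * ‖u‖ + 2 * (‖pair K e‖ * ‖u‖ * ‖f‖) := by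
            refine add_le_add ((rem K e f).le_opNorm u) ?_
            rw [norm_smul, norm_smul]
            refine mul_le_mul hTi ?_ (by positivity) (by norm_num)
            exact mul_le_mul_of_nonneg_right ((pair K e).le_opNorm u) (norm_nonneg _)
        _ = C * ‖u‖ := by rw [hC]; ring
    have h2 : ‖T‖ * (η * ‖u‖) * ‖e‖ - C * ‖u‖ ≤ ‖rho K (d ^ N) u‖ := by
      have q1 : rho K (d ^ N) u = rem K e f (rho K (d ^ N) u) + (T * bf K u f) • e := by
        rw [rem_apply, hvf]
        abel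
      have q2 : ‖(T * bf K u f) • e‖ ≤ ‖rho K (d ^ N) u‖ + ‖rem K e f (rho K (d ^ N) u)‖ := by
        have q3 : (T * bf K u f) • e = rho K (d ^ N) u - rem K e f (rho K (d ^ N) u) := by
          rw [rem_apply, hvf]
          abel
        rw [q3]
        exact norm_sub_le _ _
      have q4 : ‖T‖ * (η * ‖u‖) * ‖e‖ ≤ ‖(T * bf K u f) • e‖ := by
        rw [norm_smul, norm_mul]
        refine mul_le_mul_of_nonneg_right ?_ (norm_nonneg _)
        exact mul_le_mul_of_nonneg_left hx'.le (norm_nonneg _)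
      linarith
    have h3 : C * (1 + η) ≤ ‖T‖ * (η ^ 2 * ‖e‖) := by
      have q1 : C * (1 + η) / (η ^ 2 * ‖e‖) ≤ ‖t‖ ^ N :=
        hN₀.le.trans (pow_le_pow_right₀ ht1.le hN)
      rw [div_le_iff₀ hpos] at q1
      rw [hT, norm_pow]
      exact q1
    have h4 : 0 ≤ ‖u‖ := norm_nonneg _
    have h5 : C * (1 + η) * ‖u‖ ≤ ‖T‖ * (η ^ 2 * ‖e‖) * ‖u‖ := mul_le_mul_of_nonneg_right h3 h4
    have h6 : η * (‖T‖ * (η * ‖u‖) * ‖e‖ - C * ‖u‖) ≤ η * ‖rho K (d ^ N) u‖ :=
      mul_le_mul_of_nonneg_left h2 hη0.le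
    nlinarith

end one

end Vale.Agent.P092.H899.Ort
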