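import Vale.Agent.P092.H899.Simple

/-!
P092 (helper899), group facts: in `SL_n(k)`, `k` non-archimedean, a subgroup containing all small
elementary matrices is open; the commutator subgroup of an open subgroup is open.
-/

set_option linter.all false

namespace Vale.Agent.P092.H899

open Matrix Matrix.SpecialLinearGroup
open scoped Topology commutatorElement

variable {n : Type*} [Fintype n] [DecidableEq n]

section gauss

variable {k : Type*} [Field k]

theorem exists_row (W : Subgroup (SpecialLinearGroup n k)) (P : k → Prop)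
    (hW : ∀ (i j : n) (h : i ≠ j) (c : k), P c → transvection h c ∈ W) (r : n) (φ : n → k)
    (hφ : ∀ j, j ≠ r → P (φ j)) :
    ∃ w ∈ W, ∀ a l, (w : Matrix n n k) a l =
      (1 : Matrix n n k) a l + if a = r ∧ l ≠ r then φ l else 0 := by
  have key : ∀ T : Finset n, r ∉ T → ∃ w ∈ W, (w : Matrix n n k) =
      1 + ∑ j ∈ T, single r j (φ j) := by
    intro T
    induction T using Finset.induction_on with
    | empty => exact fun _ => ⟨1, W.one_mem, by simp⟩
    | insert j T hj ih =>
      intro hr
      rw [Finset.mem_insert, not_or] at hr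
      obtain ⟨w, hw, e⟩ := ih hr.2
      refine ⟨w * transvection hr.1 (φ j), W.mul_mem hw (hW _ _ _ _ (hφ j (Ne.symm hr.1))), ?_⟩
      show w.1 * (transvection hr.1 (φ j)).1 = _
      have e' : w.1 = 1 + ∑ j ∈ T, single r j (φ j) := e
      rw [e', transvection_coe, Matrix.mul_add, Matrix.mul_one, Matrix.add_mul, Matrix.one_mul,
        Finset.sum_insert hj, Finset.sum_mul]
      rw [Finset.sum_eq_zero (s := T) (f := fun i => single r i (φ i) * single r j (φ j))
        (fun t ht => single_mul_single_of_ne _ _ _ _ (show t ≠ r from fun h => hr.2 (h ▸ ht)) _)]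
      rw [add_zero, add_assoc, add_comm (∑ j ∈ T, single r j (φ j))]
  obtain ⟨w, hw, e⟩ := key (Finset.univ.erase r) (Finset.notMem_erase _ _)
  refine ⟨w, hw, fun a l => ?_⟩
  rw [e, Matrix.add_apply, Matrix.sum_apply]
  congr 1
  by_cases ha : a = r
  · subst ha
    by_cases hl : l = a
    · subst hl
      simp only [ne_eq, not_true_eq_false, and_false, if_false]
      refine Finset.sum_eq_zero fun t ht => ?_
      rw [Matrix.single_apply, if_neg]
      exact fun h => (Finset.ne_of_mem_erase ht) h.2
    · simp only [ne_eq, hl, not_false_eq_true, and_self, if_true]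
      rw [Finset.sum_eq_single l]
      · simp
      · intro t _ htl
        rw [Matrix.single_apply, if_neg]
        exact fun h => htl h.2
      · intro h
        exact absurd (Finset.mem_erase.2 ⟨hl, Finset.mem_univ l⟩) h
  · simp only [ha, false_and, if_false]
    refine Finset.sum_eq_zero fun t _ => ?_
    rw [Matrix.single_apply, if_neg]
    exact fun h => ha h.1.symm

theorem exists_col (W : Subgroup (SpecialLinearGroup n k)) (P : k → Prop)
    (hW : ∀ (i j : n) (h : i ≠ j) (c : k), P c → transvection h c ∈ W) (r : n) (φ : n → k)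
    (hφ : ∀ j, j ≠ r → P (φ j)) :
    ∃ w ∈ W, ∀ a l, (w : Matrix n n k) a l =
      (1 : Matrix n n k) a l + if l = r ∧ a ≠ r then φ a else 0 := by
  have key : ∀ T : Finset n, r ∉ T → ∃ w ∈ W, (w : Matrix n n k) =
      1 + ∑ j ∈ T, single j r (φ j) := by
    intro T
    induction T using Finset.induction_on with
    | empty => exact fun _ => ⟨1, W.one_mem, by simp⟩
    | insert j T hj ih =>
      intro hr
      rw [Finset.mem_insert, not_or] at hr
      obtain ⟨w, hw, e⟩ := ih hr.2
      refine ⟨transvection (Ne.symm hr.1) (φ j) * w,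
        W.mul_mem (hW _ _ _ _ (hφ j (Ne.symm hr.1))) hw, ?_⟩
      show (transvection (Ne.symm hr.1) (φ j)).1 * w.1 = _
      have e' : w.1 = 1 + ∑ j ∈ T, single j r (φ j) := e
      rw [e', transvection_coe, Matrix.add_mul, Matrix.one_mul, Matrix.mul_add, Matrix.mul_one,
        Finset.sum_insert hj, Finset.mul_sum]
      rw [Finset.sum_eq_zero (s := T) (f := fun i => single j r (φ j) * single i r (φ i))
        (fun t ht => single_mul_single_of_ne _ _ _ _ (show r ≠ t from fun h => hr.2 (h ▸ ht)) _)]
      rw [add_zero, add_assoc, add_comm (∑ j ∈ T, single j r (φ j))]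
  obtain ⟨w, hw, e⟩ := key (Finset.univ.erase r) (Finset.notMem_erase _ _)
  refine ⟨w, hw, fun a l => ?_⟩
  rw [e, Matrix.add_apply, Matrix.sum_apply]
  congr 1
  by_cases ha : l = r
  · subst ha
    by_cases hl : a = l
    · subst hl
      simp only [ne_eq, not_true_eq_false, and_false, if_false]
      refine Finset.sum_eq_zero fun t ht => ?_
      rw [Matrix.single_apply, if_neg]
      exact fun h => (Finset.ne_of_mem_erase ht) h.1
    · simp only [ne_eq, hl, not_false_eq_true, and_self, if_true]
      rw [Finset.sum_eq_single a]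
      · simp
      · intro t _ htl
        rw [Matrix.single_apply, if_neg]
        exact fun h => htl h.1
      · intro h
        exact absurd (Finset.mem_erase.2 ⟨hl, Finset.mem_univ a⟩) h
  · simp only [ha, false_and, if_false]
    refine Finset.sum_eq_zero fun t _ => ?_
    rw [Matrix.single_apply, if_neg]
    exact fun h => ha h.2.symm

theorem mul_row_apply (g w : Matrix n n k) (r : n) (φ : n → k)
    (hw : ∀ a l, w a l = (1 : Matrix n n k) a l + if a = r ∧ l ≠ r then φ l else 0) (i l : n) :
    (g * w) i l = g i l + if l ≠ r then g i r * φ l else 0 := by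
  rw [Matrix.mul_apply]
  have : ∀ a, g i a * w a l = g i a * (1 : Matrix n n k) a l +
      g i a * (if a = r ∧ l ≠ r then φ l else 0) := fun a => by rw [hw, mul_add]
  rw [Finset.sum_congr rfl fun a _ => this a, Finset.sum_add_distrib, ← Matrix.mul_apply,
    Matrix.mul_one]
  congr 1
  rw [Finset.sum_eq_single r]
  · by_cases h : l = r <;> simp [h]
  · intro b _ hb
    simp [hb]
  · intro h; exact absurd (Finset.mem_univ r) h

theorem col_mul_apply (g w : Matrix n n k) (r : n) (φ : n → k)
    (hw : ∀ a l, w a l = (1 : Matrix n n k) a l + if l = r ∧ a ≠ r then φ a else 0) (i l : n) :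
    (w * g) i l = g i l + if i ≠ r then φ i * g r l else 0 := by
  rw [Matrix.mul_apply]
  have : ∀ a, w i a * g a l = (1 : Matrix n n k) i a * g a l +
      (if a = r ∧ i ≠ r then φ i else 0) * g a l := fun a => by rw [hw, add_mul]
  rw [Finset.sum_congr rfl fun a _ => this a, Finset.sum_add_distrib, ← Matrix.mul_apply,
    Matrix.one_mul]
  congr 1
  rw [Finset.sum_eq_single r]
  · by_cases h : i = r <;> simp [h]
  · intro b _ hb
    simp [hb]
  · intro h; exact absurd (Finset.mem_univ r) h

end gauss

section ultra

variable {k : Type*} [NormedField k] [IsUltrametricDist k]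

/-- Entrywise closeness to the identity. -/
def Near (ε : ℝ) (g : Matrix n n k) : Prop := ∀ i j, ‖g i j - (1 : Matrix n n k) i j‖ ≤ ε

theorem norm_of_near {ε : ℝ} (hε : ε < 1) {x : k} (h : ‖x - 1‖ ≤ ε) : ‖x‖ = 1 := by
  have h1 : ‖x - 1‖ < ‖(1 : k)‖ := by rw [norm_one]; exact h.trans_lt hε
  have h2 := IsUltrametricDist.norm_add_eq_max_of_norm_ne_norm (x := x - 1) (y := 1) h1.ne
  rw [sub_add_cancel, max_eq_right h1.le, norm_one] at h2
  exact h2

theorem near_entry_le {ε : ℝ} (h0 : 0 ≤ ε) (hε : ε < 1) {g : Matrix n n k} (h : Near ε g) (i j : n) :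
    ‖g i j‖ ≤ 1 := by
  have e : g i j = (g i j - (1 : Matrix n n k) i j) + (1 : Matrix n n k) i j := by ring
  rw [e]
  refine (IsUltrametricDist.norm_add_le_max _ _).trans (max_le ((h i j).trans hε.le) ?_)
  rw [Matrix.one_apply]
  split_ifs <;> simp

theorem near_mem (W : Subgroup (SpecialLinearGroup n k)) {ε : ℝ} (h0 : 0 ≤ ε) (hε : ε < 1)
    (hW : ∀ (i j : n) (h : i ≠ j) (c : k), ‖c‖ ≤ ε → transvection h c ∈ W)
    (hD : ∀ (i j : n) (h : i ≠ j) (x : k) (hx : x ≠ 0), ‖x - 1‖ ≤ ε → diag2n h x hx ∈ W) :
    ∀ g : SpecialLinearGroup n k, Near ε (g : Matrix n n k) → g ∈ W := by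
  have key : ∀ (m : ℕ) (S : Finset n), (Finset.univ \ S).card = m →
      ∀ g : SpecialLinearGroup n k, Near ε (g : Matrix n n k) →
      (∀ i ∈ S, ∀ j, (g : Matrix n n k) i j = (1 : Matrix n n k) i j) →
      (∀ i ∈ S, ∀ j, (g : Matrix n n k) j i = (1 : Matrix n n k) j i) → g ∈ W := by
    intro m
    induction m with
    | zero =>
      intro S hS g hg h1 h2
      rw [Finset.card_eq_zero, Finset.sdiff_eq_empty_iff_subset] at hS
      have : g = 1 := by
        refine Subtype.ext ?_
        ext i j
        exact h1 i (hS (Finset.mem_univ i)) j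
      rw [this]
      exact W.one_mem
    | succ m ih =>
      intro S hS g hg h1 h2
      obtain ⟨r, hr⟩ : (Finset.univ \ S).Nonempty := by
        rw [← Finset.card_pos, hS]; omega
      have hrS : r ∉ S := (Finset.mem_sdiff.1 hr).2
      by_cases hm : ∃ s, s ∉ S ∧ s ≠ r
      · obtain ⟨s, hs, hsr⟩ := hm
        have hx := hg r r
        rw [Matrix.one_apply_eq] at hx
        have hxn := norm_of_near hε hx
        obtain ⟨x, hxe⟩ : ∃ x, x = (g : Matrix n n k) r r := ⟨_, rfl⟩
        rw [← hxe] at hx hxn
        have hx0 : x ≠ 0 := by rw [← norm_pos_iff, hxn]; exact one_pos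
        have hxi : ‖x⁻¹ - 1‖ ≤ ε := by
          have : x⁻¹ - 1 = (1 - x) * x⁻¹ := by field_simp
          rw [this, norm_mul, norm_inv, hxn, inv_one, mul_one, norm_sub_rev]
          exact hx
        have hrs : r ≠ s := Ne.symm hsr
        have hg0 : ∀ i j, i ≠ j → ‖(g : Matrix n n k) i j‖ ≤ ε := fun i j hij => by
          have := hg i j
          rwa [Matrix.one_apply_ne hij, sub_zero] at this
        have hd : diag2n hrs x⁻¹ (inv_ne_zero hx0) ∈ W := hD _ _ _ _ _ hxi
        obtain ⟨g1, hg1⟩ : ∃ g1, g1 = g * diag2n hrs x⁻¹ (inv_ne_zero hx0) := ⟨_, rfl⟩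
        have e1 : ∀ i j, (g1 : Matrix n n k) i j = (g : Matrix n n k) i j *
            (if j = r then x⁻¹ else if j = s then x else 1) := by
          intro i j
          rw [hg1]
          show (g.1 * (diag2n hrs x⁻¹ (inv_ne_zero hx0)).1) i j = _
          rw [diag2n_coe, Matrix.mul_diagonal, inv_inv]
        have g1rr : (g1 : Matrix n n k) r r = 1 := by
          rw [e1, if_pos rfl, ← hxe, mul_inv_cancel₀ hx0]
        have near1 : Near ε (g1 : Matrix n n k) := by
          intro i j
          rw [e1]
          by_cases hj : j = r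
          · subst hj
            rw [if_pos rfl]
            by_cases hi : i = j
            · subst hi
              rw [← hxe, mul_inv_cancel₀ hx0, Matrix.one_apply_eq, sub_self, norm_zero]
              exact h0
            · rw [Matrix.one_apply_ne hi, sub_zero, norm_mul, norm_inv, hxn, inv_one, mul_one]
              exact hg0 i j hi
          · rw [if_neg hj]
            by_cases hjs : j = s
            · subst hjs
              rw [if_pos rfl]
              by_cases hi : i = j
              · subst hi
                have e : (g : Matrix n n k) i i * x - (1 : Matrix n n k) i i =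
                    ((g : Matrix n n k) i i - (1 : Matrix n n k) i i) * x + (x - 1) := by
                  rw [Matrix.one_apply_eq]; ring
                rw [e]
                refine (IsUltrametricDist.norm_add_le_max _ _).trans (max_le ?_ hx)
                rw [norm_mul, hxn, mul_one]
                exact hg i i
              · rw [Matrix.one_apply_ne hi, sub_zero, norm_mul, hxn, mul_one]
                exact hg0 i j hi
            · rw [if_neg hjs, mul_one]
              exact hg i j
        have s1 : ∀ i ∈ S, ∀ j, (g1 : Matrix n n k) i j = (1 : Matrix n n k) i j := by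
          intro i hi j
          rw [e1, h1 i hi j]
          by_cases hij : i = j
          · subst hij
            have a1 : i ≠ r := fun h => hrS (h ▸ hi)
            have a2 : i ≠ s := fun h => hs (h ▸ hi)
            simp [a1, a2]
          · rw [Matrix.one_apply_ne hij, zero_mul]
        have s1' : ∀ i ∈ S, ∀ j, (g1 : Matrix n n k) j i = (1 : Matrix n n k) j i := by
          intro i hi j
          have a1 : i ≠ r := fun h => hrS (h ▸ hi)
          have a2 : i ≠ s := fun h => hs (h ▸ hi)
          rw [e1, h2 i hi j, if_neg a1, if_neg a2, mul_one]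
        have n1 : ∀ i j, i ≠ j → ‖(g1 : Matrix n n k) i j‖ ≤ ε := fun i j hij => by
          have := near1 i j
          rwa [Matrix.one_apply_ne hij, sub_zero] at this
        obtain ⟨w1, hw1, f1⟩ := exists_row W (fun c => ‖c‖ ≤ ε) hW r
          (fun j => -(g1 : Matrix n n k) r j) (fun j hj => by
            rw [norm_neg]; exact n1 r j (Ne.symm hj))
        obtain ⟨g2, hg2⟩ : ∃ g2, g2 = g1 * w1 := ⟨_, rfl⟩
        have e2 : ∀ i l, (g2 : Matrix n n k) i l = (g1 : Matrix n n k) i l +
            if l ≠ r then (g1 : Matrix n n k) i r * -(g1 : Matrix n n k) r l else 0 := by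
          intro i l
          rw [hg2]
          exact mul_row_apply g1.1 w1.1 r _ f1 i l
        have near2 : Near ε (g2 : Matrix n n k) := by
          intro i l
          rw [e2]
          by_cases hl : l = r
          · subst hl
            simpa using near1 i l
          · rw [if_pos hl]
            have e : (g1 : Matrix n n k) i l + (g1 : Matrix n n k) i r * -(g1 : Matrix n n k) r l -
                (1 : Matrix n n k) i l = ((g1 : Matrix n n k) i l - (1 : Matrix n n k) i l) +
                (g1 : Matrix n n k) i r * -(g1 : Matrix n n k) r l := by ring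
            rw [e]
            refine (IsUltrametricDist.norm_add_le_max _ _).trans (max_le (near1 i l) ?_)
            rw [norm_mul, norm_neg]
            calc ‖(g1 : Matrix n n k) i r‖ * ‖(g1 : Matrix n n k) r l‖ ≤ 1 * ε :=
                  mul_le_mul (near_entry_le h0 hε near1 i r) (n1 r l (Ne.symm hl)) (norm_nonneg _)
                    zero_le_one
              _ = ε := one_mul ε
        have r2 : ∀ l, (g2 : Matrix n n k) r l = (1 : Matrix n n k) r l := by
          intro l
          rw [e2, g1rr]
          by_cases hl : l = r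
          · subst hl; simpa using g1rr
          · rw [if_pos hl, one_mul, add_neg_cancel, Matrix.one_apply_ne (Ne.symm hl)]
        have s2 : ∀ i ∈ S, ∀ j, (g2 : Matrix n n k) i j = (1 : Matrix n n k) i j := by
          intro i hi j
          have a1 : i ≠ r := fun h => hrS (h ▸ hi)
          rw [e2, s1 i hi j, s1 i hi r, Matrix.one_apply_ne a1, zero_mul]
          simp
        have s2' : ∀ i ∈ S, ∀ j, (g2 : Matrix n n k) j i = (1 : Matrix n n k) j i := by
          intro i hi j
          have a1 : i ≠ r := fun h => hrS (h ▸ hi)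
          rw [e2, s1' i hi j, s1' i hi r, Matrix.one_apply_ne (Ne.symm a1), neg_zero, mul_zero]
          simp
        have n2 : ∀ i j, i ≠ j → ‖(g2 : Matrix n n k) i j‖ ≤ ε := fun i j hij => by
          have := near2 i j
          rwa [Matrix.one_apply_ne hij, sub_zero] at this
        obtain ⟨w2, hw2, f2⟩ := exists_col W (fun c => ‖c‖ ≤ ε) hW r
          (fun j => -(g2 : Matrix n n k) j r) (fun j hj => by
            rw [norm_neg]; exact n2 j r hj)
        obtain ⟨g3, hg3⟩ : ∃ g3, g3 = w2 * g2 := ⟨_, rfl⟩
        have e3 : ∀ i l, (g3 : Matrix n n k) i l = (g2 : Matrix n n k) i l +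
            if i ≠ r then -(g2 : Matrix n n k) i r * (g2 : Matrix n n k) r l else 0 := by
          intro i l
          rw [hg3]
          exact col_mul_apply g2.1 w2.1 r _ f2 i l
        have near3 : Near ε (g3 : Matrix n n k) := by
          intro i l
          rw [e3]
          by_cases hi : i = r
          · subst hi
            simpa using near2 i l
          · rw [if_pos hi]
            have e : (g2 : Matrix n n k) i l + -(g2 : Matrix n n k) i r * (g2 : Matrix n n k) r l -
                (1 : Matrix n n k) i l = ((g2 : Matrix n n k) i l - (1 : Matrix n n k) i l) +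
                -(g2 : Matrix n n k) i r * (g2 : Matrix n n k) r l := by ring
            rw [e]
            refine (IsUltrametricDist.norm_add_le_max _ _).trans (max_le (near2 i l) ?_)
            rw [norm_mul, norm_neg]
            calc ‖(g2 : Matrix n n k) i r‖ * ‖(g2 : Matrix n n k) r l‖ ≤ ε * 1 :=
                  mul_le_mul (n2 i r hi) (near_entry_le h0 hε near2 r l) (norm_nonneg _) h0
              _ = ε := mul_one ε
        have r3 : ∀ l, (g3 : Matrix n n k) r l = (1 : Matrix n n k) r l := by
          intro l
          rw [e3, r2]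
          simp
        have c3 : ∀ i, (g3 : Matrix n n k) i r = (1 : Matrix n n k) i r := by
          intro i
          rw [e3, r2]
          by_cases hi : i = r
          · subst hi; simpa using r2 i
          · rw [if_pos hi, Matrix.one_apply_eq, mul_one, add_neg_cancel, Matrix.one_apply_ne hi]
        have s3 : ∀ i ∈ S, ∀ j, (g3 : Matrix n n k) i j = (1 : Matrix n n k) i j := by
          intro i hi j
          have a1 : i ≠ r := fun h => hrS (h ▸ hi)
          rw [e3, s2 i hi j, s2 i hi r, Matrix.one_apply_ne a1, neg_zero, zero_mul]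
          simp
        have s3' : ∀ i ∈ S, ∀ j, (g3 : Matrix n n k) j i = (1 : Matrix n n k) j i := by
          intro i hi j
          have a1 : i ≠ r := fun h => hrS (h ▸ hi)
          rw [e3, s2' i hi j, r2 i, Matrix.one_apply_ne (Ne.symm a1), mul_zero]
          simp
        have hcard : (Finset.univ \ insert r S).card = m := by
          rw [Finset.sdiff_insert, Finset.card_erase_of_mem hr, hS]
          rfl
        have h3 : g3 ∈ W := ih (insert r S) hcard g3 near3
          (fun i hi j => by
            rcases Finset.mem_insert.1 hi with h | h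
            · rw [h]; exact r3 j
            · exact s3 i h j)
          (fun i hi j => by
            rcases Finset.mem_insert.1 hi with h | h
            · rw [h]; exact c3 j
            · exact s3' i h j)
        have eg : g = w2⁻¹ * g3 * w1⁻¹ * (diag2n hrs x⁻¹ (inv_ne_zero hx0))⁻¹ := by
          rw [hg3, hg2, hg1]; group
        rw [eg]
        exact W.mul_mem (W.mul_mem (W.mul_mem (W.inv_mem hw2) h3) (W.inv_mem hw1)) (W.inv_mem hd)
      · push Not at hm
        have hS1 : ∀ i, i ≠ r → i ∈ S := fun i hi => by
          by_contra h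
          exact hi (hm i h)
        have hdiag : (g : Matrix n n k) = Matrix.diagonal fun i => (g : Matrix n n k) i i := by
          ext i j
          by_cases hij : i = j
          · subst hij; simp
          · rw [Matrix.diagonal_apply_ne _ hij]
            by_cases hi : i = r
            · subst hi
              rw [h2 j (hS1 j (Ne.symm hij)), Matrix.one_apply_ne hij]
            · rw [h1 i (hS1 i hi), Matrix.one_apply_ne hij]
        have hdet : (g : Matrix n n k) r r = 1 := by
          have := g.2
          rw [show g.1 = Matrix.diagonal fun i => (g : Matrix n n k) i i from hdiag,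
            Matrix.det_diagonal, ← Finset.mul_prod_erase _ _ (Finset.mem_univ r),
            Finset.prod_eq_one, mul_one] at this
          · exact this
          · intro i hi
            rw [h1 i (hS1 i (Finset.ne_of_mem_erase hi)), Matrix.one_apply_eq]
        have : g = 1 := by
          refine Subtype.ext ?_
          ext i j
          by_cases hi : i = r
          · subst hi
            by_cases hj : j = i
            · subst hj
              simpa using hdet
            · exact h2 j (hS1 j hj) i
          · exact h1 i (hS1 i hi) j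
        rw [this]
        exact W.one_mem
  intro g hg
  exact key _ ∅ rfl g hg (by simp) (by simp)

end ultra

section top

variable {k : Type*} [NontriviallyNormedField k]

/-- The identity matrix as an element of the function space. -/
def oneF (n k : Type*) [DecidableEq n] [NormedField k] : n → n → k :=
  fun i j => (1 : Matrix n n k) i j

theorem exists_near {U : Set (SpecialLinearGroup n k)} (hU : U ∈ 𝓝 (1 : SpecialLinearGroup n k)) :
    ∃ ε : ℝ, 0 < ε ∧ ε < 1 ∧ ∀ g : SpecialLinearGroup n k, Near ε (g : Matrix n n k) → g ∈ U := by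
  obtain ⟨u, hu, hsub⟩ := mem_nhds_subtype _ _ _ |>.1 hU
  obtain ⟨ε, hε, h⟩ := (Metric.nhds_basis_closedBall (x := oneF n k)).mem_iff.1 hu
  refine ⟨min ε (1 / 2), lt_min hε (by norm_num), (min_le_right _ _).trans_lt (by norm_num),
    fun g hg => hsub (h ?_)⟩
  have h1 : dist (fun i j => (g : Matrix n n k) i j : n → n → k) (oneF n k) ≤ ε := by
    rw [dist_pi_le_iff hε.le]
    intro i
    rw [dist_pi_le_iff hε.le]
    intro j
    rw [dist_eq_norm]
    exact (hg i j).trans (min_le_left _ _)
  exact h1

theorem mem_nhds_of_near {U : Set (SpecialLinearGroup n k)} {ε : ℝ} (hε : 0 < ε)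
    (h : ∀ g : SpecialLinearGroup n k, Near ε (g : Matrix n n k) → g ∈ U) :
    U ∈ 𝓝 (1 : SpecialLinearGroup n k) := by
  obtain ⟨B, hB⟩ : ∃ B : Set (n → n → k), B = Metric.closedBall (oneF n k) ε := ⟨_, rfl⟩
  have hb : B ∈ 𝓝 (oneF n k) := by rw [hB]; exact Metric.closedBall_mem_nhds _ hε
  refine (mem_nhds_subtype _ _ _).2 ⟨B, hb, fun g hg => h g fun i j => ?_⟩
  have h1 : dist (fun i j => (g : Matrix n n k) i j : n → n → k) (oneF n k) ≤ ε := by
    have h0 : (fun i j => (g : Matrix n n k) i j : n → n → k) ∈ B := hg
    rw [hB] at h0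
    exact h0
  rw [dist_pi_le_iff hε.le] at h1
  have h2 := h1 i
  rw [dist_pi_le_iff hε.le] at h2
  have h3 := h2 j
  rw [dist_eq_norm] at h3
  exact h3

variable [IsUltrametricDist k]

theorem near_transvection {ε : ℝ} (h0 : 0 ≤ ε) {i j : n} (hij : i ≠ j) {c : k} (hc : ‖c‖ ≤ ε) :
    Near ε (transvection hij c : Matrix n n k) := by
  intro p q
  rw [transvection_coe, Matrix.add_apply, add_sub_cancel_left, Matrix.single_apply]
  split_ifs
  · exact hc
  · rw [norm_zero]; exact h0

theorem near_diag2n {ε : ℝ} (h0 : 0 ≤ ε) (h1 : ε < 1) {i j : n} (hij : i ≠ j) {x : k} (hx : x ≠ 0)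
    (hc : ‖x - 1‖ ≤ ε) : Near ε (diag2n hij x hx : Matrix n n k) := by
  intro p q
  have hxi : ‖x⁻¹ - 1‖ ≤ ε := by
    have : x⁻¹ - 1 = (1 - x) * x⁻¹ := by field_simp
    rw [this, norm_mul, norm_inv, norm_of_near h1 hc, inv_one, mul_one, norm_sub_rev]
    exact hc
  rw [diag2n_coe]
  by_cases hpq : p = q
  · subst hpq
    rw [Matrix.diagonal_apply_eq, Matrix.one_apply_eq]
    split_ifs
    · exact hc
    · exact hxi
    · rw [sub_self, norm_zero]; exact h0
  · rw [Matrix.diagonal_apply_ne _ hpq, Matrix.one_apply_ne hpq, sub_self, norm_zero]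
    exact h0

/-- The subgroup generated by small elementary matrices is open. -/
theorem isOpen_of_small (W : Subgroup (SpecialLinearGroup n k)) {δ : ℝ} (hδ : 0 < δ)
    (hW : ∀ (i j : n) (h : i ≠ j) (c : k), ‖c‖ ≤ δ → transvection h c ∈ W) :
    IsOpen (W : Set (SpecialLinearGroup n k)) := by
  obtain ⟨δ', hδ', hδ1, hδd⟩ : ∃ δ' : ℝ, 0 < δ' ∧ δ' < 1 ∧ δ' ≤ δ :=
    ⟨min δ (1 / 2), lt_min hδ (by norm_num), (min_le_right _ _).trans_lt (by norm_num),
      min_le_left _ _⟩
  obtain ⟨β, hβ0, hβ⟩ := NormedField.exists_norm_lt k hδ'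
  have hβn : β ≠ 0 := norm_pos_iff.1 hβ0
  have hη : 0 < δ' * ‖β‖ := mul_pos hδ' hβ0
  have hη1 : δ' * ‖β‖ < 1 := by nlinarith
  have hηδ : δ' * ‖β‖ ≤ δ := by nlinarith
  refine W.isOpen_of_mem_nhds (g := 1) (mem_nhds_of_near hη (near_mem W hη.le hη1
    (fun i j h c hc => hW i j h c (hc.trans hηδ)) ?_))
  intro i j h x hx hx1
  have hxn := norm_of_near hη1 hx1
  have ha : ‖(x - 1) / β‖ ≤ δ := by
    rw [norm_div, div_le_iff₀ hβ0]
    exact hx1.trans (mul_le_mul_of_nonneg_right hδd hβ0.le)
  rw [diag2n_eq h ((x - 1) / β) β x hx (div_mul_cancel₀ _ hβn)]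
  refine W.mul_mem (W.mul_mem (W.mul_mem (hW _ _ _ _ ha) (hW _ _ _ _ (hβ.le.trans hδd)))
    (hW _ _ _ _ ?_)) (hW _ _ _ _ ?_)
  · rw [norm_neg, norm_div _ x, hxn, div_one]
    exact ha
  · rw [norm_neg, norm_mul, hxn, mul_one]
    exact hβ.le.trans hδd

/-- **GF3.** The commutator subgroup of an open subgroup of `SL_n(k)` is open. -/
theorem isOpen_commutator (U : Subgroup (SpecialLinearGroup n k))
    (hU : IsOpen (U : Set (SpecialLinearGroup n k))) :
    IsOpen ((⁅U, U⁆ : Subgroup (SpecialLinearGroup n k)) : Set (SpecialLinearGroup n k)) := by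
  classical
  obtain ⟨ε, hε, hε1, hn⟩ := exists_near (hU.mem_nhds U.one_mem)
  -- an element close to one whose square is not one
  obtain ⟨x, hx0, hx1, hx2⟩ : ∃ x : k, x ≠ 0 ∧ ‖x - 1‖ ≤ ε ∧ x ^ 2 - 1 ≠ 0 := by
    have hr : 0 < (if (2 : k) = 0 then ε else min ε ‖(2 : k)‖) := by
      split_ifs with h
      · exact hε
      · exact lt_min hε (norm_pos_iff.2 h)
    obtain ⟨p, hp0, hp⟩ := NormedField.exists_norm_lt k hr
    have hpn : p ≠ 0 := norm_pos_iff.1 hp0
    have hpe : ‖p‖ ≤ ε := by
      refine hp.le.trans ?_
      split_ifs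
      · exact le_rfl
      · exact min_le_left _ _
    refine ⟨1 + p, ?_, by rw [add_sub_cancel_left]; exact hpe, ?_⟩
    · rw [← norm_pos_iff, norm_of_near hε1 (by rw [add_sub_cancel_left]; exact hpe)]
      exact one_pos
    · have e : (1 + p) ^ 2 - 1 = p * (2 + p) := by ring
      rw [e]
      refine mul_ne_zero hpn fun h => ?_
      by_cases h2 : (2 : k) = 0
      · rw [h2, zero_add] at h
        exact hpn h
      · rw [if_neg h2] at hp
        have h3 : ‖p‖ < ‖(2 : k)‖ := hp.trans_le (min_le_right _ _)
        have h4 : p = -2 := by linear_combination h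
        rw [h4, norm_neg] at h3
        exact lt_irrefl _ h3
  have hδ : 0 < ε * ‖x ^ 2 - 1‖ := mul_pos hε (norm_pos_iff.2 hx2)
  refine isOpen_of_small _ hδ fun i j h c hc => ?_
  have hc' : ‖c / (x ^ 2 - 1)‖ ≤ ε := by
    rw [norm_div, div_le_iff₀ (norm_pos_iff.2 hx2)]
    exact hc
  have e := comm_diag2n h x hx0 (c / (x ^ 2 - 1))
  rw [mul_div_cancel₀ c hx2] at e
  rw [← e]
  exact Subgroup.commutator_mem_commutator (hn _ (near_diag2n hε.le hε1 h hx0 hx1))
    (hn _ (near_transvection hε.le h hc'))

end top

end Vale.Agent.P092.H899
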