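import Vale.Agent.P092.H100.Gr2
import Vale.Agent.P092.H337.NGf

/-!
P092, Team P, block [P-TGT] (helper899), part 1: closeness in the Grassmannian, attracting
subspaces of matrices.
-/

set_option linter.all false

open Matrix Topology Module Set Filter

namespace Vale.Agent.P092.H899.T

open Vale.Agent.P092.H100.Gr (Gr Fr sp sp_surj sp_open sp_cont sp_oq mn mn_cont mem_span_iff
  fr_val_cont eq_of_le)
open Vale.Agent.P092.H337.NG

section near

variable {k : Type*} [NontriviallyNormedField k] {ι : Type*} [Fintype ι] {j : ℕ}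

/-- `L'` is `δ`-near to `L`: a unit vector of `L` is at distance at most `δ` of `L'`. -/
def Nr (δ : ℝ) (L L' : Submodule k (ι → k)) : Prop :=
  ∀ w ∈ L, ∃ w' ∈ L', ‖w - w'‖ ≤ δ * ‖w‖

theorem Nr.mono {δ δ' : ℝ} (h : δ ≤ δ') {L L' : Submodule k (ι → k)} (hL : Nr δ L L') :
    Nr δ' L L' := fun w hw => by
  obtain ⟨w', h1, h2⟩ := hL w hw
  exact ⟨w', h1, h2.trans (mul_le_mul_of_nonneg_right h (norm_nonneg _))⟩

theorem mem_closed : IsClosed {p : (ι → k) × Gr k ι j | p.1 ∈ p.2.1} := by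
  have hq : IsOpenQuotientMap (Prod.map (id : (ι → k) → (ι → k)) (sp : Fr k ι j → Gr k ι j)) :=
    IsOpenQuotientMap.id.prodMap sp_oq
  rw [← hq.isQuotientMap.isClosed_preimage]
  have e : Prod.map (id : (ι → k) → (ι → k)) (sp : Fr k ι j → Gr k ι j) ⁻¹'
      {p : (ι → k) × Gr k ι j | p.1 ∈ p.2.1} =
      ⋂ I : Fin (j + 1) → ι, {p : (ι → k) × Fr k ι j | mn I (Fin.cons p.1 p.2.1) = 0} := by
    ext p
    simp only [mem_iInter]
    exact mem_span_iff p.2.2 _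
  rw [e]
  refine isClosed_iInter fun I => isClosed_eq ?_ continuous_const
  refine (mn_cont I).comp ?_
  refine continuous_pi fun c => ?_
  refine Fin.cases ?_ (fun c => ?_) c
  · simp only [Fin.cons_zero]
    exact continuous_fst
  · simp only [Fin.cons_succ]
    exact (continuous_apply c).comp (fr_val_cont.comp continuous_snd)

/-- Subspaces near to two subspaces which are not contained one in the other are not near. -/
theorem not_nr {L₀ L₀' : Gr k ι j} (h : ¬ L₀.1 ≤ L₀'.1) :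
    ∃ U ∈ 𝓝 (L₀, L₀'), ∃ δ > 0, ∀ q ∈ U, ¬ Nr δ q.1.1 q.2.1 := by
  obtain ⟨w, hw, hw'⟩ := SetLike.not_le_iff_exists.1 h
  have h1 : {p : (ι → k) × Gr k ι j | p.1 ∈ p.2.1}ᶜ ∈ 𝓝 (w, L₀') :=
    mem_closed.isOpen_compl.mem_nhds hw'
  obtain ⟨O, hO, O', hO', hOO⟩ := mem_nhds_prod_iff.1 h1
  obtain ⟨r, hr, hrO⟩ := Metric.mem_nhds_iff.1 hO
  obtain ⟨v, hv⟩ := sp_surj L₀
  have hwv : w ∈ Submodule.span k (range v.1) := by
    rw [← hv] at hw
    exact hw
  obtain ⟨c, hc⟩ := (Submodule.mem_span_range_iff_exists_fun k).1 hwv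
  obtain ⟨Φ, hΦ⟩ : ∃ Φ : Fr k ι j → (ι → k), Φ = fun v' => ∑ i, c i • v'.1 i := ⟨_, rfl⟩
  have hΦc : Continuous Φ := by
    rw [hΦ]
    refine continuous_finset_sum _ fun i _ => ?_
    exact ((continuous_apply i).comp fr_val_cont).const_smul (c i)
  have hΦv : Φ v = w := by rw [hΦ]; exact hc
  have hmem : ∀ v' : Fr k ι j, Φ v' ∈ (sp v').1 := fun v' => by
    rw [hΦ]
    exact Submodule.sum_mem _ fun i _ => Submodule.smul_mem _ _ (Submodule.subset_span ⟨i, rfl⟩)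
  have hU : IsOpen (Φ ⁻¹' Metric.ball w (r / 2)) := Metric.isOpen_ball.preimage hΦc
  have h2 : sp '' (Φ ⁻¹' Metric.ball w (r / 2)) ∈ 𝓝 L₀ :=
    (sp_open _ hU).mem_nhds ⟨v, by
      rw [mem_preimage, hΦv]
      exact Metric.mem_ball_self (by positivity), hv⟩
  have hwr : 0 < ‖w‖ + r := by positivity
  refine ⟨(sp '' (Φ ⁻¹' Metric.ball w (r / 2))) ×ˢ O', prod_mem_nhds h2 hO',
    r / 2 / (‖w‖ + r), by positivity, ?_⟩
  rintro ⟨L, L'⟩ ⟨⟨v', hv', rfl⟩, hL'⟩ hn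
  obtain ⟨w', hw'L, hd⟩ := hn (Φ v') (hmem v')
  have a1 : ‖Φ v' - w‖ < r / 2 := by
    rw [← dist_eq_norm]
    exact hv'
  have a2 : ‖Φ v'‖ ≤ ‖w‖ + r := by
    calc ‖Φ v'‖ = ‖w + (Φ v' - w)‖ := by rw [add_sub_cancel]
      _ ≤ ‖w‖ + ‖Φ v' - w‖ := norm_add_le _ _
      _ ≤ ‖w‖ + r := by linarith
  have a3 : ‖Φ v' - w'‖ ≤ r / 2 := by
    refine hd.trans ?_
    calc r / 2 / (‖w‖ + r) * ‖Φ v'‖ ≤ r / 2 / (‖w‖ + r) * (‖w‖ + r) := by gcongr
      _ = r / 2 := by field_simp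
  have a4 : ‖w' - w‖ < r := by
    calc ‖w' - w‖ = ‖(Φ v' - w) - (Φ v' - w')‖ := by congr 1; abel
      _ ≤ ‖Φ v' - w‖ + ‖Φ v' - w'‖ := norm_sub_le _ _
      _ < r := by linarith
  have a5 : w' ∈ Metric.ball w r := by
    rw [Metric.mem_ball, dist_eq_norm]
    exact a4
  exact hOO (mk_mem_prod (hrO a5) hL') hw'L

/-- **Uniform continuity** on a compact space of subspaces. -/
theorem uc_near {Y F : Type*} [TopologicalSpace Y] [CompactSpace Y] [PseudoMetricSpace F]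
    {i : Y → Gr k ι j} (hi : Continuous i) (hinj : Function.Injective i) {f : Y → F}
    (hf : Continuous f) {ε : ℝ} (hε : 0 < ε) :
    ∃ δ : ℝ, 0 < δ ∧ ∀ y y' : Y, Nr δ (i y).1 (i y').1 → dist (f y) (f y') < ε := by
  have hD : IsCompact {p : Y × Y | ε ≤ dist (f p.1) (f p.2)} :=
    (isClosed_le continuous_const
      ((hf.comp continuous_fst).dist (hf.comp continuous_snd))).isCompact
  have key : ∃ δ : ℝ, 0 < δ ∧ ∀ p ∈ {p : Y × Y | ε ≤ dist (f p.1) (f p.2)},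
      ¬ Nr δ (i p.1).1 (i p.2).1 := by
    refine hD.induction_on (p := fun S => ∃ δ : ℝ, 0 < δ ∧ ∀ p ∈ S,
      ¬ Nr δ (i p.1).1 (i p.2).1) ?_ ?_ ?_ ?_
    · exact ⟨1, one_pos, fun p hp => absurd hp (notMem_empty p)⟩
    · rintro s t hst ⟨δ, hδ, h⟩
      exact ⟨δ, hδ, fun p hp => h p (hst hp)⟩
    · rintro s t ⟨δ, hδ, h⟩ ⟨δ', hδ', h'⟩
      refine ⟨min δ δ', lt_min hδ hδ', fun p hp hn => ?_⟩
      rcases hp with hp | hp
      · exact h p hp (hn.mono (min_le_left _ _))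
      · exact h' p hp (hn.mono (min_le_right _ _))
    · intro p hp
      have hne : p.1 ≠ p.2 := by
        intro he
        have hp' : ε ≤ dist (f p.1) (f p.2) := hp
        rw [he, dist_self] at hp'
        linarith
      have hnl : ¬ (i p.1).1 ≤ (i p.2).1 := fun hle => hne (hinj (eq_of_le hle))
      obtain ⟨U, hU, δ, hδ, h⟩ := not_nr hnl
      exact ⟨_, mem_nhdsWithin_of_mem_nhds ((hi.prodMap hi).continuousAt.preimage_mem_nhds hU),
        δ, hδ, fun q hq => h _ hq⟩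
  obtain ⟨δ, hδ, h⟩ := key
  refine ⟨δ, hδ, fun y y' hn => ?_⟩
  by_contra hc
  push Not at hc
  exact h (y, y') hc hn

end near

section att

variable {k : Type*} [NontriviallyNormedField k] {n : ℕ}

/-- The subspace `L` is attracting for the matrix `z`, with error `r`. -/
def Atr (r : ℝ) (z : Matrix (Fin n) (Fin n) k) (L : Submodule k (Fin n → k)) : Prop :=
  ∃ A : Matrix (Fin n) (Fin n) k, (∀ v, A *ᵥ v ∈ L) ∧ ∀ v, ‖z *ᵥ v - A *ᵥ v‖ ≤ r * ‖v‖

/-- `z` expands some subspace of dimension `d` by `c` at least. -/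
def Xp (c : ℝ) (d : ℕ) (z : Matrix (Fin n) (Fin n) k) : Prop :=
  ∃ V : Submodule k (Fin n → k), finrank k V = d ∧ ∀ v ∈ V, c * ‖v‖ ≤ ‖z *ᵥ v‖

theorem Atr.mono {r r' : ℝ} (h : r ≤ r') {z : Matrix (Fin n) (Fin n) k}
    {L : Submodule k (Fin n → k)} (hL : Atr r z L) : Atr r' z L := by
  obtain ⟨A, h1, h2⟩ := hL
  exact ⟨A, h1, fun v => (h2 v).trans (mul_le_mul_of_nonneg_right h (norm_nonneg _))⟩

theorem Xp.mono {c c' : ℝ} (h : c' ≤ c) {d : ℕ} {z : Matrix (Fin n) (Fin n) k}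
    (hX : Xp c d z) : Xp c' d z := by
  obtain ⟨V, h1, h2⟩ := hX
  exact ⟨V, h1, fun v hv => (mul_le_mul_of_nonneg_right h (norm_nonneg _)).trans (h2 v hv)⟩

/-- **Two attracting subspaces of the same matrix are near.** -/
theorem nr_of_atr {z : Matrix (Fin n) (Fin n) k} {L L' : Submodule k (Fin n → k)} {c r : ℝ}
    {d : ℕ} (h0 : 0 ≤ r) (hr : r < c) (hd : finrank k L = d) (hX : Xp c d z) (hL : Atr r z L)
    (hL' : Atr r z L') : Nr (2 * r / (c - r)) L L' := by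
  obtain ⟨V, hV, hc⟩ := hX
  obtain ⟨A, hA, h⟩ := hL
  obtain ⟨A', hA', h'⟩ := hL'
  have hcr : 0 < c - r := by linarith
  have low : ∀ v ∈ V, (c - r) * ‖v‖ ≤ ‖A *ᵥ v‖ := by
    intro v hv
    have h1 := hc v hv
    have h2 := h v
    have h3 : ‖z *ᵥ v‖ ≤ ‖z *ᵥ v - A *ᵥ v‖ + ‖A *ᵥ v‖ := by
      calc ‖z *ᵥ v‖ = ‖(z *ᵥ v - A *ᵥ v) + A *ᵥ v‖ := by rw [sub_add_cancel]
        _ ≤ _ := norm_add_le _ _
    have e : (c - r) * ‖v‖ = c * ‖v‖ - r * ‖v‖ := by ring
    rw [e]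
    linarith
  let F : V →ₗ[k] L :=
    { toFun := fun v => ⟨A *ᵥ v.1, hA v.1⟩
      map_add' := fun a b => Subtype.ext (mulVec_add A a.1 b.1)
      map_smul' := fun t a => Subtype.ext (mulVec_smul A t a.1) }
  have hF : Function.Injective F := by
    rw [injective_iff_map_eq_zero]
    intro v hv
    have h1 : A *ᵥ v.1 = 0 := congrArg Subtype.val hv
    have h2 := low v.1 v.2
    rw [h1, norm_zero] at h2
    have h3 : ‖v.1‖ ≤ 0 := by
      by_contra hcon
      push Not at hcon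
      have := mul_pos hcr hcon
      linarith
    exact Subtype.ext (norm_le_zero_iff.1 h3)
  have hFs : Function.Surjective F :=
    (LinearMap.injective_iff_surjective_of_finrank_eq_finrank (hV.trans hd.symm)).1 hF
  intro w hw
  obtain ⟨v, hv⟩ := hFs ⟨w, hw⟩
  have hv' : A *ᵥ v.1 = w := congrArg Subtype.val hv
  refine ⟨A' *ᵥ v.1, hA' v.1, ?_⟩
  have h1 := low v.1 v.2
  rw [hv'] at h1
  have h2 := h v.1
  have h3 := h' v.1
  have h4 : ‖w - A' *ᵥ v.1‖ ≤ 2 * r * ‖v.1‖ := by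
    calc ‖w - A' *ᵥ v.1‖ = ‖(z *ᵥ v.1 - A' *ᵥ v.1) - (z *ᵥ v.1 - A *ᵥ v.1)‖ := by
          rw [← hv']; congr 1; abel
      _ ≤ ‖z *ᵥ v.1 - A' *ᵥ v.1‖ + ‖z *ᵥ v.1 - A *ᵥ v.1‖ := norm_sub_le _ _
      _ ≤ _ := by linarith
  refine h4.trans ?_
  rw [div_mul_eq_mul_div, le_div_iff₀ hcr]
  calc 2 * r * ‖v.1‖ * (c - r) = 2 * r * ((c - r) * ‖v.1‖) := by ring
    _ ≤ 2 * r * ‖w‖ := by gcongr

/-- Transport by a linear map. -/
theorem Atr.mul {r : ℝ} (hr : 0 ≤ r) {x : Matrix (Fin n) (Fin n) k}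
    {L : Submodule k (Fin n → k)} (hL : Atr r x L) (s u : Matrix (Fin n) (Fin n) k) :
    Atr (n ^ 2 * (en s * en u) * r) (s * x * u) (L.map s.mulVecLin) := by
  obtain ⟨A, hA, h⟩ := hL
  have hn0 : (0 : ℝ) ≤ n := Nat.cast_nonneg n
  refine ⟨s * A * u, fun v => ?_, fun v => ?_⟩
  · refine ⟨A *ᵥ (u *ᵥ v), hA _, ?_⟩
    rw [mulVecLin_apply, mulVec_mulVec, mulVec_mulVec, Matrix.mul_assoc]
  · have e : (s * x * u) *ᵥ v - (s * A * u) *ᵥ v =
        s *ᵥ (x *ᵥ (u *ᵥ v) - A *ᵥ (u *ᵥ v)) := by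
      rw [mulVec_sub]
      simp only [mulVec_mulVec, Matrix.mul_assoc]
    rw [e]
    have h1 := norm_mulVec_le s (x *ᵥ (u *ᵥ v) - A *ᵥ (u *ᵥ v))
    have h2 := h (u *ᵥ v)
    have h3 := norm_mulVec_le u v
    have h4 := en_nonneg s
    calc _ ≤ n * (en s * ‖x *ᵥ (u *ᵥ v) - A *ᵥ (u *ᵥ v)‖) := h1
      _ ≤ n * (en s * (r * (n * (en u * ‖v‖)))) := by
          refine mul_le_mul_of_nonneg_left (mul_le_mul_of_nonneg_left (h2.trans ?_) h4) hn0
          exact mul_le_mul_of_nonneg_left h3 hr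
      _ = _ := by ring

theorem Atr.smul {r : ℝ} {x : Matrix (Fin n) (Fin n) k} {L : Submodule k (Fin n → k)}
    (hL : Atr r x L) {c : k} (hc : ‖c‖ = 1) : Atr r (c • x) L := by
  obtain ⟨A, hA, h⟩ := hL
  refine ⟨c • A, fun v => ?_, fun v => ?_⟩
  · rw [smul_mulVec]
    exact L.smul_mem _ (hA v)
  · rw [smul_mulVec, smul_mulVec, ← smul_sub, norm_smul, hc, one_mul]
    exact h v

/-- The action of `SL_n` on the subspaces. -/
theorem smul_gr {d : ℕ} (s : SLn k n) (L : Gr k (Fin n) d) :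
    (s • L).1 = L.1.map s.1.mulVecLin := by
  ext v
  constructor
  · rintro ⟨w, hw, rfl⟩
    exact ⟨w, hw, rfl⟩
  · rintro ⟨w, hw, rfl⟩
    exact ⟨w, hw, rfl⟩

/-- Transport by elements of the group, modulo scalars. -/
theorem Atr.eqv [NeZero n] {r : ℝ} (hr : 0 ≤ r) {d : ℕ} {x z : SLn k n} {L : Gr k (Fin n) d}
    (hL : Atr r x.1 L.1) {s u : SLn k n} (hz : Eqv z (s * x * u)) :
    Atr (n ^ 2 * (en s.1 * en u.1) * r) z.1 (s • L).1 := by
  obtain ⟨c, hc⟩ := hz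
  rw [hc, smul_gr]
  exact (hL.mul hr s.1 u.1).smul (scalar_norm hc)

/-- Expansion: one column. -/
theorem xp_one [NeZero n] (z : SLn k n) : Xp (en z.1) 1 z.1 := by
  refine ⟨Submodule.span k {Pi.single (piv z).2 1}, ?_, fun v hv => ?_⟩
  · refine finrank_span_singleton fun h => ?_
    have := congrFun h (piv z).2
    rw [Pi.single_eq_same, Pi.zero_apply] at this
    exact one_ne_zero this
  · obtain ⟨a, rfl⟩ := Submodule.mem_span_singleton.1 hv
    rw [mulVec_smul, norm_smul, norm_smul, ← vc_eq, norm_vc]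
    have h1 : ‖(Pi.single (piv z).2 (1 : k) : Fin n → k)‖ ≤ 1 := by
      rw [pi_norm_le_iff_of_nonneg zero_le_one]
      intro i
      by_cases hi : i = (piv z).2
      · rw [hi, Pi.single_eq_same, norm_one]
      · rw [Pi.single_eq_of_ne hi, norm_zero]
        exact zero_le_one
    have h2 := en_nonneg z.1
    calc en z.1 * (‖a‖ * _) ≤ en z.1 * (‖a‖ * 1) := by gcongr
      _ = _ := by ring

/-- Expansion: two columns. -/
theorem xp_two [NeZero n] (hn : 2 ≤ n) (z : SLn k n) : Xp (m2 z.1 / (4 * en z.1)) 2 z.1 := by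
  obtain ⟨i, i', j, j', hm⟩ : ∃ i i' j j', m2 z.1 = ‖mi z.1 i i' j j'‖ := by
    obtain ⟨⟨⟨i, i'⟩, j, j'⟩, hm⟩ := Finite.exists_max
      fun p : (Fin n × Fin n) × Fin n × Fin n => ‖mi z.1 p.1.1 p.1.2 p.2.1 p.2.2‖
    refine ⟨i, i', j, j', le_antisymm (m2_le_of (norm_nonneg _) fun a a' b b' => ?_)
      (mi_le _ _ _ _ _)⟩
    exact hm ((a, a'), b, b')
  have hpos := m2_pos hn z
  have hen := en_pos (by omega) z
  have hjj : j ≠ j' := by
    rintro rfl
    have : mi z.1 i i' j j = 0 := by unfold mi; ring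
    rw [hm, this, norm_zero] at hpos
    exact lt_irrefl _ hpos
  -- coordinates
  have coord : ∀ a b : k, (z.1 *ᵥ (a • Pi.single j 1 + b • Pi.single j' 1)) i * z.1 i' j' -
      (z.1 *ᵥ (a • Pi.single j 1 + b • Pi.single j' 1)) i' * z.1 i j' =
        a * mi z.1 i i' j j' ∧
      (z.1 *ᵥ (a • Pi.single j 1 + b • Pi.single j' 1)) i' * z.1 i j -
      (z.1 *ᵥ (a • Pi.single j 1 + b • Pi.single j' 1)) i * z.1 i' j =
        b * mi z.1 i i' j j' := by
    intro a b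
    have e : ∀ l, (z.1 *ᵥ (a • Pi.single j 1 + b • Pi.single j' 1)) l =
        a * z.1 l j + b * z.1 l j' := by
      intro l
      rw [mulVec_add, mulVec_smul, mulVec_smul, mulVec_single_one, mulVec_single_one]
      rfl
    rw [e, e]
    unfold mi
    constructor <;> ring
  have bd : ∀ v : Fin n → k, ∀ l l' m m', ‖(z.1 *ᵥ v) l * z.1 l' m - (z.1 *ᵥ v) m' * z.1 l m‖ ≤
      2 * (‖z.1 *ᵥ v‖ * en z.1) := by
    intro v l l' m m'
    refine (norm_sub_le _ _).trans ?_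
    rw [norm_mul, norm_mul]
    have p1 := norm_le_pi_norm (z.1 *ᵥ v) l
    have p2 := norm_le_pi_norm (z.1 *ᵥ v) m'
    have p3 := entry_le z.1 l' m
    have p4 := entry_le z.1 l m
    have q1 := mul_le_mul p1 p3 (norm_nonneg _) (norm_nonneg _)
    have q2 := mul_le_mul p2 p4 (norm_nonneg _) (norm_nonneg _)
    linarith
  refine ⟨Submodule.span k (range ![Pi.single j 1, Pi.single j' 1]), ?_, fun v hv => ?_⟩
  · have hli : LinearIndependent k
        (![Pi.single j 1, Pi.single j' 1] : Fin 2 → Fin n → k) := by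
      rw [LinearIndependent.pair_iff]
      intro a b h
      have h1 := congrFun h j
      have h2 := congrFun h j'
      simp only [Pi.add_apply, Pi.smul_apply, Pi.single_eq_same, smul_eq_mul, mul_one,
        Pi.zero_apply, Pi.single_eq_of_ne hjj, Pi.single_eq_of_ne hjj.symm, mul_zero, add_zero,
        zero_add] at h1 h2
      exact ⟨h1, h2⟩
    rw [finrank_span_eq_card hli, Fintype.card_fin]
  · rw [Matrix.range_cons, Matrix.range_cons, Matrix.range_empty, union_empty] at hv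
    obtain ⟨a, b, rfl⟩ := Submodule.mem_span_pair.1 hv
    obtain ⟨c1, c2⟩ := coord a b
    obtain ⟨w, hw⟩ : ∃ w, w = z.1 *ᵥ (a • Pi.single j 1 + b • Pi.single j' 1) := ⟨_, rfl⟩
    rw [← hw] at c1 c2 ⊢
    have d1 : ‖a‖ * m2 z.1 ≤ 2 * (‖w‖ * en z.1) := by
      rw [hm, ← norm_mul, ← c1]
      refine (norm_sub_le _ _).trans ?_
      rw [norm_mul, norm_mul]
      have q1 := mul_le_mul (norm_le_pi_norm w i) (entry_le z.1 i' j') (norm_nonneg _)
        (norm_nonneg _)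
      have q2 := mul_le_mul (norm_le_pi_norm w i') (entry_le z.1 i j') (norm_nonneg _)
        (norm_nonneg _)
      linarith
    have d2 : ‖b‖ * m2 z.1 ≤ 2 * (‖w‖ * en z.1) := by
      rw [hm, ← norm_mul, ← c2]
      refine (norm_sub_le _ _).trans ?_
      rw [norm_mul, norm_mul]
      have q1 := mul_le_mul (norm_le_pi_norm w i') (entry_le z.1 i j) (norm_nonneg _)
        (norm_nonneg _)
      have q2 := mul_le_mul (norm_le_pi_norm w i) (entry_le z.1 i' j) (norm_nonneg _)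
        (norm_nonneg _)
      linarith
    have hs : ∀ l : Fin n, ‖(Pi.single l (1 : k) : Fin n → k)‖ ≤ 1 := by
      intro l
      rw [pi_norm_le_iff_of_nonneg zero_le_one]
      intro i
      by_cases hi : i = l
      · rw [hi, Pi.single_eq_same, norm_one]
      · rw [Pi.single_eq_of_ne hi, norm_zero]
        exact zero_le_one
    have d3 : ‖a • (Pi.single j 1 : Fin n → k) + b • Pi.single j' 1‖ ≤ ‖a‖ + ‖b‖ := by
      refine (norm_add_le _ _).trans ?_
      rw [norm_smul, norm_smul]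
      have := mul_le_mul_of_nonneg_left (hs j) (norm_nonneg a)
      have := mul_le_mul_of_nonneg_left (hs j') (norm_nonneg b)
      linarith
    rw [div_mul_eq_mul_div, div_le_iff₀ (by positivity)]
    calc m2 z.1 * ‖a • (Pi.single j 1 : Fin n → k) + b • Pi.single j' 1‖
        ≤ m2 z.1 * (‖a‖ + ‖b‖) := mul_le_mul_of_nonneg_left d3 hpos.le
      _ ≤ ‖w‖ * (4 * en z.1) := by linarith

end att

end Vale.Agent.P092.H899.T
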