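import Vale.Agent.P092.H264.S2Sl
import Vale.Agent.P092.PA.Fac

/-!
P092 (helper899), rank one chains, abstractly: a group acting on a closed cone of a finite dimensional
space.
-/

set_option linter.all false

open Filter Topology

namespace Vale.Agent.P092.H899.Un

open Vale.Agent.P092.H701
open Vale.Agent.P092.H264 (Chn)

/-- Ping-pong families with closed sets which are invariant under `Z` from the right. -/
def PPZ {G : Type} [Group G] [TopologicalSpace G] (Z : Set G) (b : ℕ → G) (K : Set G) : Prop :=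
  ∀ p : ℕ, ∃ N₀, ∀ N, N₀ ≤ N → ∃ (κ κ' : Fin p → G) (Bm Bp : Fin p → Set G),
    (∀ l, κ l ∈ K) ∧ (∀ l, κ' l ∈ K) ∧
    (∀ l, IsClosed (Bm l)) ∧ (∀ l, IsClosed (Bp l)) ∧
    (∀ l, ∀ z ∈ Z, ∀ x ∈ Bm l, x * z ∈ Bm l) ∧ (∀ l, ∀ z ∈ Z, ∀ x ∈ Bp l, x * z ∈ Bp l) ∧
    (∀ l l', l ≠ l' → Disjoint (Bm l) (Bm l')) ∧
    (∀ l l', l ≠ l' → Disjoint (Bp l) (Bp l')) ∧
    ∀ l x, x ∉ Bm l → κ l * b N * κ' l * x ∈ Bp l

namespace PPZ

variable {G : Type} [Group G] [TopologicalSpace G] {Z Z' : Set G} {b : ℕ → G} {K : Set G}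

theorem mono (h : PPZ Z b K) (hZ : Z' ⊆ Z) : PPZ Z' b K := by
  intro p
  obtain ⟨N₀, hN₀⟩ := h p
  refine ⟨N₀, fun N hN => ?_⟩
  obtain ⟨κ, κ', Bm, Bp, h1, h2, h3, h4, h5, h6, h7, h8, h9⟩ := hN₀ N hN
  exact ⟨κ, κ', Bm, Bp, h1, h2, h3, h4, fun l z hz => h5 l z (hZ hz), fun l z hz => h6 l z (hZ hz),
    h7, h8, h9⟩

/-- The chain of length one. -/
theorem chn (h : PPZ Z b K) (hK : IsCompact K) (hb : Tendsto b atTop (cocompact G)) :
    Chn G 1 := by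
  let _ : MeasurableSpace G := borel _
  have _ : BorelSpace G := ⟨rfl⟩
  refine ⟨{ b := fun _ N => b N, K := fun _ => K, compact := fun _ => hK,
            comm_b := fun i j hij => absurd hij (by omega),
            comm_K := fun i j hij => absurd hij (by omega), pp := ?_ }, fun _ => hb⟩
  intro _ p
  obtain ⟨N₀, hN₀⟩ := h p
  refine ⟨N₀, fun N hN => ?_⟩
  obtain ⟨κ, κ', Bm, Bp, h1, h2, h3, h4, h5, h6, h7, h8, h9⟩ := hN₀ N hN
  exact ⟨κ, κ', Bm, Bp, h1, h2, fun l => (h3 l).measurableSet, fun l => (h4 l).measurableSet,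
    h7, h8, h9⟩

theorem sat_of {H H' : Type} [Group H] [Group H'] {π : H →* H'} {S : Set H}
    (h : ∀ z, π z = 1 → ∀ x ∈ S, x * z ∈ S) : π ⁻¹' (π '' S) = S := by
  ext x
  constructor
  · rintro ⟨y, hy, hyx⟩
    have := h (y⁻¹ * x) (by rw [map_mul, map_inv, hyx, inv_mul_cancel]) y hy
    rwa [mul_inv_cancel_left] at this
  · intro hx
    exact ⟨x, hx, rfl⟩

/-- The chain of length one of a quotient. -/
theorem chn_quo [IsTopologicalGroup G] (W : Subgroup G) [W.Normal] (hW : IsCompact (W : Set G))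
    (h : PPZ (W : Set G) b K) (hK : IsCompact K) (hb : Tendsto b atTop (cocompact G)) :
    Chn (G ⧸ W) 1 := by
  let _ : MeasurableSpace (G ⧸ W) := borel _
  have _ : BorelSpace (G ⧸ W) := ⟨rfl⟩
  have hq : IsQuotientMap (QuotientGroup.mk' W) := QuotientGroup.isQuotientMap_mk (N := W)
  have hker : ∀ z, QuotientGroup.mk' W z = 1 → z ∈ W := fun z hz =>
    (QuotientGroup.eq_one_iff z).1 hz
  have hb' : Tendsto (fun N => QuotientGroup.mk' W (b N)) atTop (cocompact (G ⧸ W)) := by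
    rw [hasBasis_cocompact.tendsto_right_iff]
    intro C hC
    have h1 := PA.isCompact_preimage_mk W hW hC
    filter_upwards [hb h1.compl_mem_cocompact] with N hN
    exact hN
  refine ⟨{ b := fun _ N => QuotientGroup.mk' W (b N), K := fun _ => QuotientGroup.mk' W '' K,
            compact := fun _ => hK.image hq.continuous,
            comm_b := fun i j hij => absurd hij (by omega),
            comm_K := fun i j hij => absurd hij (by omega), pp := ?_ }, fun _ => hb'⟩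
  intro _ p
  obtain ⟨N₀, hN₀⟩ := h p
  refine ⟨N₀, fun N hN => ?_⟩
  obtain ⟨κ, κ', Bm, Bp, h1, h2, h3, h4, h5, h6, h7, h8, h9⟩ := hN₀ N hN
  have s5 : ∀ l, QuotientGroup.mk' W ⁻¹' (QuotientGroup.mk' W '' Bm l) = Bm l := fun l =>
    sat_of fun z hz => h5 l z (hker z hz)
  have s6 : ∀ l, QuotientGroup.mk' W ⁻¹' (QuotientGroup.mk' W '' Bp l) = Bp l := fun l =>
    sat_of fun z hz => h6 l z (hker z hz)
  have dis : ∀ {S T : Set G}, QuotientGroup.mk' W ⁻¹' (QuotientGroup.mk' W '' T) = T →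
      Disjoint S T → Disjoint (QuotientGroup.mk' W '' S) (QuotientGroup.mk' W '' T) := by
    intro S T hT hST
    rw [Set.disjoint_left]
    rintro _ ⟨x, hx, rfl⟩ hxT
    have : x ∈ QuotientGroup.mk' W ⁻¹' (QuotientGroup.mk' W '' T) := hxT
    rw [hT] at this
    exact (Set.disjoint_left.1 hST) hx this
  refine ⟨fun l => QuotientGroup.mk' W (κ l), fun l => QuotientGroup.mk' W (κ' l),
    fun l => QuotientGroup.mk' W '' Bm l, fun l => QuotientGroup.mk' W '' Bp l,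
    fun l => ⟨_, h1 l, rfl⟩, fun l => ⟨_, h2 l, rfl⟩, fun l => ?_, fun l => ?_,
    fun l l' hl => dis (s5 l') (h7 l l' hl), fun l l' hl => dis (s6 l') (h8 l l' hl), ?_⟩
  · have : IsClosed (QuotientGroup.mk' W '' Bm l) := by
      rw [← hq.isClosed_preimage, s5]
      exact h3 l
    exact this.measurableSet
  · have : IsClosed (QuotientGroup.mk' W '' Bp l) := by
      rw [← hq.isClosed_preimage, s6]
      exact h4 l
    exact this.measurableSet
  · intro l y hy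
    obtain ⟨x, rfl⟩ := hq.surjective y
    refine ⟨κ l * b N * κ' l * x, h9 l x fun hx => hy ⟨x, hx, rfl⟩, by simp only [map_mul]⟩

end PPZ

section abs

variable {n : Type} [Fintype n] {k : Type} [NontriviallyNormedField k] [ProperSpace k]

theorem exists_norm_eq [Nonempty n] (v : n → k) : ∃ m : k, ‖m‖ = ‖v‖ := by
  obtain ⟨j, hj⟩ := Finite.exists_max fun j => ‖v j‖
  exact ⟨v j, le_antisymm (norm_le_pi_norm v j) ((pi_norm_le_iff_of_nonneg (norm_nonneg _)).2 hj)⟩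

variable {C : Set (n → k)}

theorem lower [Nonempty n] (hC : IsClosed C) (hCs : ∀ (c : k), ∀ v ∈ C, c • v ∈ C)
    (g : (n → k) → ℝ) (hc : Continuous g) (hs : ∀ (c : k) v, g (c • v) = ‖c‖ * g v)
    (hp : ∀ v ∈ C, v ≠ 0 → 0 < g v) : ∃ m, 0 < m ∧ ∀ v ∈ C, m * ‖v‖ ≤ g v := by
  have h0 : g 0 = 0 := by
    have := hs 0 0
    rw [smul_zero, norm_zero, zero_mul] at this
    exact this
  have hcomp : IsCompact (Metric.sphere (0 : n → k) 1 ∩ C) :=
    (isCompact_sphere _ _).inter_right hC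
  have key : ∃ m, 0 < m ∧ ∀ v ∈ C, ‖v‖ = 1 → m ≤ g v := by
    rcases (Metric.sphere (0 : n → k) 1 ∩ C).eq_empty_or_nonempty with he | hne
    · refine ⟨1, one_pos, fun v h2 h1 => ?_⟩
      have : v ∈ Metric.sphere (0 : n → k) 1 ∩ C := ⟨mem_sphere_zero_iff_norm.2 h1, h2⟩
      rw [he] at this
      exact this.elim
    · obtain ⟨v₀, hv₀, hm⟩ := hcomp.exists_isMinOn hne hc.continuousOn
      have hn0 : v₀ ≠ 0 := by
        rintro rfl
        have := mem_sphere_zero_iff_norm.1 hv₀.1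
        rw [norm_zero] at this
        exact zero_ne_one this
      exact ⟨g v₀, hp v₀ hv₀.2 hn0, fun v h2 h1 => hm ⟨mem_sphere_zero_iff_norm.2 h1, h2⟩⟩
  obtain ⟨m, hm0, hm⟩ := key
  refine ⟨m, hm0, fun v hv => ?_⟩
  by_cases hv0 : v = 0
  · rw [hv0, norm_zero, mul_zero, h0]
  obtain ⟨c, hc⟩ := exists_norm_eq v
  have hc0 : c ≠ 0 := by
    rintro rfl
    rw [norm_zero] at hc
    exact hv0 (norm_eq_zero.1 hc.symm)
  have h1 : ‖c⁻¹ • v‖ = 1 := by
    rw [norm_smul, norm_inv, hc, inv_mul_cancel₀ (norm_ne_zero_iff.2 hv0)]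
  have h2 := hm (c⁻¹ • v) (hCs _ _ hv) h1
  rw [hs, norm_inv, hc] at h2
  have h3 : 0 < ‖v‖ := norm_pos_iff.2 hv0
  rw [inv_mul_eq_div, le_div_iff₀ h3] at h2
  exact h2

theorem sep [Nonempty n] (hC : IsClosed C) (hCs : ∀ (c : k), ∀ v ∈ C, c • v ∈ C)
    {W : Type*} [NormedAddCommGroup W]
    [NormedSpace k W] (A A' : (n → k) →L[k] W) (g g' : (n → k) →L[k] (n → k))
    (hp : ∀ v ∈ C, v ≠ 0 → A v = 0 → A' v = 0 → False) :
    ∀ᶠ η in 𝓝[>] (0 : ℝ), ∀ v ∈ C, v ≠ 0 →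
      ‖A v‖ ≤ η * ‖g v‖ → ‖A' v‖ ≤ η * ‖g' v‖ → False := by
  obtain ⟨m, hm0, hm⟩ := lower hC hCs (fun v => ‖A v‖ + ‖A' v‖) (by fun_prop)
    (fun c v => by rw [map_smul, map_smul, norm_smul, norm_smul, mul_add]) (by
      intro v hv hv0
      by_contra hcon
      push Not at hcon
      have h1 := norm_nonneg (A v)
      have h2 := norm_nonneg (A' v)
      exact hp v hv hv0 (norm_eq_zero.1 (by linarith)) (norm_eq_zero.1 (by linarith)))
  have hpos : 0 < m / (‖g‖ + ‖g'‖ + 1) := by positivity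
  have h1 : ∀ᶠ η in 𝓝[>] (0 : ℝ), η < m / (‖g‖ + ‖g'‖ + 1) :=
    mem_nhdsWithin_of_mem_nhds (Iio_mem_nhds hpos)
  filter_upwards [h1, self_mem_nhdsWithin] with η h2 h3 v hv hv0 ha ha'
  have h4 := hm v hv
  have h5 : 0 < ‖v‖ := norm_pos_iff.2 hv0
  have h6 := g.le_opNorm v
  have h7 := g'.le_opNorm v
  have h3' : (0 : ℝ) < η := h3
  rw [lt_div_iff₀ (by positivity)] at h2
  have h8 : ‖A v‖ + ‖A' v‖ ≤ η * ((‖g‖ + ‖g'‖) * ‖v‖) := by
    calc ‖A v‖ + ‖A' v‖ ≤ η * ‖g v‖ + η * ‖g' v‖ := add_le_add ha ha'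
      _ = η * (‖g v‖ + ‖g' v‖) := by ring
      _ ≤ η * (‖g‖ * ‖v‖ + ‖g'‖ * ‖v‖) := mul_le_mul_of_nonneg_left (add_le_add h6 h7) h3'.le
      _ = _ := by ring
  have h9 : m * ‖v‖ ≤ (η * (‖g‖ + ‖g'‖)) * ‖v‖ := by
    calc m * ‖v‖ ≤ η * ((‖g‖ + ‖g'‖) * ‖v‖) := h4.trans h8
      _ = _ := by ring
  have h10 := le_of_mul_le_mul_right h9 h5
  nlinarith

/-- `u ↦ u - φ(u) e` -/
noncomputable def rem (φ : (n → k) →L[k] k) (e : n → k) : (n → k) →L[k] (n → k) :=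
  ContinuousLinearMap.id k (n → k) - φ.smulRight e

omit [ProperSpace k] in
theorem rem_apply (φ : (n → k) →L[k] k) (e u : n → k) : rem φ e u = u - φ u • e := rfl

/-- The ping-pong family. -/
theorem ppz_of [Nonempty n] {G : Type} [Group G] [TopologicalSpace G] [IsTopologicalGroup G]
    (act : G → (n → k) →L[k] (n → k)) (hone : ∀ v, act 1 v = v)
    (hmul : ∀ g h v, act (g * h) v = act g (act h v)) (hcont : ∀ v, Continuous fun x => act x v)
    (hC : IsClosed C) (hCs : ∀ (c : k), ∀ v ∈ C, c • v ∈ C) (hCa : ∀ g, ∀ v ∈ C, act g v ∈ C)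
    {e f : n → k} (heC : e ∈ C) (he0 : e ≠ 0) (φ ψ : (n → k) →L[k] k) (hφe : φ e = 1)
    (hφf : φ f = 0) {b : ℕ → G} {t : k} (ht1 : 1 < ‖t‖)
    (hb : ∀ N v, act (b N) v = v + ((t ^ N - 1) * φ v) • e + (((t ^ N)⁻¹ - 1) * ψ v) • f)
    {K : Set G} (hK : ∀ p : ℕ, ∃ κ κ' : Fin p → G, (∀ l, κ l ∈ K) ∧ (∀ l, κ' l ∈ K) ∧
      (∀ l l', l ≠ l' → ∀ v ∈ C, v ≠ 0 → φ (act (κ' l) v) = 0 → φ (act (κ' l') v) = 0 → False) ∧
      ∀ l l', l ≠ l' → ∀ v ∈ C, v ≠ 0 → (∃ a : k, v = a • act (κ l) e) →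
        (∃ a : k, v = a • act (κ l') e) → False) :
    PPZ {z | ∃ a : k, act z e = a • e} b K := by
  intro p
  obtain ⟨κ, κ', hκK, hκ'K, hS1, hS2⟩ := hK p
  have hinv : ∀ g v, act g (act g⁻¹ v) = v := fun g v => by
    rw [← hmul, mul_inv_cancel, hone]
  have hinv' : ∀ g v, act g⁻¹ (act g v) = v := fun g v => by
    rw [← hmul, inv_mul_cancel, hone]
  have hne : ∀ g, act g e ≠ 0 := fun g h0 => he0 (by
    rw [← hinv' g e, h0, map_zero])
  -- separation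
  have s1 : ∀ᶠ η in 𝓝[>] (0 : ℝ), ∀ l l', l ≠ l' → ∀ v ∈ C, v ≠ 0 →
      ‖φ (act (κ' l) v)‖ ≤ η * ‖act (κ' l) v‖ →
      ‖φ (act (κ' l') v)‖ ≤ η * ‖act (κ' l') v‖ → False := by
    refine eventually_all.2 fun l => eventually_all.2 fun l' => ?_
    refine eventually_imp_distrib_left.2 fun hne => ?_
    exact sep hC hCs (φ.comp (act (κ' l))) (φ.comp (act (κ' l'))) (act (κ' l)) (act (κ' l'))
      (fun v hv hv0 h1 h2 => hS1 l l' hne v hv hv0 h1 h2)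
  have s2 : ∀ᶠ η in 𝓝[>] (0 : ℝ), ∀ l l', l ≠ l' → ∀ v ∈ C, v ≠ 0 →
      ‖rem φ e (act (κ l)⁻¹ v)‖ ≤ η * ‖act (κ l)⁻¹ v‖ →
      ‖rem φ e (act (κ l')⁻¹ v)‖ ≤ η * ‖act (κ l')⁻¹ v‖ → False := by
    refine eventually_all.2 fun l => eventually_all.2 fun l' => ?_
    refine eventually_imp_distrib_left.2 fun hne => ?_
    refine sep hC hCs ((rem φ e).comp (act (κ l)⁻¹)) ((rem φ e).comp (act (κ l')⁻¹))
      (act (κ l)⁻¹) (act (κ l')⁻¹) (fun v hv hv0 h1 h2 => hS2 l l' hne v hv hv0 ?_ ?_)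
    · have h3 : act (κ l)⁻¹ v = φ (act (κ l)⁻¹ v) • e := sub_eq_zero.1 h1
      refine ⟨φ (act (κ l)⁻¹ v), ?_⟩
      rw [← map_smul, ← h3, hinv]
    · have h3 : act (κ l')⁻¹ v = φ (act (κ l')⁻¹ v) • e := sub_eq_zero.1 h2
      refine ⟨φ (act (κ l')⁻¹ v), ?_⟩
      rw [← map_smul, ← h3, hinv]
  obtain ⟨η, ⟨hs1, hs2⟩, hη⟩ := ((s1.and s2).and self_mem_nhdsWithin).exists
  have hη0 : (0 : ℝ) < η := hη
  have hpos : 0 < η ^ 2 * ‖e‖ := by
    have := norm_pos_iff.2 he0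
    positivity
  obtain ⟨N₀, hN₀⟩ := pow_unbounded_of_one_lt
    ((‖rem φ e‖ + 2 * (‖ψ‖ * ‖f‖)) * (1 + η) / (η ^ 2 * ‖e‖)) ht1
  have cc : ∀ g : G, Continuous fun x => act (g * x) e := fun g =>
    (hcont e).comp (continuous_const.mul continuous_id)
  refine ⟨N₀, fun N hN => ⟨κ, κ',
    fun l => {x | ‖φ (act (κ' l * x) e)‖ ≤ η * ‖act (κ' l * x) e‖},
    fun l => {x | ‖rem φ e (act ((κ l)⁻¹ * x) e)‖ ≤ η * ‖act ((κ l)⁻¹ * x) e‖},
    hκK, hκ'K, ?_, ?_, ?_, ?_, ?_, ?_, ?_⟩⟩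
  · intro l
    exact isClosed_le (φ.continuous.comp (cc _)).norm (continuous_const.mul (cc _).norm)
  · intro l
    exact isClosed_le ((rem φ e).continuous.comp (cc _)).norm (continuous_const.mul (cc _).norm)
  · rintro l z ⟨a, ha⟩ x hx
    have hx' : ‖φ (act (κ' l * x) e)‖ ≤ η * ‖act (κ' l * x) e‖ := hx
    show ‖φ (act (κ' l * (x * z)) e)‖ ≤ η * ‖act (κ' l * (x * z)) e‖
    rw [← mul_assoc, hmul (κ' l * x) z e, ha, map_smul, map_smul, norm_smul, norm_smul]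
    have := mul_le_mul_of_nonneg_left hx' (norm_nonneg a)
    linarith
  · rintro l z ⟨a, ha⟩ x hx
    have hx' : ‖rem φ e (act ((κ l)⁻¹ * x) e)‖ ≤ η * ‖act ((κ l)⁻¹ * x) e‖ := hx
    show ‖rem φ e (act ((κ l)⁻¹ * (x * z)) e)‖ ≤ η * ‖act ((κ l)⁻¹ * (x * z)) e‖
    rw [← mul_assoc, hmul ((κ l)⁻¹ * x) z e, ha, map_smul, map_smul, norm_smul, norm_smul]
    have := mul_le_mul_of_nonneg_left hx' (norm_nonneg a)
    linarith
  · intro l l' hne'
    rw [Set.disjoint_left]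
    intro x hx hx'
    refine hs1 l l' hne' _ (hCa x e heC) (hne x) ?_ ?_
    · rw [← hmul]
      exact hx
    · rw [← hmul]
      exact hx'
  · intro l l' hne'
    rw [Set.disjoint_left]
    intro x hx hx'
    refine hs2 l l' hne' _ (hCa x e heC) (hne x) ?_ ?_
    · rw [← hmul]
      exact hx
    · rw [← hmul]
      exact hx'
  · intro l x hx
    have hx' : ¬ ‖φ (act (κ' l * x) e)‖ ≤ η * ‖act (κ' l * x) e‖ := hx
    push Not at hx'
    have hg : (κ l)⁻¹ * (κ l * b N * κ' l * x) = b N * (κ' l * x) := by group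
    show ‖rem φ e (act ((κ l)⁻¹ * (κ l * b N * κ' l * x)) e)‖ ≤
      η * ‖act ((κ l)⁻¹ * (κ l * b N * κ' l * x)) e‖
    rw [hg, hmul (b N) (κ' l * x) e]
    set u := act (κ' l * x) e with hu
    have ht0 : t ≠ 0 := by
      rintro rfl
      rw [norm_zero] at ht1
      linarith
    have hdN := hb N
    set T := t ^ N with hT
    have hT1 : 1 ≤ ‖T‖ := by rw [hT, norm_pow]; exact one_le_pow₀ ht1.le
    have hT0 : T ≠ 0 := pow_ne_zero _ ht0
    have hv : act (b N) u = u + ((T - 1) * φ u) • e + ((T⁻¹ - 1) * ψ u) • f := hdN u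
    have hvf : φ (act (b N) u) = T * φ u := by
      rw [hv, map_add, map_add, map_smul, map_smul, hφe, hφf, smul_eq_mul, smul_eq_mul]
      ring
    have hrem : rem φ e (act (b N) u) = rem φ e u + (T⁻¹ - 1) • (ψ u • f) := by
      rw [rem_apply, rem_apply, hvf, hv]
      module
    set D := ‖rem φ e‖ + 2 * (‖ψ‖ * ‖f‖) with hD
    have hTi : ‖T⁻¹ - 1‖ ≤ 2 := by
      calc ‖T⁻¹ - 1‖ ≤ ‖T⁻¹‖ + ‖(1 : k)‖ := norm_sub_le _ _
        _ ≤ 1 + 1 := by
          rw [norm_one, norm_inv]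
          exact add_le_add (inv_le_one_of_one_le₀ hT1) le_rfl
        _ = 2 := by norm_num
    have h1 : ‖rem φ e (act (b N) u)‖ ≤ D * ‖u‖ := by
      rw [hrem]
      calc ‖rem φ e u + (T⁻¹ - 1) • (ψ u • f)‖ ≤ ‖rem φ e u‖ +
            ‖(T⁻¹ - 1) • (ψ u • f)‖ := norm_add_le _ _
        _ ≤ ‖rem φ e‖ * ‖u‖ + 2 * (‖ψ‖ * ‖u‖ * ‖f‖) := by
            refine add_le_add ((rem φ e).le_opNorm u) ?_
            rw [norm_smul, norm_smul]
            refine mul_le_mul hTi ?_ (by positivity) (by norm_num)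
            exact mul_le_mul_of_nonneg_right (ψ.le_opNorm u) (norm_nonneg _)
        _ = D * ‖u‖ := by rw [hD]; ring
    have h2 : ‖T‖ * (η * ‖u‖) * ‖e‖ - D * ‖u‖ ≤ ‖act (b N) u‖ := by
      have q2 : ‖(T * φ u) • e‖ ≤ ‖act (b N) u‖ + ‖rem φ e (act (b N) u)‖ := by
        have q3 : (T * φ u) • e = act (b N) u - rem φ e (act (b N) u) := by
          rw [rem_apply, hvf]
          abel
        rw [q3]
        exact norm_sub_le _ _
      have q4 : ‖T‖ * (η * ‖u‖) * ‖e‖ ≤ ‖(T * φ u) • e‖ := by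
        rw [norm_smul, norm_mul]
        refine mul_le_mul_of_nonneg_right ?_ (norm_nonneg _)
        exact mul_le_mul_of_nonneg_left hx'.le (norm_nonneg _)
      linarith
    have h3 : D * (1 + η) ≤ ‖T‖ * (η ^ 2 * ‖e‖) := by
      have q1 : D * (1 + η) / (η ^ 2 * ‖e‖) ≤ ‖t‖ ^ N :=
        hN₀.le.trans (pow_le_pow_right₀ ht1.le hN)
      rw [div_le_iff₀ hpos] at q1
      rw [hT, norm_pow]
      exact q1
    have h4 : 0 ≤ ‖u‖ := norm_nonneg _
    have h5 : D * (1 + η) * ‖u‖ ≤ ‖T‖ * (η ^ 2 * ‖e‖) * ‖u‖ := mul_le_mul_of_nonneg_right h3 h4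
    have h6 : η * (‖T‖ * (η * ‖u‖) * ‖e‖ - D * ‖u‖) ≤ η * ‖act (b N) u‖ :=
      mul_le_mul_of_nonneg_left h2 hη0.le
    nlinarith

end abs

end Vale.Agent.P092.H899.Un
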